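import Vale.Agent.P161.SysDefs

/-!
# P161, M3: the one dimensional channel
-/

open MeasureTheory

namespace P161

theorem Qf_den_pos {κ m w : ℝ} (hκ : 0 ≤ κ) (hκ1 : κ < 1) (hm : |m| ≤ 1) :
    0 < (1 - κ * m) + Real.sqrt ((1 - κ * m) ^ 2 + 4 * (κ * m) * w) := by
  have h1 : κ * m ≤ κ := by
    have := abs_le.1 hm
    nlinarith
  have := Real.sqrt_nonneg ((1 - κ * m) ^ 2 + 4 * (κ * m) * w)
  linarith

/-- the quadratic equation -/
theorem Qf_disc_nonneg {a w : ℝ} (ha : |a| < 1) (hw : w ∈ Set.Icc (0 : ℝ) 1) :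
    0 ≤ (1 - a) ^ 2 + 4 * a * w := by
  obtain ⟨h0, h1⟩ := hw
  obtain ⟨h2, h3⟩ := abs_lt.1 ha
  nlinarith [mul_nonneg h0 (by linarith : (0:ℝ) ≤ 1 + a), sq_nonneg (1 - a), sq_nonneg (1 + a),
    mul_nonneg h0 (sub_nonneg.2 h1)]

theorem abs_mul_lt {κ m : ℝ} (hκ : 0 ≤ κ) (hκ1 : κ < 1) (hm : |m| ≤ 1) : |κ * m| < 1 := by
  rw [abs_mul, abs_of_nonneg hκ]
  nlinarith [abs_nonneg m]

theorem cdfF_Qf {κ m w : ℝ} (hκ : 0 ≤ κ) (hκ1 : κ < 1) (hm : |m| ≤ 1)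
    (hw : w ∈ Set.Icc (0 : ℝ) 1) : cdfF κ m (Qf κ m w) = w := by
  have ha := abs_mul_lt hκ hκ1 hm
  have hden := Qf_den_pos (w := w) hκ hκ1 hm
  have hdisc := Qf_disc_nonneg ha hw
  unfold cdfF Qf
  set a := κ * m with ha'
  set D := Real.sqrt ((1 - a) ^ 2 + 4 * a * w) with hD
  have hD2 : D ^ 2 = (1 - a) ^ 2 + 4 * a * w := Real.sq_sqrt hdisc
  set q := 2 * w / (1 - a + D) with hq
  have hq1 : q * (1 - a + D) = 2 * w := div_mul_cancel₀ _ hden.ne'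
  -- want q - a * q * (1 - q) = w
  have key : (q - a * q * (1 - q) - w) * (1 - a + D) ^ 2 = 0 := by
    have h2 : (q - a * q * (1 - q) - w) * (1 - a + D) ^ 2 =
        (1 - a) * (q * (1 - a + D)) * (1 - a + D) + a * (q * (1 - a + D)) ^ 2
          - w * (1 - a + D) ^ 2 := by ring
    rw [h2, hq1]
    linear_combination (-w) * hD2
  have h3 : (q - a * q * (1 - q) - w) = 0 := by
    rcases mul_eq_zero.1 key with h | h
    · exact h
    · exact absurd h (pow_ne_zero 2 hden.ne')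
  linarith

theorem cdfF_strictMono {κ m y z : ℝ} (hκ : 0 ≤ κ) (hκ1 : κ < 1) (hm : |m| ≤ 1)
    (hy : y ∈ Set.Icc (0 : ℝ) 1) (hz : z ∈ Set.Icc (0 : ℝ) 1) (hyz : y < z) :
    (1 - κ) * (z - y) ≤ cdfF κ m z - cdfF κ m y := by
  have ha := abs_mul_lt hκ hκ1 hm
  unfold cdfF
  obtain ⟨h2, h3⟩ := abs_le.1 hm
  have h4 : cdfF κ m z - cdfF κ m y = (z - y) * (1 - κ * m * (1 - y - z)) := by
    unfold cdfF; ring
  have h5 : |m * (1 - y - z)| ≤ 1 := by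
    rw [abs_mul]
    have : |1 - y - z| ≤ 1 := by
      rw [abs_le]; constructor <;> linarith [hy.1, hy.2, hz.1, hz.2]
    calc |m| * |1 - y - z| ≤ 1 * 1 := by gcongr
      _ = 1 := by ring
  have h6 := le_abs_self (m * (1 - y - z))
  have h7 : κ * (m * (1 - y - z)) ≤ κ := by nlinarith
  have h8 : (z - y) * (1 - κ * m * (1 - y - z)) ≥ (z - y) * (1 - κ) := by
    apply mul_le_mul_of_nonneg_left _ (by linarith)
    nlinarith
  nlinarith [h4]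

theorem cdfF_inj {κ m y z : ℝ} (hκ : 0 ≤ κ) (hκ1 : κ < 1) (hm : |m| ≤ 1)
    (hy : y ∈ Set.Icc (0 : ℝ) 1) (hz : z ∈ Set.Icc (0 : ℝ) 1) (h : cdfF κ m y = cdfF κ m z) :
    y = z := by
  rcases lt_trichotomy y z with h1 | h1 | h1
  · have := cdfF_strictMono hκ hκ1 hm hy hz h1
    nlinarith
  · exact h1
  · have := cdfF_strictMono hκ hκ1 hm hz hy h1
    nlinarith

theorem cdfF_mem {κ m y : ℝ} (hκ : 0 ≤ κ) (hκ1 : κ < 1) (hm : |m| ≤ 1)
    (hy : y ∈ Set.Icc (0 : ℝ) 1) : cdfF κ m y ∈ Set.Icc (0 : ℝ) 1 := by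
  have ha := abs_lt.1 (abs_mul_lt hκ hκ1 hm)
  obtain ⟨h0, h1⟩ := hy
  unfold cdfF
  constructor
  · nlinarith [mul_nonneg h0 (sub_nonneg.2 h1), mul_nonneg h0 h0]
  · nlinarith [mul_nonneg h0 (sub_nonneg.2 h1), mul_nonneg (sub_nonneg.2 h1) (sub_nonneg.2 h1)]

theorem Qf_mem {κ m w : ℝ} (hκ : 0 ≤ κ) (hκ1 : κ < 1) (hm : |m| ≤ 1)
    (hw : w ∈ Set.Icc (0 : ℝ) 1) : Qf κ m w ∈ Set.Icc (0 : ℝ) 1 := by
  have ha := abs_mul_lt hκ hκ1 hm
  have hden := Qf_den_pos (w := w) hκ hκ1 hm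
  have hdisc := Qf_disc_nonneg ha hw
  obtain ⟨h0, h1⟩ := hw
  unfold Qf
  constructor
  · exact div_nonneg (by linarith) hden.le
  · rw [div_le_one hden]
    set a := κ * m
    -- 2 w ≤ 1 - a + D, i.e. 2w - 1 + a ≤ D
    have h2 : 2 * w - 1 + a ≤ Real.sqrt ((1 - a) ^ 2 + 4 * a * w) := by
      apply Real.le_sqrt_of_sq_le
      obtain ⟨h3, h4⟩ := abs_lt.1 ha
      nlinarith [mul_nonneg h0 (sub_nonneg.2 h1)]
    linarith

theorem Qf_cdfF {κ m y : ℝ} (hκ : 0 ≤ κ) (hκ1 : κ < 1) (hm : |m| ≤ 1)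
    (hy : y ∈ Set.Icc (0 : ℝ) 1) : Qf κ m (cdfF κ m y) = y :=
  cdfF_inj hκ hκ1 hm (Qf_mem hκ hκ1 hm (cdfF_mem hκ hκ1 hm hy)) hy
    (cdfF_Qf hκ hκ1 hm (cdfF_mem hκ hκ1 hm hy))

theorem Qf_lip {κ m m' w w' : ℝ} (hκ : 0 ≤ κ) (hκ1 : κ < 1) (hm : |m| ≤ 1) (hm' : |m'| ≤ 1)
    (hw : w ∈ Set.Icc (0 : ℝ) 1) (hw' : w' ∈ Set.Icc (0 : ℝ) 1) :
    |Qf κ m w - Qf κ m' w'| ≤ (|w - w'| + κ / 4 * |m - m'|) / (1 - κ) := by
  have hy := Qf_mem hκ hκ1 hm hw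
  have hz := Qf_mem hκ hκ1 hm' hw'
  have h1 := cdfF_Qf hκ hκ1 hm hw
  have h2 := cdfF_Qf hκ hκ1 hm' hw'
  set y := Qf κ m w
  set z := Qf κ m' w'
  rw [le_div_iff₀ (by linarith)]
  -- cdfF m y - cdfF m z = w - w' + κ (m - m') z (1-z)
  have h3 : cdfF κ m y - cdfF κ m z = (w - w') + κ * (m - m') * (z * (1 - z)) := by
    have : cdfF κ m z = cdfF κ m' z - κ * (m - m') * (z * (1 - z)) := by unfold cdfF; ring
    rw [h1, this, h2]; ring
  have h4 : |cdfF κ m y - cdfF κ m z| ≤ |w - w'| + κ / 4 * |m - m'| := by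
    rw [h3]
    refine (abs_add_le _ _).trans ?_
    gcongr
    rw [abs_mul, abs_mul, abs_of_nonneg hκ]
    have h5 : |z * (1 - z)| ≤ 1 / 4 := by
      rw [abs_of_nonneg (mul_nonneg hz.1 (sub_nonneg.2 hz.2))]
      nlinarith [sq_nonneg (z - 1 / 2)]
    calc κ * |m - m'| * |z * (1 - z)| ≤ κ * |m - m'| * (1 / 4) := by gcongr
      _ = κ / 4 * |m - m'| := by ring
  refine le_trans ?_ h4
  rcases lt_trichotomy y z with h | h | h
  · have h6 := cdfF_strictMono hκ hκ1 hm hy hz h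
    rw [abs_sub_comm y z, abs_of_pos (by linarith), abs_sub_comm]
    exact le_trans (by linarith) (le_abs_self _)
  · rw [h]; simp
  · have h6 := cdfF_strictMono hκ hκ1 hm hz hy h
    rw [abs_of_pos (by linarith : 0 < y - z)]
    exact le_trans (by linarith) (le_abs_self _)

theorem measurable_Qf : Measurable (fun p : ℝ × ℝ × ℝ => Qf p.1 p.2.1 p.2.2) := by
  unfold Qf
  have h1 : Measurable (fun p : ℝ × ℝ × ℝ => p.1) := measurable_fst
  have h2 : Measurable (fun p : ℝ × ℝ × ℝ => p.2.1) := measurable_fst.comp measurable_snd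
  have h3 : Measurable (fun p : ℝ × ℝ × ℝ => p.2.2) := measurable_snd.comp measurable_snd
  refine (h3.const_mul 2).div ((measurable_const.sub (h1.mul h2)).add (Measurable.sqrt ?_))
  exact (((measurable_const.sub (h1.mul h2)).pow_const 2).add
    (((h1.mul h2).const_mul 4).mul h3))

theorem hasDerivAt_cdfF (κ m y : ℝ) :
    HasDerivAt (cdfF κ m) (1 + κ * m * (2 * y - 1)) y := by
  have h1 : HasDerivAt (fun y : ℝ => y - κ * m * y * (1 - y))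
      (1 - ((κ * m * 1) * (1 - y) + (κ * m * y) * (0 - 1))) y := by
    have h2 := hasDerivAt_id y
    exact h2.sub (((h2.const_mul (κ * m))).mul ((hasDerivAt_const y (1 : ℝ)).sub h2))
  have h3 : (1 - ((κ * m * 1) * (1 - y) + (κ * m * y) * (0 - 1))) =
      1 + κ * m * (2 * y - 1) := by ring
  rw [h3] at h1
  exact h1

/-- one dimensional transport -/
theorem integral_Qf {κ m : ℝ} (hκ : 0 ≤ κ) (hκ1 : κ < 1) (hm : |m| ≤ 1) (g : ℝ → ℝ)
    (_hg : Measurable g) (_hb : ∃ C, ∀ y, |g y| ≤ C) :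
    ∫ w : unitInterval, g (Qf κ m w) = ∫ y : unitInterval, g y * (1 + κ * m * (2 * y - 1)) := by
  have h1 : ∫ w : unitInterval, g (Qf κ m w) = ∫ x in Set.Icc (0 : ℝ) 1, g (Qf κ m x) :=
    integral_subtype measurableSet_Icc (fun x => g (Qf κ m x))
  have h2 : ∫ y : unitInterval, g y * (1 + κ * m * (2 * y - 1)) =
      ∫ y in Set.Icc (0 : ℝ) 1, g y * (1 + κ * m * (2 * y - 1)) :=
    integral_subtype measurableSet_Icc (fun y => g y * (1 + κ * m * (2 * y - 1)))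
  have himg : cdfF κ m '' Set.Icc (0 : ℝ) 1 = Set.Icc (0 : ℝ) 1 := by
    ext w
    constructor
    · rintro ⟨y, hy, rfl⟩
      exact cdfF_mem hκ hκ1 hm hy
    · intro hw
      exact ⟨Qf κ m w, Qf_mem hκ hκ1 hm hw, cdfF_Qf hκ hκ1 hm hw⟩
  have h3 := integral_image_eq_integral_abs_deriv_smul (measurableSet_Icc (a := (0 : ℝ)) (b := 1))
    (fun y _ => (hasDerivAt_cdfF κ m y).hasDerivWithinAt)
    (fun y hy z hz h => cdfF_inj hκ hκ1 hm hy hz h) (fun x => g (Qf κ m x))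
  rw [himg] at h3
  rw [h1, h2, h3]
  refine setIntegral_congr_fun measurableSet_Icc fun y hy => ?_
  simp only [smul_eq_mul]
  rw [Qf_cdfF hκ hκ1 hm hy]
  have h4 := abs_lt.1 (abs_mul_lt hκ hκ1 hm)
  have h5 : 0 ≤ 1 + κ * m * (2 * y - 1) := by
    have h6 : |κ * m * (2 * y - 1)| ≤ 1 := by
      rw [abs_mul]
      have h7 : |2 * y - 1| ≤ 1 := by rw [abs_le]; constructor <;> linarith [hy.1, hy.2]
      calc |κ * m| * |2 * y - 1| ≤ 1 * 1 := by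
            gcongr
            exact (abs_mul_lt hκ hκ1 hm).le
        _ = 1 := by ring
    linarith [(abs_le.1 h6).1]
  rw [abs_of_nonneg h5]
  ring

end P161
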