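import Vale.Agent.P161.SysDefs

/-!
# P161, module M6 (second part): marginals of the observation density, martingale orthogonality
-/

open MeasureTheory
open scoped unitInterval

namespace P161

variable {S E : Type*}

/-! ### Reflection of one coordinate -/

open Classical in
/-- reflection of one coordinate -/
noncomputable def refl1 (e : E) (y : E → I) : E → I :=
  fun f => if f = e then unitInterval.symm (y f) else y f

theorem refl1_self (e : E) (y : E → I) : refl1 e y e = unitInterval.symm (y e) := by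
  simp [refl1]

theorem refl1_of_ne {e f : E} (h : f ≠ e) (y : E → I) : refl1 e y f = y f := by
  simp [refl1, h]

theorem measurePreserving_refl1 (e : E) :
    MeasurePreserving (refl1 e) (noise E) (noise E) := by
  classical
  have hm : ∀ f : E, Measurable (fun u : I => if f = e then unitInterval.symm u else u) := by
    intro f
    by_cases h : f = e
    · simp only [h, if_true]; exact unitInterval.measurable_symm
    · simp only [h, if_false]; exact measurable_id
  refine ⟨measurable_pi_lambda _ fun f => (hm f).comp (measurable_pi_apply f), ?_⟩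
  unfold noise
  have h1 := Measure.infinitePi_map_pi (fun _ : E => (volume : Measure I)) hm
  have h2 : (fun (x : E → I) (i : E) => if i = e then unitInterval.symm (x i) else x i)
      = refl1 e := rfl
  rw [h2] at h1
  rw [h1]
  congr 1
  funext f
  by_cases h : f = e
  · simp only [h, if_true]; exact unitInterval.measurePreserving_symm.map_eq
  · simp only [h, if_false]; exact Measure.map_id

theorem integral_odd (e : E) (g : (E → I) → ℝ) (hm : Measurable g)
    (hg : ∀ y, g (refl1 e y) = - g y) : ∫ y, g y ∂(noise E) = 0 := by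
  have h1 : ∫ y, g y ∂(noise E) = ∫ y, g (refl1 e y) ∂(noise E) := by
    conv_lhs => rw [← (measurePreserving_refl1 e).map_eq]
    exact integral_map (measurePreserving_refl1 e).measurable.aemeasurable
      hm.aestronglyMeasurable
  simp_rw [hg] at h1
  rw [integral_neg] at h1
  linarith

theorem meas_cw : Measurable (cw : (E → I) → E → ℝ) :=
  measurable_pi_lambda _ fun e => measurable_subtype_coe.comp (measurable_pi_apply e)

theorem meas_cw_apply (e : E) : Measurable (fun y : E → I => cw y e) :=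
  measurable_subtype_coe.comp (measurable_pi_apply e)

theorem cw_mem_Icc (y : E → I) (e : E) : cw y e ∈ Set.Icc (0 : ℝ) 1 := (y e).2

theorem integrable_bdd {g : (E → I) → ℝ} (hm : Measurable g) (hb : ∃ C, ∀ y, |g y| ≤ C) :
    Integrable g (noise E) := by
  obtain ⟨C, hC⟩ := hb
  exact Integrable.of_bound hm.aestronglyMeasurable C (Filter.Eventually.of_forall hC)

namespace Sys

variable (M : Sys S E)

/-! ### Likelihoods -/

theorem lik_insert [DecidableEq E] {A : Finset E} {e : E} (he : e ∉ A) (y : E → ℝ) (s : S) :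
    M.lik (insert e A) y s = (1 + M.κ * M.x s e * (2 * y e - 1)) * M.lik A y s := by
  unfold lik
  rw [Finset.prod_insert he]

theorem lik_congr {A : Finset E} {y y' : E → ℝ} (h : ∀ e ∈ A, y e = y' e) (s : S) :
    M.lik A y s = M.lik A y' s := by
  unfold lik
  exact Finset.prod_congr rfl fun e he => by rw [h e he]

theorem fac_bounds (s : S) (e : E) {t : ℝ} (ht : t ∈ Set.Icc (0 : ℝ) 1) :
    1 - M.κ ≤ 1 + M.κ * M.x s e * (2 * t - 1) ∧ 1 + M.κ * M.x s e * (2 * t - 1) ≤ 1 + M.κ := by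
  have h1 : |M.κ * M.x s e * (2 * t - 1)| ≤ M.κ := by
    rw [abs_mul, abs_mul, abs_of_nonneg M.κ_nonneg]
    have h2 : |2 * t - 1| ≤ 1 := by
      rw [abs_le]; constructor <;> linarith [ht.1, ht.2]
    have h3 : M.κ * |M.x s e| ≤ M.κ := mul_le_of_le_one_right M.κ_nonneg (M.x_abs s e)
    calc M.κ * |M.x s e| * |2 * t - 1| ≤ M.κ * 1 :=
          mul_le_mul h3 h2 (abs_nonneg _) M.κ_nonneg
      _ = M.κ := mul_one _
  rw [abs_le] at h1
  constructor <;> linarith [h1.1, h1.2]

theorem lik_pos' (A : Finset E) {y : E → ℝ} (hy : ∀ f, y f ∈ Set.Icc (0 : ℝ) 1) (s : S) :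
    0 < M.lik A y s := by
  unfold lik
  refine Finset.prod_pos fun e _ => ?_
  have := (M.fac_bounds s e (hy e)).1
  have := M.κ_lt
  linarith

theorem lik_le' (A : Finset E) {y : E → ℝ} (hy : ∀ f, y f ∈ Set.Icc (0 : ℝ) 1) (s : S) :
    M.lik A y s ≤ 2 ^ A.card := by
  unfold lik
  rw [← Finset.prod_const]
  refine Finset.prod_le_prod (fun e _ => ?_) fun e _ => ?_
  · have := (M.fac_bounds s e (hy e)).1
    have := M.κ_lt
    linarith
  · have := (M.fac_bounds s e (hy e)).2
    have := M.κ_lt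
    linarith

theorem meas_lik (A : Finset E) (s : S) : Measurable (fun y : E → ℝ => M.lik A y s) := by
  unfold lik
  refine Finset.measurable_prod _ fun e _ => ?_
  fun_prop

theorem meas_lik_cw (A : Finset E) (s : S) : Measurable (fun y : E → I => M.lik A (cw y) s) :=
  (M.meas_lik A s).comp meas_cw

open Classical in
theorem lik_marginal_step (A : Finset E) (e : E) (he : e ∉ A) (Ψ : (E → I) → ℝ)
    (hΨ : Measurable Ψ) (hb : ∃ C, ∀ y, |Ψ y| ≤ C) (hloc : ∀ y, Ψ (refl1 e y) = Ψ y) (s : S) :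
    ∫ y, Ψ y * M.lik (insert e A) (cw y) s ∂(noise E)
      = ∫ y, Ψ y * M.lik A (cw y) s ∂(noise E) := by
  obtain ⟨C, hC⟩ := hb
  have hC0 : 0 ≤ C := (abs_nonneg _).trans (hC (fun _ => 0))
  have hL : ∀ y : E → I, |M.lik A (cw y) s| ≤ 2 ^ A.card := fun y => by
    rw [abs_of_pos (M.lik_pos' A (cw_mem_Icc y) s)]
    exact M.lik_le' A (cw_mem_Icc y) s
  have hloc2 : ∀ y : E → I, M.lik A (cw (refl1 e y)) s = M.lik A (cw y) s := by
    intro y
    refine M.lik_congr (fun f hf => ?_) s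
    have : f ≠ e := fun h => he (h ▸ hf)
    unfold cw
    rw [refl1_of_ne this]
  have hm1 : Measurable (fun y : E → I => Ψ y * M.lik A (cw y) s) :=
    hΨ.mul (M.meas_lik_cw A s)
  have hb1 : ∀ y : E → I, |Ψ y * M.lik A (cw y) s| ≤ C * 2 ^ A.card := fun y => by
    rw [abs_mul]
    exact mul_le_mul (hC y) (hL y) (abs_nonneg _) hC0
  have hm2 : Measurable (fun y : E → I =>
      (M.κ * M.x s e) * ((2 * cw y e - 1) * (Ψ y * M.lik A (cw y) s))) :=
    (((meas_cw_apply e).const_mul 2).sub_const 1 |>.mul hm1).const_mul _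
  have hb2 : ∀ y : E → I, |(M.κ * M.x s e) * ((2 * cw y e - 1) * (Ψ y * M.lik A (cw y) s))|
      ≤ |M.κ * M.x s e| * (1 * (C * 2 ^ A.card)) := fun y => by
    rw [abs_mul (M.κ * M.x s e) _, abs_mul (2 * cw y e - 1) _]
    refine mul_le_mul_of_nonneg_left ?_ (abs_nonneg _)
    refine mul_le_mul ?_ (hb1 y) (abs_nonneg _) zero_le_one
    have := cw_mem_Icc y e
    rw [abs_le]; constructor <;> linarith [this.1, this.2]
  have hz : ∫ y, (M.κ * M.x s e) * ((2 * cw y e - 1) * (Ψ y * M.lik A (cw y) s)) ∂(noise E)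
      = 0 := by
    refine integral_odd e _ hm2 fun y => ?_
    rw [hloc, hloc2]
    have : cw (refl1 e y) e = 1 - cw y e := by
      unfold cw
      rw [refl1_self, unitInterval.coe_symm_eq]
    rw [this]
    ring
  have hsplit : ∀ y : E → I, Ψ y * M.lik (insert e A) (cw y) s
      = Ψ y * M.lik A (cw y) s
        + (M.κ * M.x s e) * ((2 * cw y e - 1) * (Ψ y * M.lik A (cw y) s)) := by
    intro y
    rw [M.lik_insert he]
    ring
  simp_rw [hsplit]
  rw [integral_add (integrable_bdd hm1 ⟨_, hb1⟩) (integrable_bdd hm2 ⟨_, hb2⟩), hz, add_zero]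

theorem lik_marginal (A B : Finset E) (hAB : A ⊆ B) (Ψ : (E → I) → ℝ)
    (hΨ : Measurable Ψ) (hb : ∃ C, ∀ y, |Ψ y| ≤ C)
    (hloc : ∀ y y' : E → I, (∀ e ∈ A, y e = y' e) → Ψ y = Ψ y') (s : S) :
    ∫ y, Ψ y * M.lik B (cw y) s ∂(noise E) = ∫ y, Ψ y * M.lik A (cw y) s ∂(noise E) := by
  classical
  have key : ∀ C : Finset E, (∀ e ∈ C, e ∉ A) →
      ∫ y, Ψ y * M.lik (C ∪ A) (cw y) s ∂(noise E)
        = ∫ y, Ψ y * M.lik A (cw y) s ∂(noise E) := by
    intro C
    induction C using Finset.induction_on with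
    | empty => intro _; rw [Finset.empty_union]
    | insert e C he ih =>
      intro hC
      have heA : e ∉ A := hC e (Finset.mem_insert_self _ _)
      have heCA : e ∉ C ∪ A := by
        rw [Finset.mem_union]; rintro (h | h)
        · exact he h
        · exact heA h
      rw [Finset.insert_union, M.lik_marginal_step (C ∪ A) e heCA Ψ hΨ hb
        (fun y => hloc _ _ fun f hf => refl1_of_ne (fun h => heA (by rw [← h]; exact hf)) y) s]
      exact ih fun f hf => hC f (Finset.mem_insert_of_mem hf)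
  have h1 := key (B \ A) (fun e he => (Finset.mem_sdiff.1 he).2)
  rwa [Finset.sdiff_union_of_subset hAB] at h1

/-- marginals for arbitrary weights of the hidden states -/
theorem wsum_marginal (c : S → ℝ) (A B : Finset E) (hAB : A ⊆ B) (Ψ : (E → I) → ℝ)
    (hΨ : Measurable Ψ) (hb : ∃ C, ∀ y, |Ψ y| ≤ C)
    (hloc : ∀ y y' : E → I, (∀ e ∈ A, y e = y' e) → Ψ y = Ψ y') :
    ∫ y, Ψ y * (∑ s ∈ M.T, c s * M.lik B (cw y) s) ∂(noise E)
      = ∫ y, Ψ y * (∑ s ∈ M.T, c s * M.lik A (cw y) s) ∂(noise E) := by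
  have hint : ∀ (D : Finset E) (s : S),
      Integrable (fun y : E → I => c s * (Ψ y * M.lik D (cw y) s)) (noise E) := by
    intro D s
    obtain ⟨C, hC⟩ := hb
    have hC0 : 0 ≤ C := (abs_nonneg _).trans (hC (fun _ => 0))
    have hm : Measurable (fun y : E → I => Ψ y * M.lik D (cw y) s) := hΨ.mul (M.meas_lik_cw D s)
    refine (integrable_bdd hm ⟨C * 2 ^ D.card, fun y => ?_⟩).const_mul _
    rw [abs_mul, abs_of_pos (M.lik_pos' D (cw_mem_Icc y) s)]
    exact mul_le_mul (hC y) (M.lik_le' D (cw_mem_Icc y) s)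
      (M.lik_pos' D (cw_mem_Icc y) s).le hC0
  have hexp : ∀ D : Finset E, ∫ y, Ψ y * (∑ s ∈ M.T, c s * M.lik D (cw y) s) ∂(noise E)
      = ∑ s ∈ M.T, c s * ∫ y, Ψ y * M.lik D (cw y) s ∂(noise E) := by
    intro D
    have : ∀ y : E → I, Ψ y * (∑ s ∈ M.T, c s * M.lik D (cw y) s)
        = ∑ s ∈ M.T, c s * (Ψ y * M.lik D (cw y) s) := by
      intro y
      rw [Finset.mul_sum]
      exact Finset.sum_congr rfl fun s _ => by ring
    simp_rw [this]
    rw [integral_finsetSum _ fun s _ => hint D s]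
    exact Finset.sum_congr rfl fun s _ => integral_const_mul _ _
  rw [hexp, hexp]
  exact Finset.sum_congr rfl fun s _ => by rw [M.lik_marginal A B hAB Ψ hΨ hb hloc s]

theorem den_marginal_I (A B : Finset E) (hAB : A ⊆ B) (Ψ : (E → I) → ℝ)
    (hΨ : Measurable Ψ) (hb : ∃ C, ∀ y, |Ψ y| ≤ C)
    (hloc : ∀ y y' : E → I, (∀ e ∈ A, y e = y' e) → Ψ y = Ψ y') :
    ∫ y, Ψ y * M.den B (cw y) ∂(noise E) = ∫ y, Ψ y * M.den A (cw y) ∂(noise E) :=
  M.wsum_marginal M.μ A B hAB Ψ hΨ hb hloc

end Sys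

theorem den_marginal (M : Sys S E) [Countable E] (A B : Finset E) (hAB : A ⊆ B)
    (Φ : (E → ℝ) → ℝ)
    (hΦ : Measurable Φ) (hb : ∃ C, ∀ y, |Φ y| ≤ C)
    (hloc : ∀ y y' : E → ℝ, (∀ e ∈ A, y e = y' e) → Φ y = Φ y') :
    ∫ y, Φ (cw y) * M.den B (cw y) ∂(noise E) = ∫ y, Φ (cw y) * M.den A (cw y) ∂(noise E) := by
  obtain ⟨C, hC⟩ := hb
  refine M.den_marginal_I A B hAB (fun y => Φ (cw y)) (hΦ.comp meas_cw) ⟨C, fun y => hC _⟩ ?_
  intro y y' h
  refine hloc _ _ fun e he => ?_
  unfold cw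
  rw [h e he]

namespace Sys

variable (M : Sys S E)

theorem den_pos' (A : Finset E) {y : E → ℝ} (hy : ∀ f, y f ∈ Set.Icc (0 : ℝ) 1) :
    0 < M.den A y := by
  unfold den
  have hex : ∃ s ∈ M.T, 0 < M.μ s := by
    by_contra hcon
    push Not at hcon
    have h1 : ∑ s ∈ M.T, M.μ s ≤ 0 := Finset.sum_nonpos hcon
    have := M.μ_sum
    linarith
  obtain ⟨s, hs, hpos⟩ := hex
  exact Finset.sum_pos' (fun t ht => mul_nonneg (M.μ_nonneg t ht) (M.lik_pos' A hy t).le)
    ⟨s, hs, mul_pos hpos (M.lik_pos' A hy s)⟩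

theorem post_mul_den (A : Finset E) {y : E → ℝ} (hy : ∀ f, y f ∈ Set.Icc (0 : ℝ) 1) (e : E) :
    M.post A y e * M.den A y = ∑ s ∈ M.T, (M.μ s * M.x s e) * M.lik A y s := by
  unfold post
  rw [div_mul_cancel₀ _ (M.den_pos' A hy).ne']

theorem post_abs' (A : Finset E) {y : E → ℝ} (hy : ∀ f, y f ∈ Set.Icc (0 : ℝ) 1) (e : E) :
    |M.post A y e| ≤ 1 := by
  unfold post
  rw [abs_div, abs_of_pos (M.den_pos' A hy), div_le_one (M.den_pos' A hy)]
  unfold den
  refine (Finset.abs_sum_le_sum_abs _ _).trans (Finset.sum_le_sum fun s hs => ?_)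
  rw [abs_mul, abs_mul, abs_of_nonneg (M.μ_nonneg s hs), abs_of_pos (M.lik_pos' A hy s)]
  exact mul_le_mul_of_nonneg_right
    (mul_le_of_le_one_right (M.μ_nonneg s hs) (M.x_abs s e)) (M.lik_pos' A hy s).le

theorem meas_den (A : Finset E) : Measurable (fun y : E → ℝ => M.den A y) := by
  unfold den
  exact Finset.measurable_sum _ fun s _ => (M.meas_lik A s).const_mul _

theorem meas_post (A : Finset E) (e : E) : Measurable (fun y : E → ℝ => M.post A y e) := by
  unfold post
  exact (Finset.measurable_sum _ fun s _ => (M.meas_lik A s).const_mul _).div (M.meas_den A)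

theorem meas_den_cw (A : Finset E) : Measurable (fun y : E → I => M.den A (cw y)) :=
  (M.meas_den A).comp meas_cw

theorem meas_post_cw (A : Finset E) (e : E) : Measurable (fun y : E → I => M.post A (cw y) e) :=
  (M.meas_post A e).comp meas_cw

theorem den_le' (A : Finset E) {y : E → ℝ} (hy : ∀ f, y f ∈ Set.Icc (0 : ℝ) 1) :
    M.den A y ≤ 2 ^ A.card := by
  unfold den
  calc ∑ s ∈ M.T, M.μ s * M.lik A y s ≤ ∑ s ∈ M.T, M.μ s * 2 ^ A.card :=
        Finset.sum_le_sum fun s hs =>
          mul_le_mul_of_nonneg_left (M.lik_le' A hy s) (M.μ_nonneg s hs)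
    _ = 2 ^ A.card := by rw [← Finset.sum_mul, M.μ_sum, one_mul]

theorem den_congr' {A : Finset E} {y y' : E → ℝ} (h : ∀ e ∈ A, y e = y' e) :
    M.den A y = M.den A y' := by
  unfold den
  exact Finset.sum_congr rfl fun s _ => by rw [M.lik_congr h]

theorem post_congr' {A : Finset E} {y y' : E → ℝ} (h : ∀ e ∈ A, y e = y' e) (e : E) :
    M.post A y e = M.post A y' e := by
  unfold post
  rw [M.den_congr' h]
  congr 1
  exact Finset.sum_congr rfl fun s _ => by rw [M.lik_congr h]

theorem integrable_mul_den' (A : Finset E) {g : (E → I) → ℝ} (hm : Measurable g)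
    (hb : ∀ y, |g y| ≤ 1) : Integrable (fun y => g y * M.den A (cw y)) (noise E) := by
  refine integrable_bdd (hm.mul (M.meas_den_cw A)) ⟨1 * 2 ^ A.card, fun y => ?_⟩
  rw [abs_mul, abs_of_pos (M.den_pos' A (cw_mem_Icc y))]
  exact mul_le_mul (hb y) (M.den_le' A (cw_mem_Icc y)) (M.den_pos' A (cw_mem_Icc y)).le
    zero_le_one

end Sys

open Sys in
/-- tower property / martingale orthogonality: for `A ⊆ B ⊆ C`
`E (m_B - m_A)^2 = E m_B^2 - E m_A^2`. -/
theorem post_pyth (M : Sys S E) [Countable E] (A B C : Finset E) (hAB : A ⊆ B) (hBC : B ⊆ C)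
    (e : E) :
    ∫ y, (M.post B (cw y) e - M.post A (cw y) e) ^ 2 * M.den C (cw y) ∂(noise E)
      = ∫ y, (M.post B (cw y) e) ^ 2 * M.den C (cw y) ∂(noise E)
        - ∫ y, (M.post A (cw y) e) ^ 2 * M.den C (cw y) ∂(noise E) := by
  have hmA := M.meas_post_cw A e
  have hmB := M.meas_post_cw B e
  have hbA : ∀ y : E → I, |M.post A (cw y) e| ≤ 1 := fun y => M.post_abs' A (cw_mem_Icc y) e
  have hbB : ∀ y : E → I, |M.post B (cw y) e| ≤ 1 := fun y => M.post_abs' B (cw_mem_Icc y) e
  have hlA : ∀ y y' : E → I, (∀ e ∈ A, y e = y' e) →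
      M.post A (cw y) e = M.post A (cw y') e := fun y y' h =>
    M.post_congr' (fun f hf => by unfold cw; rw [h f hf]) e
  have hlB : ∀ y y' : E → I, (∀ e ∈ B, y e = y' e) →
      M.post B (cw y) e = M.post B (cw y') e := fun y y' h =>
    M.post_congr' (fun f hf => by unfold cw; rw [h f hf]) e
  have hab : ∀ y : E → I, |M.post A (cw y) e * M.post B (cw y) e| ≤ 1 := fun y => by
    rw [abs_mul]
    exact mul_le_one₀ (hbA y) (abs_nonneg _) (hbB y)
  have hbb : ∀ y : E → I, |(M.post B (cw y) e) ^ 2| ≤ 1 := fun y => by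
    rw [sq, abs_mul]
    exact mul_le_one₀ (hbB y) (abs_nonneg _) (hbB y)
  have haa : ∀ y : E → I, |(M.post A (cw y) e) ^ 2| ≤ 1 := fun y => by
    rw [sq, abs_mul]
    exact mul_le_one₀ (hbA y) (abs_nonneg _) (hbA y)
  have hmAB : Measurable (fun y : E → I => M.post A (cw y) e * M.post B (cw y) e) := hmA.mul hmB
  have hmAA : Measurable (fun y : E → I => (M.post A (cw y) e) ^ 2) := hmA.pow_const 2
  have hmBB : Measurable (fun y : E → I => (M.post B (cw y) e) ^ 2) := hmB.pow_const 2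
  -- the cross term
  have h1 : ∫ y, (M.post A (cw y) e * M.post B (cw y) e) * M.den C (cw y) ∂(noise E)
      = ∫ y, (M.post A (cw y) e) ^ 2 * M.den C (cw y) ∂(noise E) := by
    rw [M.den_marginal_I B C hBC _ hmAB ⟨1, hab⟩ (fun y y' h => by
        rw [hlB y y' h, hlA y y' fun f hf => h f (hAB hf)]),
      M.den_marginal_I A C (hAB.trans hBC) _ hmAA ⟨1, haa⟩ (fun y y' h => by
        rw [hlA y y' h])]
    have e1 : ∀ y : E → I, (M.post A (cw y) e * M.post B (cw y) e) * M.den B (cw y)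
        = M.post A (cw y) e * (∑ s ∈ M.T, (M.μ s * M.x s e) * M.lik B (cw y) s) := by
      intro y
      rw [mul_assoc, M.post_mul_den B (cw_mem_Icc y) e]
    have e2 : ∀ y : E → I, (M.post A (cw y) e) ^ 2 * M.den A (cw y)
        = M.post A (cw y) e * (∑ s ∈ M.T, (M.μ s * M.x s e) * M.lik A (cw y) s) := by
      intro y
      rw [sq, mul_assoc, M.post_mul_den A (cw_mem_Icc y) e]
    simp_rw [e1, e2]
    exact M.wsum_marginal (fun s => M.μ s * M.x s e) A B hAB _ hmA ⟨1, hbA⟩ hlA
  have hI1 := M.integrable_mul_den' C hmBB hbb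
  have hI2 := M.integrable_mul_den' C hmAA haa
  have hI3 := M.integrable_mul_den' C hmAB hab
  have hI12 : Integrable (fun y : E → I => (M.post B (cw y) e) ^ 2 * M.den C (cw y)
        + (M.post A (cw y) e) ^ 2 * M.den C (cw y)) (noise E) := hI1.add hI2
  have hs : ∀ y : E → I, (M.post B (cw y) e - M.post A (cw y) e) ^ 2 * M.den C (cw y)
      = (M.post B (cw y) e) ^ 2 * M.den C (cw y)
        + (M.post A (cw y) e) ^ 2 * M.den C (cw y)
        - 2 * ((M.post A (cw y) e * M.post B (cw y) e) * M.den C (cw y)) := by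
    intro y; ring
  simp_rw [hs]
  rw [integral_sub hI12 (hI3.const_mul 2), integral_add hI1 hI2,
    integral_const_mul, h1]
  ring

end P161
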