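import Vale.Agent.P161.SysDefs

/-!
# P161, module M4b: joint measurability of the recursion
-/

open MeasureTheory

namespace P161

variable {S E R : Type*} [LinearOrder R]

theorem meas_Qf_comp {Ω : Type*} [MeasurableSpace Ω] (κ : ℝ) {m w : Ω → ℝ} (hm : Measurable m)
    (hw : Measurable w) : Measurable (fun ω => Qf κ (m ω) (w ω)) := by
  unfold Qf
  have h1 : Measurable fun ω => (1 - κ * m ω) ^ 2 + 4 * (κ * m ω) * w ω := by fun_prop
  have h2 : Measurable fun ω => Real.sqrt ((1 - κ * m ω) ^ 2 + 4 * (κ * m ω) * w ω) := h1.sqrt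
  have h3 : Measurable fun ω => (1 - κ * m ω)
      + Real.sqrt ((1 - κ * m ω) ^ 2 + 4 * (κ * m ω) * w ω) :=
    ((hm.const_mul κ).const_sub 1).add h2
  exact (hw.const_mul 2).div h3

theorem meas_lik_past (M : Sys S E) {Ω : Type*} [MeasurableSpace Ω] (r : Ω → E → R)
    (hr : ∀ e f, MeasurableSet {ω | r ω e < r ω f}) (A : Finset E) (y : Ω → E → ℝ)
    (hy : Measurable y) (e : E) (s : S) :
    Measurable (fun ω => M.lik (Sys.past (r ω) A e) (y ω) s) := by
  unfold Sys.lik Sys.past
  simp_rw [Finset.prod_filter]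
  refine Finset.measurable_prod _ fun f _ => ?_
  have hyf : Measurable fun ω => y ω f := (measurable_pi_apply f).comp hy
  refine Measurable.ite (hr f e) ?_ measurable_const
  exact ((((hyf.const_mul 2).sub_const 1).const_mul _).const_add 1)

theorem meas_post_past (M : Sys S E) {Ω : Type*} [MeasurableSpace Ω] (r : Ω → E → R)
    (hr : ∀ e f, MeasurableSet {ω | r ω e < r ω f}) (A : Finset E) (y : Ω → E → ℝ)
    (hy : Measurable y) (e : E) :
    Measurable (fun ω => M.post (Sys.past (r ω) A e) (y ω) e) := by
  unfold Sys.post Sys.den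
  refine Measurable.div ?_ ?_
  · exact Finset.measurable_sum _ fun s _ => (meas_lik_past M r hr A y hy e s).const_mul _
  · exact Finset.measurable_sum _ fun s _ => (meas_lik_past M r hr A y hy e s).const_mul _

theorem measurable_itF (M : Sys S E) {Ω : Type*} [MeasurableSpace Ω] (r : Ω → E → R)
    (hr : ∀ e f, MeasurableSet {ω | r ω e < r ω f}) (A : Finset E) (w : Ω → E → ℝ)
    (hw : Measurable w) (n : ℕ) : Measurable (fun ω => M.itF (r ω) A (w ω) n) := by
  induction n with
  | zero => exact measurable_const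
  | succ n ih =>
    refine measurable_pi_lambda _ fun e => ?_
    show Measurable fun ω => Qf M.κ (M.post (Sys.past (r ω) A e) (M.itF (r ω) A (w ω) n) e)
      (w ω e)
    exact meas_Qf_comp _ (meas_post_past M r hr A _ ih e) ((measurable_pi_apply e).comp hw)

/-- joint measurability in (rank, noise) -/
theorem measurable_F (M : Sys S E) {Ω : Type*} [MeasurableSpace Ω] [Countable E] (r : Ω → E → R)
    (hr : ∀ e f, MeasurableSet {ω | r ω e < r ω f}) (A : Finset E) (w : Ω → E → ℝ)
    (hw : Measurable w) : Measurable (fun ω => M.F (r ω) A (w ω)) :=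
  measurable_itF M r hr A w hw _

end P161
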