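import Vale.Agent.P161.Solve
import Vale.Agent.P161.SolveMeas
import Vale.Agent.P161.Pyth

/-!
# P161, M6: exact laws of the sequential sampling
-/

open MeasureTheory Function

namespace P161

section coord
variable {E : Type*} [DecidableEq E]

theorem noise_update (e : E) :
    ((noise E).prod (volume : Measure unitInterval)).map
      (fun p : (E → unitInterval) × unitInterval => update p.1 e p.2) = noise E := by
  have hm : Measurable (fun p : (E → unitInterval) × unitInterval => update p.1 e p.2) :=
    measurable_update'
  refine Measure.eq_infinitePi _ fun s t ht => ?_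
  rw [Measure.map_apply hm (.pi s.countable_toSet fun i _ => ht i)]
  have hpre : (fun p : (E → unitInterval) × unitInterval => update p.1 e p.2) ⁻¹'
      ((s : Set E).pi t) = (((s.erase e : Finset E) : Set E).pi t) ×ˢ
        (if e ∈ s then t e else Set.univ) := by
    ext ⟨w, u⟩
    simp only [Set.mem_preimage, Set.mem_pi, Finset.mem_coe, Set.mem_prod, Finset.mem_erase]
    constructor
    · intro h
      refine ⟨fun i hi => ?_, ?_⟩
      · have := h i hi.2
        rwa [update_of_ne hi.1] at this
      · split_ifs with he
        · have := h e he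
          rwa [update_self] at this
        · trivial
    · rintro ⟨h1, h2⟩ i hi
      by_cases hie : i = e
      · subst hie
        rw [if_pos hi] at h2
        rwa [update_self]
      · rw [update_of_ne hie]
        exact h1 i ⟨hie, hi⟩
  rw [hpre, Measure.prod_prod]
  unfold noise
  rw [Measure.infinitePi_pi _ (fun i _ => ht i)]
  split_ifs with he
  · rw [Finset.prod_erase_mul s _ he]
  · rw [Finset.erase_eq_of_notMem he, measure_univ, mul_one]

theorem integral_noise_update (e : E) (f : (E → unitInterval) → ℝ) (hf : Measurable f)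
    (hb : ∃ C, ∀ w, |f w| ≤ C) :
    ∫ w, f w ∂(noise E) = ∫ w, (∫ u : unitInterval, f (update w e u)) ∂(noise E) := by
  have hm : Measurable (fun p : (E → unitInterval) × unitInterval => update p.1 e p.2) :=
    measurable_update'
  obtain ⟨C, hC⟩ := hb
  conv_lhs => rw [← noise_update e]
  rw [integral_map hm.aemeasurable hf.aestronglyMeasurable]
  rw [integral_prod]
  refine Integrable.of_bound (C := C) (hf.comp hm).aestronglyMeasurable ?_
  filter_upwards with p
  simpa using hC _

end coord

theorem cw_update {E : Type*} [DecidableEq E] (w : E → unitInterval) (e : E) (u : unitInterval) :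
    cw (update w e u) = update (cw w) e (u : ℝ) := by
  funext f
  by_cases h : f = e
  · subst h; simp [cw]
  · simp [cw, update_of_ne h]

section laws
variable {S E R : Type*} [LinearOrder R] (M : Sys S E)

/-- clipping to `[-1,1]` -/
noncomputable def clp (x : ℝ) : ℝ := max (-1) (min 1 x)

theorem abs_clp (x : ℝ) : |clp x| ≤ 1 := by
  unfold clp
  rw [abs_le]
  constructor
  · exact le_max_left _ _
  · exact max_le (by norm_num) (min_le_left _ _)

theorem clp_of_abs {x : ℝ} (hx : |x| ≤ 1) : clp x = x := by
  unfold clp
  rw [abs_le] at hx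
  rw [min_eq_right hx.2, max_eq_right hx.1]

theorem measurable_clp : Measurable clp := by
  unfold clp
  fun_prop

open scoped Classical in
theorem den_insert' {A : Finset E} {e : E} (he : e ∉ A) {y : E → ℝ}
    (hy : ∀ f, y f ∈ Set.Icc (0 : ℝ) 1) (v : ℝ) :
    M.den (insert e A) (update y e v) =
      M.den A y * (1 + M.κ * M.post A y e * (2 * v - 1)) := by
  have hpos := (M.den_pos' A hy).ne'
  have h1 : M.post A y e * M.den A y = ∑ s ∈ M.T, M.μ s * M.x s e * M.lik A y s := by
    unfold Sys.post
    exact div_mul_cancel₀ _ hpos
  have h2 : M.den A y * (1 + M.κ * M.post A y e * (2 * v - 1)) =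
      M.den A y + M.κ * (2 * v - 1) * (M.post A y e * M.den A y) := by ring
  rw [h2, h1]
  unfold Sys.den
  rw [Finset.mul_sum, ← Finset.sum_add_distrib]
  refine Finset.sum_congr rfl fun s _ => ?_
  have h3 : M.lik (insert e A) (update y e v) s =
      (1 + M.κ * M.x s e * (2 * v - 1)) * M.lik A y s := by
    unfold Sys.lik
    rw [Finset.prod_insert he, update_self]
    congr 1
    refine Finset.prod_congr rfl fun f hf => ?_
    have hne : f ≠ e := fun h => he (h ▸ hf)
    rw [update_of_ne hne]
  rw [h3]
  ring

open scoped Classical in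
theorem past_insert_self {r : E → R} {A : Finset E} {e : E} (he : e ∉ A)
    (hmax : ∀ f ∈ A, r f < r e) : Sys.past r (insert e A) e = A := by
  unfold Sys.past
  ext f
  rw [Finset.mem_filter, Finset.mem_insert]
  constructor
  · rintro ⟨rfl | h, h2⟩
    · exact absurd h2 (lt_irrefl _)
    · exact h
  · intro h
    exact ⟨Or.inr h, hmax f h⟩

open scoped Classical in
theorem law_F_aux [Countable E] (r : E → R) (A : Finset E) :
    Set.InjOn r A → ∀ Φ : (E → ℝ) → ℝ, Measurable Φ → (∃ C, ∀ y, |Φ y| ≤ C) →
    (∀ y y' : E → ℝ, (∀ e ∈ A, y e = y' e) → Φ y = Φ y') →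
    ∫ w, Φ (M.F r A (cw w)) ∂(noise E) = ∫ y, Φ (cw y) * M.den A (cw y) ∂(noise E) := by
  induction A using Finset.induction_on_max_value r with
  | empty =>
    intro _ Φ _ _ hloc
    have h1 : ∀ y, Φ y = Φ 0 := fun y => hloc y 0 (by simp)
    have h2 : ∀ y, M.den ∅ y = 1 := by
      intro y
      unfold Sys.den Sys.lik
      simpa using M.μ_sum
    simp [h1 (M.F r ∅ _), h1 (cw _), h2]
  | insert e A he hmax' ih =>
    intro hinj Φ hΦ hb hloc
    obtain ⟨C, hC⟩ := hb
    have hC0 : 0 ≤ C := (abs_nonneg _).trans (hC 0)
    have hmax : ∀ f ∈ A, r f < r e := by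
      intro f hf
      refine lt_of_le_of_ne (hmax' f hf) fun h => ?_
      have := hinj (Finset.mem_coe.2 (Finset.mem_insert_of_mem hf))
        (Finset.mem_coe.2 (Finset.mem_insert_self e A)) h
      exact he (this ▸ hf)
    have hinjA : Set.InjOn r A := hinj.mono (by
      intro f hf
      exact Finset.mem_coe.2 (Finset.mem_insert_of_mem (Finset.mem_coe.1 hf)))
    set m : (E → ℝ) → ℝ := fun y => clp (M.post A y e) with hm
    have hmmeas : Measurable m := measurable_clp.comp (M.meas_post A e)
    have hmloc : ∀ y y' : E → ℝ, (∀ f ∈ A, y f = y' f) → m y = m y' := by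
      intro y y' h
      rw [hm]
      simp only
      rw [M.post_congr' h]
    set G : (E → ℝ) → ℝ := fun y => ∫ v : unitInterval,
      Φ (update y e (v : ℝ)) * (1 + M.κ * m y * (2 * (v : ℝ) - 1)) with hG
    -- the recursion
    have hFA : ∀ w : E → ℝ, ∀ f ∈ A, M.F r A w f = M.F r (insert e A) w f := by
      intro w
      refine F_initial M r A (insert e A) (Finset.subset_insert e A) ?_ w
      intro f hf g hg hlt
      rcases Finset.mem_insert.1 hf with rfl | hf
      · exact absurd hlt (not_lt.2 (hmax g hg).le)
      · exact hf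
    have hΦF : ∀ w : E → unitInterval, Φ (M.F r (insert e A) (cw w)) =
        Φ (update (M.F r A (cw w)) e (Qf M.κ (m (M.F r A (cw w))) (w e))) := by
      intro w
      refine hloc _ _ fun f hf => ?_
      rcases Finset.mem_insert.1 hf with rfl | hf
      · rw [update_self, F_eq, past_insert_self he hmax]
        have h1 : M.post A (M.F r (insert f A) (cw w)) f = M.post A (M.F r A (cw w)) f :=
          M.post_congr' (fun g hg => (hFA _ g hg).symm) f
        rw [h1, hm]
        simp only
        rw [clp_of_abs (post_abs M A _ (fun g => F_mem M r A w g) f)]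
        rfl
      · have hne : f ≠ e := fun h => he (h ▸ hf)
        rw [update_of_ne hne, hFA _ f hf]
    have hGF : ∀ w : E → unitInterval, (∫ u : unitInterval,
        Φ (update (M.F r A (cw (update w e u))) e
          (Qf M.κ (m (M.F r A (cw (update w e u)))) (update w e u e)))) =
        G (M.F r A (cw w)) := by
      intro w
      have h1 : ∀ u : unitInterval, ∀ f ∈ A,
          M.F r A (cw (update w e u)) f = M.F r A (cw w) f := by
        intro u
        refine F_local M r A _ _ fun f hf => ?_
        have hne : f ≠ e := fun h => he (h ▸ hf)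
        rw [cw_update, update_of_ne hne]
      have h2 : ∀ u : unitInterval,
          Φ (update (M.F r A (cw (update w e u))) e
            (Qf M.κ (m (M.F r A (cw (update w e u)))) (update w e u e))) =
          Φ (update (M.F r A (cw w)) e (Qf M.κ (m (M.F r A (cw w))) u)) := by
        intro u
        rw [hmloc _ _ (h1 u), update_self]
        refine hloc _ _ fun f hf => ?_
        rcases Finset.mem_insert.1 hf with rfl | hf
        · rw [update_self, update_self]
        · have hne : f ≠ e := fun h => he (h ▸ hf)
          rw [update_of_ne hne, update_of_ne hne, h1 u f hf]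
      simp_rw [h2]
      rw [hG]
      simp only
      exact integral_Qf M.κ_nonneg M.κ_lt (abs_clp _)
        (fun v => Φ (update (M.F r A (cw w)) e v))
        (hΦ.comp (measurable_update _)) ⟨C, fun y => hC _⟩
    have hGmeas : Measurable G := by
      have h1 : Measurable (fun p : (E → ℝ) × unitInterval =>
          Φ (update p.1 e (p.2 : ℝ)) * (1 + M.κ * m p.1 * (2 * (p.2 : ℝ) - 1))) := by
        have h2 : Measurable (fun p : (E → ℝ) × unitInterval => update p.1 e (p.2 : ℝ)) :=
          measurable_update'.comp (measurable_fst.prodMk (measurable_subtype_coe.comp measurable_snd))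
        have h3 : Measurable (fun p : (E → ℝ) × unitInterval => (p.2 : ℝ)) :=
          measurable_subtype_coe.comp measurable_snd
        exact (hΦ.comp h2).mul (measurable_const.add
          (((hmmeas.comp measurable_fst).const_mul _).mul ((h3.const_mul 2).sub measurable_const)))
      exact (h1.stronglyMeasurable.integral_prod_right (ν := (volume : Measure unitInterval))).measurable
    have hκm : ∀ y : E → ℝ, ∀ v : unitInterval, |1 + M.κ * m y * (2 * (v : ℝ) - 1)| ≤ 2 := by
      intro y v
      have h1 : |M.κ * m y * (2 * (v : ℝ) - 1)| ≤ 1 := by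
        rw [abs_mul, abs_mul, abs_of_nonneg M.κ_nonneg]
        have h7 : |2 * (v : ℝ) - 1| ≤ 1 := by
          have := v.2
          rw [abs_le]; constructor <;> linarith [this.1, this.2]
        calc M.κ * |m y| * |2 * (v : ℝ) - 1| ≤ 1 * 1 * 1 := by
              gcongr
              · exact M.κ_lt.le
              · exact abs_clp _
          _ = 1 := by ring
      calc |1 + M.κ * m y * (2 * (v : ℝ) - 1)| ≤ |(1 : ℝ)| + |M.κ * m y * (2 * (v : ℝ) - 1)| :=
            abs_add_le _ _
        _ ≤ 2 := by rw [abs_one]; linarith
    have hGb : ∀ y, |G y| ≤ C * 2 := by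
      intro y
      rw [hG]
      simp only
      rw [← Real.norm_eq_abs]
      refine (norm_integral_le_of_norm_le_const (C := C * 2) ?_).trans ?_
      · filter_upwards with v
        rw [norm_mul, Real.norm_eq_abs, Real.norm_eq_abs]
        exact mul_le_mul (hC _) (hκm y v) (abs_nonneg _) hC0
      · simp
    have hGloc : ∀ y y' : E → ℝ, (∀ f ∈ A, y f = y' f) → G y = G y' := by
      intro y y' h
      rw [hG]
      simp only
      rw [hmloc y y' h]
      congr 1
      funext v
      congr 1
      refine hloc _ _ fun f hf => ?_
      rcases Finset.mem_insert.1 hf with rfl | hf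
      · rw [update_self, update_self]
      · have hne : f ≠ e := fun h => he (h ▸ hf)
        rw [update_of_ne hne, update_of_ne hne, h f hf]
    have hFmeas : Measurable (fun w : E → unitInterval => M.F r A (cw w)) :=
      measurable_F M (fun _ => r) (fun e f => MeasurableSet.const _) A (fun w => cw w)
        meas_cw
    -- left side
    have hL : ∫ w, Φ (M.F r (insert e A) (cw w)) ∂(noise E) =
        ∫ w, G (M.F r A (cw w)) ∂(noise E) := by
      have h1 : (fun w : E → unitInterval => Φ (M.F r (insert e A) (cw w))) =
          fun w => Φ (update (M.F r A (cw w)) e (Qf M.κ (m (M.F r A (cw w))) (w e))) :=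
        funext hΦF
      rw [h1, integral_noise_update e]
      · congr 1
        funext w
        exact hGF w
      · refine hΦ.comp ?_
        have h2 : Measurable (fun w : E → unitInterval =>
            Qf M.κ (m (M.F r A (cw w))) (w e)) := by
          have h3 : Measurable (fun w : E → unitInterval => ((w e : unitInterval) : ℝ)) :=
            measurable_subtype_coe.comp (measurable_pi_apply e)
          exact measurable_Qf.comp
            (measurable_const.prodMk ((hmmeas.comp hFmeas).prodMk h3))
        exact measurable_update'.comp (hFmeas.prodMk h2)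
      · exact ⟨C, fun w => hC _⟩
    -- right side
    have hR : ∫ y, Φ (cw y) * M.den (insert e A) (cw y) ∂(noise E) =
        ∫ y, G (cw y) * M.den A (cw y) ∂(noise E) := by
      rw [integral_noise_update e]
      · congr 1
        funext w
        rw [hG]
        simp only
        rw [← integral_mul_const]
        congr 1
        funext v
        rw [cw_update, den_insert' M he (cw_mem_Icc w)]
        have h1 : m (cw w) = M.post A (cw w) e := by
          rw [hm]
          simp only
          exact clp_of_abs (post_abs M A _ (cw_mem_Icc w) e)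
        rw [h1]
        ring
      · exact (hΦ.comp meas_cw).mul ((M.meas_den _).comp meas_cw)
      · refine ⟨C * 2 ^ (insert e A).card, fun w => ?_⟩
        rw [abs_mul]
        refine mul_le_mul (hC _) ?_ (abs_nonneg _) hC0
        rw [abs_of_pos (M.den_pos' _ (cw_mem_Icc w))]
        exact M.den_le' _ (cw_mem_Icc w)
    rw [hL, hR]
    exact ih hinjA G hGmeas ⟨C * 2, hGb⟩ hGloc

theorem law_F [Countable E] (r : E → R) (A : Finset E) (hr : Set.InjOn r A) (Φ : (E → ℝ) → ℝ)
    (hΦ : Measurable Φ) (hb : ∃ C, ∀ y, |Φ y| ≤ C)
    (hloc : ∀ y y' : E → ℝ, (∀ e ∈ A, y e = y' e) → Φ y = Φ y') :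
    ∫ w, Φ (M.F r A (cw w)) ∂(noise E) = ∫ y, Φ (cw y) * M.den A (cw y) ∂(noise E) :=
  law_F_aux M r A hr Φ hΦ hb hloc

theorem measurable_Tr' (r : E → R) (A : Finset E) : Measurable (M.Tr r A) := by
  refine measurable_pi_lambda _ fun e => ?_
  unfold Sys.Tr cdfF
  have h1 := M.meas_post (Sys.past r A e) e
  have h2 := measurable_pi_apply (X := fun _ : E => ℝ) e
  fun_prop

theorem law_Tr [Countable E] (r : E → R) (A : Finset E) (hr : Set.InjOn r A) (Φ : (E → ℝ) → ℝ)
    (hΦ : Measurable Φ) (hb : ∃ C, ∀ y, |Φ y| ≤ C)
    (hloc : ∀ y y' : E → ℝ, (∀ e ∈ A, y e = y' e) → Φ y = Φ y') :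
    ∫ y, Φ (M.Tr r A (cw y)) * M.den A (cw y) ∂(noise E) = ∫ w, Φ (cw w) ∂(noise E) := by
  obtain ⟨C, hC⟩ := hb
  have h := law_F M r A hr (fun y => Φ (M.Tr r A y)) (hΦ.comp (measurable_Tr' M r A))
    ⟨C, fun y => hC _⟩ (by
      intro y y' hy
      refine hloc _ _ fun e he => ?_
      unfold Sys.Tr
      have h1 : M.post (Sys.past r A e) y e = M.post (Sys.past r A e) y' e :=
        M.post_congr' (fun f hf => hy f (Finset.mem_of_mem_filter f hf)) e
      rw [hy e he, h1])
  rw [← h]
  congr 1
  funext w
  congr 1
  funext e
  exact Tr_F M r A w e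

end laws

end P161
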