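import Vale.Agent.P161.Pyth
import Vale.Agent.P161.Channel

namespace P161

open MeasureTheory

section
variable {S E R : Type*} [LinearOrder R] (M : Sys S E)

theorem post_abs (A : Finset E) (y : E → ℝ) (hy : ∀ f, y f ∈ Set.Icc (0 : ℝ) 1) (e : E) :
    |M.post A y e| ≤ 1 := M.post_abs' A hy e

theorem past_lt_card {r : E → R} {A : Finset E} {e f : E} (hf : f ∈ Sys.past r A e) :
    (Sys.past r A f).card < (Sys.past r A e).card := by
  classical
  unfold Sys.past at *
  rw [Finset.mem_filter] at hf
  refine Finset.card_lt_card ⟨fun g hg => ?_, fun h => ?_⟩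
  · rw [Finset.mem_filter] at *
    exact ⟨hg.1, hg.2.trans hf.2⟩
  · have := h (Finset.mem_filter.2 ⟨hf.1, hf.2⟩)
    rw [Finset.mem_filter] at this
    exact lt_irrefl _ this.2

theorem itF_stable (r : E → R) (A : Finset E) (w : E → ℝ) :
    ∀ (c : ℕ) (e : E), (Sys.past r A e).card = c → ∀ n n' : ℕ, c < n → c < n' →
      M.itF r A w n e = M.itF r A w n' e := by
  intro c
  induction c using Nat.strong_induction_on with
  | _ c ih =>
    intro e he n n' hn hn'
    obtain ⟨k, rfl⟩ : ∃ k, n = k + 1 := ⟨n - 1, by omega⟩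
    obtain ⟨k', rfl⟩ : ∃ k, n' = k + 1 := ⟨n' - 1, by omega⟩
    show Qf M.κ (M.post (Sys.past r A e) (M.itF r A w k) e) (w e) =
      Qf M.κ (M.post (Sys.past r A e) (M.itF r A w k') e) (w e)
    have h : M.post (Sys.past r A e) (M.itF r A w k) e =
        M.post (Sys.past r A e) (M.itF r A w k') e := by
      refine M.post_congr' (fun f hf => ?_) e
      have hlt := past_lt_card hf
      exact ih _ (by omega) f rfl k k' (by omega) (by omega)
    rw [h]

theorem F_eq (r : E → R) (A : Finset E) (w : E → ℝ) (e : E) :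
    M.F r A w e = Qf M.κ (M.post (Sys.past r A e) (M.F r A w) e) (w e) := by
  have hc : (Sys.past r A e).card ≤ A.card := Finset.card_le_card (Finset.filter_subset _ _)
  have h := itF_stable M r A w _ e rfl (A.card + 1) (A.card + 1 + 1) (by omega) (by omega)
  exact h

theorem F_mem (r : E → R) (A : Finset E) (w : E → unitInterval) (e : E) :
    M.F r A (cw w) e ∈ Set.Icc (0 : ℝ) 1 := by
  have h : ∀ n e, M.itF r A (cw w) n e ∈ Set.Icc (0 : ℝ) 1 := by
    intro n
    induction n with
    | zero => intro e; exact ⟨by norm_num [Sys.itF], by norm_num [Sys.itF]⟩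
    | succ n ih =>
      intro e
      exact Qf_mem M.κ_nonneg M.κ_lt (post_abs M _ _ ih e) (w e).2
  exact h _ e

/-- uniqueness of the fixed point on `A` -/
theorem F_unique (r : E → R) (A : Finset E) (w y : E → ℝ)
    (h : ∀ e ∈ A, y e = Qf M.κ (M.post (Sys.past r A e) y e) (w e)) :
    ∀ e ∈ A, y e = M.F r A w e := by
  have key : ∀ (c : ℕ) (e : E), e ∈ A → (Sys.past r A e).card = c → y e = M.F r A w e := by
    intro c
    induction c using Nat.strong_induction_on with
    | _ c ih =>
      intro e he hc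
      rw [h e he, F_eq]
      have h1 : M.post (Sys.past r A e) y e = M.post (Sys.past r A e) (M.F r A w) e := by
        refine M.post_congr' (fun f hf => ?_) e
        have hlt := past_lt_card hf
        exact ih _ (by omega) f (Finset.mem_of_mem_filter f hf) rfl
      rw [h1]
  exact fun e he => key _ e he rfl

theorem F_Tr (r : E → R) (A : Finset E) (y : E → ℝ) (hy : ∀ f, y f ∈ Set.Icc (0 : ℝ) 1) :
    ∀ e ∈ A, M.F r A (M.Tr r A y) e = y e := by
  intro e he
  refine (F_unique M r A (M.Tr r A y) y (fun f _ => ?_) e he).symm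
  exact (Qf_cdfF M.κ_nonneg M.κ_lt (post_abs M _ _ hy f) (hy f)).symm

theorem Tr_F (r : E → R) (A : Finset E) (w : E → unitInterval) (e : E) :
    M.Tr r A (M.F r A (cw w)) e = w e := by
  show cdfF M.κ (M.post (Sys.past r A e) (M.F r A (cw w)) e) (M.F r A (cw w) e) = w e
  conv_lhs => rw [F_eq M r A (cw w) e]
  exact cdfF_Qf M.κ_nonneg M.κ_lt (post_abs M _ _ (fun f => F_mem M r A w f) e) (w e).2

/-- only the past matters -/
theorem F_initial (r : E → R) (A B : Finset E) (hAB : A ⊆ B)
    (hinit : ∀ f ∈ B, ∀ e ∈ A, r f < r e → f ∈ A) (w : E → ℝ) :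
    ∀ e ∈ A, M.F r A w e = M.F r B w e := by
  intro e he
  refine (F_unique M r A w (M.F r B w) (fun f hf => ?_) e he).symm
  have h1 : Sys.past r B f = Sys.past r A f := by
    classical
    unfold Sys.past
    ext g
    rw [Finset.mem_filter, Finset.mem_filter]
    exact ⟨fun hg => ⟨hinit g hg.1 f hf hg.2, hg.2⟩, fun hg => ⟨hAB hg.1, hg.2⟩⟩
  rw [← h1]
  exact F_eq M r B w f

/-- locality -/
theorem F_local (r : E → R) (A : Finset E) (w w' : E → ℝ) (h : ∀ e ∈ A, w e = w' e) :
    ∀ e ∈ A, M.F r A w e = M.F r A w' e := by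
  refine F_unique M r A w' (M.F r A w) (fun e he => ?_)
  rw [← h e he]
  exact F_eq M r A w e

end

end P161
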