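import Vale.Agent.P161.EfronStein
import Vale.Agent.P161.Pyth
import Vale.Agent.P161.Channel
import Vale.Agent.P161.Solve
import Vale.Agent.P161.SolveMeas
import Vale.Agent.P161.Innov

/-! # P161: the Cauchy estimate -/

namespace P161

open MeasureTheory

namespace Cy

section main

variable {S E R : Type*} [LinearOrder R] (M : Sys S E)

/-- clip to `[0,1]` -/
noncomputable def proj (u : E → ℝ) : E → unitInterval :=
  fun e => Set.projIcc 0 1 zero_le_one (u e)

lemma measurable_proj : Measurable (proj : (E → ℝ) → (E → unitInterval)) := by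
  rw [measurable_pi_iff]
  intro e
  exact (continuous_projIcc.measurable).comp (measurable_pi_apply e)

lemma proj_cw (w : E → unitInterval) : proj (cw w) = w := by
  funext e
  exact Set.projIcc_val zero_le_one (w e)

lemma cw_proj_of_mem {u : E → ℝ} {e : E} (h : u e ∈ Set.Icc (0 : ℝ) 1) : cw (proj u) e = u e := by
  show ((Set.projIcc 0 1 zero_le_one (u e) : unitInterval) : ℝ) = u e
  rw [Set.projIcc_of_mem zero_le_one h]

lemma measurable_cw : Measurable (cw : (E → unitInterval) → (E → ℝ)) := by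
  rw [measurable_pi_iff]
  intro e
  exact measurable_subtype_coe.comp (measurable_pi_apply e)

lemma cw_mem (w : E → unitInterval) (e : E) : cw w e ∈ Set.Icc (0 : ℝ) 1 := (w e).2

lemma measurable_lik (A : Finset E) (s : S) : Measurable (fun y : E → ℝ => M.lik A y s) := by
  unfold Sys.lik
  fun_prop

lemma measurable_den (A : Finset E) : Measurable (fun y : E → ℝ => M.den A y) := by
  unfold Sys.den
  exact Finset.measurable_sum _ fun s _ => (measurable_lik M A s).const_mul _

lemma measurable_post (A : Finset E) (e : E) : Measurable (fun y : E → ℝ => M.post A y e) := by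
  unfold Sys.post
  exact (Finset.measurable_sum _ fun s _ => (measurable_lik M A s).const_mul _).div
    (measurable_den M A)

lemma measurable_Tr (r : E → R) (A : Finset E) : Measurable (fun y : E → ℝ => M.Tr r A y) := by
  rw [measurable_pi_iff]
  intro e
  unfold Sys.Tr cdfF
  have h1 := measurable_post M (Sys.past r A e) e
  have h2 : Measurable (fun y : E → ℝ => y e) := measurable_pi_apply e
  exact h2.sub (((h1.const_mul _).mul h2).mul (h2.const_sub _))

lemma lik_congr (A : Finset E) {y y' : E → ℝ} (h : ∀ e ∈ A, y e = y' e) (s : S) :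
    M.lik A y s = M.lik A y' s := by
  unfold Sys.lik
  exact Finset.prod_congr rfl fun e he => by rw [h e he]

lemma den_congr (A : Finset E) {y y' : E → ℝ} (h : ∀ e ∈ A, y e = y' e) :
    M.den A y = M.den A y' := by
  unfold Sys.den
  exact Finset.sum_congr rfl fun s _ => by rw [lik_congr M A h]

lemma post_congr (A : Finset E) {y y' : E → ℝ} (h : ∀ e ∈ A, y e = y' e) (e : E) :
    M.post A y e = M.post A y' e := by
  unfold Sys.post
  rw [den_congr M A h]
  congr 1
  exact Finset.sum_congr rfl fun s _ => by rw [lik_congr M A h]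

lemma Tr_congr (r : E → R) (A : Finset E) {y y' : E → ℝ} (h : ∀ e ∈ A, y e = y' e) :
    ∀ e ∈ A, M.Tr r A y e = M.Tr r A y' e := by
  intro e he
  unfold Sys.Tr
  rw [h e he, post_congr M (Sys.past r A e) (fun f hf => h f (Finset.mem_filter.mp hf).1) e]

lemma lik_nonneg (A : Finset E) (y : E → unitInterval) (s : S) : 0 ≤ M.lik A (cw y) s := by
  unfold Sys.lik
  refine Finset.prod_nonneg fun e _ => ?_
  have h1 : |M.κ * M.x s e * (2 * cw y e - 1)| ≤ 1 := by
    rw [abs_mul, abs_mul]
    have h2 : |2 * cw y e - 1| ≤ 1 := by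
      have := cw_mem y e
      rw [abs_le]; constructor <;> linarith [this.1, this.2]
    have h3 : |M.κ| ≤ 1 := by rw [abs_of_nonneg M.κ_nonneg]; exact M.κ_lt.le
    have h4 := M.x_abs s e
    calc |M.κ| * |M.x s e| * |2 * cw y e - 1| ≤ 1 * 1 * 1 := by gcongr
      _ = 1 := by norm_num
  linarith [(abs_le.mp h1).1]

lemma den_nonneg (A : Finset E) (y : E → unitInterval) : 0 ≤ M.den A (cw y) :=
  Finset.sum_nonneg fun s hs => mul_nonneg (M.μ_nonneg s hs) (lik_nonneg M A y s)

lemma lik_le (A : Finset E) (y : E → unitInterval) (s : S) : M.lik A (cw y) s ≤ 2 ^ A.card := by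
  unfold Sys.lik
  rw [← Finset.prod_const]
  refine Finset.prod_le_prod (fun e _ => ?_) fun e _ => ?_
  all_goals
    have h1 : |M.κ * M.x s e * (2 * cw y e - 1)| ≤ 1 := by
      rw [abs_mul, abs_mul]
      have h2 : |2 * cw y e - 1| ≤ 1 := by
        have := cw_mem y e
        rw [abs_le]; constructor <;> linarith [this.1, this.2]
      have h3 : |M.κ| ≤ 1 := by rw [abs_of_nonneg M.κ_nonneg]; exact M.κ_lt.le
      have h4 := M.x_abs s e
      calc |M.κ| * |M.x s e| * |2 * cw y e - 1| ≤ 1 * 1 * 1 := by gcongr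
        _ = 1 := by norm_num
    linarith [(abs_le.mp h1).1, (abs_le.mp h1).2]

lemma den_le (A : Finset E) (y : E → unitInterval) : M.den A (cw y) ≤ 2 ^ A.card := by
  unfold Sys.den
  calc ∑ s ∈ M.T, M.μ s * M.lik A (cw y) s ≤ ∑ s ∈ M.T, M.μ s * 2 ^ A.card :=
        Finset.sum_le_sum fun s hs => mul_le_mul_of_nonneg_left (lik_le M A y s) (M.μ_nonneg s hs)
    _ = 2 ^ A.card := by rw [← Finset.sum_mul, M.μ_sum, one_mul]

lemma integrable_of_bdd {f : (E → unitInterval) → ℝ} (hf : Measurable f) {C : ℝ}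
    (hb : ∀ y, |f y| ≤ C) : Integrable f (noise E) :=
  Integrable.of_bound hf.aestronglyMeasurable C (Filter.Eventually.of_forall hb)

lemma Tr_mem (r : E → R) (A : Finset E) (y : E → unitInterval) (e : E) :
    M.Tr r A (cw y) e ∈ Set.Icc (0 : ℝ) 1 :=
  cdfF_mem M.κ_nonneg M.κ_lt (post_abs M _ _ (cw_mem y) e) (cw_mem y e)

lemma proj_congr {A : Finset E} {u u' : E → ℝ} (h : ∀ e ∈ A, u e = u' e) :
    ∀ e ∈ A, proj u e = proj u' e := by
  intro e he
  show Set.projIcc 0 1 zero_le_one (u e) = Set.projIcc 0 1 zero_le_one (u' e)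
  rw [h e he]

lemma cw_congr {A : Finset E} {w w' : E → unitInterval} (h : ∀ e ∈ A, w e = w' e) :
    ∀ e ∈ A, cw w e = cw w' e := by
  intro e he
  show ((w e : unitInterval) : ℝ) = (w' e : ℝ)
  rw [h e he]

lemma law_Tr' [Countable E] (r : E → R) (A : Finset E) (hr : Set.InjOn r A)
    (Φ : (E → unitInterval) → ℝ) (hΦ : Measurable Φ) (hb : ∃ C, ∀ y, |Φ y| ≤ C)
    (hloc : ∀ y y' : E → unitInterval, (∀ e ∈ A, y e = y' e) → Φ y = Φ y') :
    ∫ y, Φ (proj (M.Tr r A (cw y))) * M.den A (cw y) ∂(noise E) = ∫ w, Φ w ∂(noise E) := by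
  have h := law_Tr M r A hr (fun u => Φ (proj u)) (hΦ.comp measurable_proj)
    (by obtain ⟨C, hC⟩ := hb; exact ⟨C, fun y => hC _⟩)
    (fun y y' hy => hloc _ _ (proj_congr hy))
  rw [h]
  simp only [proj_cw]

lemma law_F' [Countable E] (r : E → R) (A : Finset E) (hr : Set.InjOn r A)
    (Φ : (E → unitInterval) → ℝ) (hΦ : Measurable Φ) (hb : ∃ C, ∀ y, |Φ y| ≤ C)
    (hloc : ∀ y y' : E → unitInterval, (∀ e ∈ A, y e = y' e) → Φ y = Φ y') :
    ∫ w, Φ (proj (M.F r A (cw w))) ∂(noise E) = ∫ y, Φ y * M.den A (cw y) ∂(noise E) := by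
  have h := law_F M r A hr (fun u => Φ (proj u)) (hΦ.comp measurable_proj)
    (by obtain ⟨C, hC⟩ := hb; exact ⟨C, fun y => hC _⟩)
    (fun y y' hy => hloc _ _ (proj_congr hy))
  rw [h]
  simp only [proj_cw]

lemma den_marginal' [Countable E] (A B : Finset E) (hAB : A ⊆ B)
    (Φ : (E → unitInterval) → ℝ) (hΦ : Measurable Φ) (hb : ∃ C, ∀ y, |Φ y| ≤ C)
    (hloc : ∀ y y' : E → unitInterval, (∀ e ∈ A, y e = y' e) → Φ y = Φ y') :
    ∫ y, Φ y * M.den B (cw y) ∂(noise E) = ∫ y, Φ y * M.den A (cw y) ∂(noise E) := by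
  have h := den_marginal M A B hAB (fun u => Φ (proj u)) (hΦ.comp measurable_proj)
    (by obtain ⟨C, hC⟩ := hb; exact ⟨C, fun y => hC _⟩)
    (fun y y' hy => hloc _ _ (proj_congr hy))
  simpa only [proj_cw] using h

lemma cw_proj_Tr (r : E → R) (A : Finset E) (y : E → unitInterval) :
    cw (proj (M.Tr r A (cw y))) = M.Tr r A (cw y) := by
  funext e
  exact cw_proj_of_mem (Tr_mem M r A y e)

lemma cw_proj_F (r : E → R) (A : Finset E) (w : E → unitInterval) :
    cw (proj (M.F r A (cw w))) = M.F r A (cw w) := by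
  funext e
  exact cw_proj_of_mem (F_mem M r A w e)

lemma measurable_F_fixed [Countable E] (r : E → R) (A : Finset E) (e : E) :
    Measurable (fun w : E → unitInterval => M.F r A (cw w) e) :=
  (measurable_pi_apply e).comp
    (measurable_F M (fun _ => r) (fun _ _ => .const _) A _ measurable_cw)

lemma measurable_projTr (r : E → R) (A : Finset E) :
    Measurable (fun y : E → unitInterval => proj (M.Tr r A (cw y))) :=
  measurable_proj.comp ((measurable_Tr M r A).comp measurable_cw)

lemma measurable_post_cw (A : Finset E) (e : E) :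
    Measurable (fun y : E → unitInterval => M.post A (cw y) e) :=
  (measurable_post M A e).comp measurable_cw

lemma abs_den_le (A : Finset E) (y : E → unitInterval) : |M.den A (cw y)| ≤ 2 ^ A.card := by
  rw [abs_of_nonneg (den_nonneg M A y)]; exact den_le M A y

lemma integrable_mul_den {f : (E → unitInterval) → ℝ} (hf : Measurable f) {C : ℝ}
    (hb : ∀ y, |f y| ≤ C) (A : Finset E) :
    Integrable (fun y => f y * M.den A (cw y)) (noise E) := by
  refine integrable_of_bdd (C := C * 2 ^ A.card)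
    (hf.mul ((measurable_den M A).comp measurable_cw)) fun y => ?_
  rw [abs_mul]
  exact mul_le_mul (hb y) (abs_den_le M A y) (abs_nonneg _) ((abs_nonneg _).trans (hb y))

/-- second moment of the posterior mean, expressed through the recursion. -/
lemma second_moment [Countable E] (r : E → R) (A B : Finset E) (hAB : A ⊆ B)
    (hr : Set.InjOn r A) (f : E) :
    ∫ y, (M.post (Sys.past r A f) (cw y) f) ^ 2 * M.den B (cw y) ∂(noise E)
      = ∫ w, (M.post (Sys.past r A f) (M.F r A (cw w)) f) ^ 2 ∂(noise E) := by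
  have hm : Measurable (fun y : E → unitInterval => (M.post (Sys.past r A f) (cw y) f) ^ 2) :=
    (measurable_post_cw M _ f).pow_const 2
  have hb : ∃ C, ∀ y : E → unitInterval, |(M.post (Sys.past r A f) (cw y) f) ^ 2| ≤ C := by
    refine ⟨1, fun y => ?_⟩
    rw [abs_pow]
    exact pow_le_one₀ (abs_nonneg _) (post_abs M _ _ (cw_mem y) f)
  have hl : ∀ y y' : E → unitInterval, (∀ e ∈ A, y e = y' e) →
      (M.post (Sys.past r A f) (cw y) f) ^ 2 = (M.post (Sys.past r A f) (cw y') f) ^ 2 := by
    intro y y' h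
    rw [post_congr M (Sys.past r A f)
      (fun g hg => cw_congr h g (Finset.mem_filter.mp hg).1) f]
  rw [den_marginal' M A B hAB _ hm hb hl, ← law_F' M r A hr _ hm hb hl]
  simp only [cw_proj_F]

theorem cauchy_abs' [Countable E] [DecidableEq E] (r : E → R)
    (A B W : Finset E) (hAB : A ⊆ B) (hW : W ⊆ A) (hr : Set.InjOn r B) (e : E) (he : e ∈ A)
    (a : E → ℝ) (ha : ∀ f, 0 ≤ a f)
    (hlip : ∀ w w' : E → unitInterval,
      |M.F r A (cw w) e - M.F r A (cw w') e| ≤ ∑ f ∈ A, a f * |(w f : ℝ) - w' f|) :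
    ∫ w, (M.F r A (cw w) e - M.F r B (cw w) e) ^ 2 ∂(noise E)
      ≤ 6 * ∑ f ∈ A \ W, (a f) ^ 2
        + 3 * W.card * (M.κ ^ 2 / 16) * ∑ f ∈ W, (a f) ^ 2 *
          (∫ w, (M.post (Sys.past r B f) (M.F r B (cw w)) f) ^ 2 ∂(noise E)
            - ∫ w, (M.post (Sys.past r A f) (M.F r A (cw w)) f) ^ 2 ∂(noise E)) := by
  have hrA : Set.InjOn r A := hr.mono (by exact_mod_cast hAB)
  have hfA : Measurable (fun w : E → unitInterval => M.F r A (cw w) e) :=
    measurable_F_fixed M r A e
  have hfB : Measurable (fun w : E → unitInterval => M.F r B (cw w) e) :=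
    measurable_F_fixed M r B e
  obtain ⟨g, hg, hgl, hgb, hgi⟩ := window A W hW _ hfA a ha hlip
  have abs1 : ∀ {x : ℝ}, x ∈ Set.Icc (0 : ℝ) 1 → |x| ≤ 1 := by
    intro x hx
    rw [abs_le]; constructor <;> linarith [hx.1, hx.2]
  have hfA1 : ∀ w : E → unitInterval, |M.F r A (cw w) e| ≤ 1 := fun w => abs1 (F_mem M r A w e)
  have hfB1 : ∀ w : E → unitInterval, |M.F r B (cw w) e| ≤ 1 := fun w => abs1 (F_mem M r B w e)
  have hg1 : ∀ w, |g w| ≤ 1 := hgb 1 hfA1
  -- locality
  have locA : ∀ w w' : E → unitInterval, (∀ f ∈ A, w f = w' f) →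
      M.F r A (cw w) e = M.F r A (cw w') e := fun w w' h => F_local M r A _ _ (cw_congr h) e he
  have locB : ∀ w w' : E → unitInterval, (∀ f ∈ B, w f = w' f) →
      M.F r B (cw w) e = M.F r B (cw w') e := fun w w' h =>
        F_local M r B _ _ (cw_congr h) e (hAB he)
  have locg : ∀ w w' : E → unitInterval, (∀ f ∈ W, w f = w' f) → g w = g w' := by
    intro w w' h
    have h1 := hgl w w'
    have h2 : ∑ f ∈ W, a f * |(w f : ℝ) - w' f| = 0 :=
      Finset.sum_eq_zero fun f hf => by rw [h f hf]; simp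
    rw [h2] at h1
    exact sub_eq_zero.mp (abs_eq_zero.mp (le_antisymm h1 (abs_nonneg _)))
  -- innovations
  have keyB : ∀ y : E → unitInterval,
      M.F r B (cw (proj (M.Tr r B (cw y)))) e = cw y e := by
    intro y
    rw [cw_proj_Tr]
    exact F_Tr M r B (cw y) (cw_mem y) e (hAB he)
  have keyA : ∀ y : E → unitInterval,
      M.F r A (cw (proj (M.Tr r A (cw y)))) e = cw y e := by
    intro y
    rw [cw_proj_Tr]
    exact F_Tr M r A (cw y) (cw_mem y) e he
  have s1 : ∫ w, (M.F r A (cw w) e - M.F r B (cw w) e) ^ 2 ∂(noise E)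
      = ∫ y, (M.F r A (cw (proj (M.Tr r B (cw y)))) e
          - M.F r A (cw (proj (M.Tr r A (cw y)))) e) ^ 2 * M.den B (cw y) ∂(noise E) := by
    rw [← law_Tr' M r B hr (fun w => (M.F r A (cw w) e - M.F r B (cw w) e) ^ 2)
      ((hfA.sub hfB).pow_const 2)
      ⟨4, fun y => by
        rw [abs_pow]
        have : |M.F r A (cw y) e - M.F r B (cw y) e| ≤ 2 :=
          (abs_sub _ _).trans (by linarith [hfA1 y, hfB1 y])
        calc |M.F r A (cw y) e - M.F r B (cw y) e| ^ 2 ≤ 2 ^ 2 := by gcongr
          _ = 4 := by norm_num⟩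
      (fun y y' h => by
        rw [locA y y' (fun f hf => h f (hAB hf)), locB y y' h])]
    refine integral_congr_ae (Filter.Eventually.of_forall fun y => ?_)
    simp only [keyA, keyB]
  -- the three terms
  have t1 : ∫ y, (M.F r A (cw (proj (M.Tr r B (cw y)))) e
      - g (proj (M.Tr r B (cw y)))) ^ 2 * M.den B (cw y) ∂(noise E)
      ≤ ∑ f ∈ A \ W, (a f) ^ 2 := by
    rw [law_Tr' M r B hr (fun w => (M.F r A (cw w) e - g w) ^ 2)
      ((hfA.sub hg).pow_const 2)
      ⟨4, fun y => by
        rw [abs_pow]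
        have : |M.F r A (cw y) e - g y| ≤ 2 :=
          (abs_sub _ _).trans (by linarith [hfA1 y, hg1 y])
        calc |M.F r A (cw y) e - g y| ^ 2 ≤ 2 ^ 2 := by gcongr
          _ = 4 := by norm_num⟩
      (fun y y' h => by
        rw [locA y y' (fun f hf => h f (hAB hf)), locg y y' (fun f hf => h f (hAB (hW hf)))])]
    exact hgi
  have t3 : ∫ y, (M.F r A (cw (proj (M.Tr r A (cw y)))) e
      - g (proj (M.Tr r A (cw y)))) ^ 2 * M.den B (cw y) ∂(noise E)
      ≤ ∑ f ∈ A \ W, (a f) ^ 2 := by
    rw [den_marginal' M A B hAB (fun y => (M.F r A (cw (proj (M.Tr r A (cw y)))) e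
      - g (proj (M.Tr r A (cw y)))) ^ 2)
      (((hfA.comp (measurable_projTr M r A)).sub (hg.comp (measurable_projTr M r A))).pow_const 2)
      ⟨4, fun y => by
        rw [abs_pow]
        have q1 := hfA1 (proj (M.Tr r A (cw y)))
        have q2 := hg1 (proj (M.Tr r A (cw y)))
        have : |M.F r A (cw (proj (M.Tr r A (cw y)))) e - g (proj (M.Tr r A (cw y)))| ≤ 2 :=
          (abs_sub _ _).trans (by linarith)
        calc |M.F r A (cw (proj (M.Tr r A (cw y)))) e - g (proj (M.Tr r A (cw y)))| ^ 2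
            ≤ 2 ^ 2 := by gcongr
          _ = 4 := by norm_num⟩
      (fun y y' h => by
        have h1 := proj_congr (Tr_congr M r A (cw_congr h))
        rw [locA _ _ h1, locg _ _ (fun f hf => h1 f (hW hf))])]
    rw [law_Tr' M r A hrA (fun w => (M.F r A (cw w) e - g w) ^ 2)
      ((hfA.sub hg).pow_const 2)
      ⟨4, fun y => by
        rw [abs_pow]
        have : |M.F r A (cw y) e - g y| ≤ 2 :=
          (abs_sub _ _).trans (by linarith [hfA1 y, hg1 y])
        calc |M.F r A (cw y) e - g y| ^ 2 ≤ 2 ^ 2 := by gcongr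
          _ = 4 := by norm_num⟩
      (fun y y' h => by
        rw [locA y y' h, locg y y' (fun f hf => h f (hW hf))])]
    exact hgi
  have t2 : ∫ y, (g (proj (M.Tr r B (cw y))) - g (proj (M.Tr r A (cw y)))) ^ 2
        * M.den B (cw y) ∂(noise E)
      ≤ W.card * (M.κ ^ 2 / 16) * ∑ f ∈ W, (a f) ^ 2 *
          (∫ w, (M.post (Sys.past r B f) (M.F r B (cw w)) f) ^ 2 ∂(noise E)
            - ∫ w, (M.post (Sys.past r A f) (M.F r A (cw w)) f) ^ 2 ∂(noise E)) := by
    have pw : ∀ y : E → unitInterval,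
        (g (proj (M.Tr r B (cw y))) - g (proj (M.Tr r A (cw y)))) ^ 2 ≤
        ∑ f ∈ W, (W.card * (M.κ ^ 2 / 16) * (a f) ^ 2) *
          (M.post (Sys.past r B f) (cw y) f - M.post (Sys.past r A f) (cw y) f) ^ 2 := by
      intro y
      have h1 := hgl (proj (M.Tr r B (cw y))) (proj (M.Tr r A (cw y)))
      have h2 : ∀ f, a f * |((proj (M.Tr r B (cw y)) f : unitInterval) : ℝ)
          - (proj (M.Tr r A (cw y)) f : unitInterval)| ≤
          a f * (M.κ / 4 * |M.post (Sys.past r B f) (cw y) f
            - M.post (Sys.past r A f) (cw y) f|) := by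
        intro f
        refine mul_le_mul_of_nonneg_left ?_ (ha f)
        have e1 : ((proj (M.Tr r B (cw y)) f : unitInterval) : ℝ) = M.Tr r B (cw y) f :=
          congrFun (cw_proj_Tr M r B y) f
        have e2 : ((proj (M.Tr r A (cw y)) f : unitInterval) : ℝ) = M.Tr r A (cw y) f :=
          congrFun (cw_proj_Tr M r A y) f
        rw [e1, e2]
        have e3 : M.Tr r B (cw y) f - M.Tr r A (cw y) f
            = - (M.κ * (M.post (Sys.past r B f) (cw y) f - M.post (Sys.past r A f) (cw y) f)
              * (cw y f * (1 - cw y f))) := by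
          unfold Sys.Tr cdfF; ring
        have hy := cw_mem y f
        have e4 : cw y f * (1 - cw y f) ≤ 1 / 4 := by nlinarith [sq_nonneg (cw y f - 1 / 2)]
        have e5 : 0 ≤ cw y f * (1 - cw y f) := mul_nonneg hy.1 (by linarith [hy.2])
        rw [e3, abs_neg, abs_mul, abs_mul, abs_of_nonneg M.κ_nonneg, abs_of_nonneg e5]
        have e6 : 0 ≤ M.κ * |M.post (Sys.past r B f) (cw y) f
            - M.post (Sys.past r A f) (cw y) f| := mul_nonneg M.κ_nonneg (abs_nonneg _)
        calc _ ≤ M.κ * |M.post (Sys.past r B f) (cw y) f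
              - M.post (Sys.past r A f) (cw y) f| * (1 / 4) :=
              mul_le_mul_of_nonneg_left e4 e6
          _ = _ := by ring
      have h3 : |g (proj (M.Tr r B (cw y))) - g (proj (M.Tr r A (cw y)))| ≤
          ∑ f ∈ W, a f * (M.κ / 4 * |M.post (Sys.past r B f) (cw y) f
            - M.post (Sys.past r A f) (cw y) f|) :=
        h1.trans (Finset.sum_le_sum fun f _ => h2 f)
      have h4 : (g (proj (M.Tr r B (cw y))) - g (proj (M.Tr r A (cw y)))) ^ 2 ≤
          (∑ f ∈ W, a f * (M.κ / 4 * |M.post (Sys.past r B f) (cw y) f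
            - M.post (Sys.past r A f) (cw y) f|)) ^ 2 := by
        rw [← sq_abs]
        exact pow_le_pow_left₀ (abs_nonneg _) h3 2
      refine h4.trans ((sq_sum_le_card_mul_sum_sq (s := W)).trans (le_of_eq ?_))
      rw [Finset.mul_sum]
      refine Finset.sum_congr rfl fun f _ => ?_
      rw [mul_pow, mul_pow, sq_abs]
      ring
    have hmp : ∀ f, Measurable (fun y : E → unitInterval =>
        (M.post (Sys.past r B f) (cw y) f - M.post (Sys.past r A f) (cw y) f) ^ 2) := fun f =>
      ((measurable_post_cw M _ f).sub (measurable_post_cw M _ f)).pow_const 2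
    have hmb : ∀ f, ∀ y : E → unitInterval,
        |(M.post (Sys.past r B f) (cw y) f - M.post (Sys.past r A f) (cw y) f) ^ 2| ≤ 4 := by
      intro f y
      rw [abs_pow]
      have : |M.post (Sys.past r B f) (cw y) f - M.post (Sys.past r A f) (cw y) f| ≤ 2 :=
        (abs_sub _ _).trans (by
          linarith [post_abs M (Sys.past r B f) (cw y) (cw_mem y) f,
            post_abs M (Sys.past r A f) (cw y) (cw_mem y) f])
      calc |M.post (Sys.past r B f) (cw y) f - M.post (Sys.past r A f) (cw y) f| ^ 2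
          ≤ 2 ^ 2 := by gcongr
        _ = 4 := by norm_num
    have hint : ∀ f, Integrable (fun y : E → unitInterval =>
        (W.card * (M.κ ^ 2 / 16) * (a f) ^ 2) *
          ((M.post (Sys.past r B f) (cw y) f - M.post (Sys.past r A f) (cw y) f) ^ 2
          * M.den B (cw y))) (noise E) := fun f =>
      (integrable_mul_den M (hmp f) (hmb f) B).const_mul _
    calc ∫ y, (g (proj (M.Tr r B (cw y))) - g (proj (M.Tr r A (cw y)))) ^ 2
          * M.den B (cw y) ∂(noise E)
        ≤ ∫ y, ∑ f ∈ W, (W.card * (M.κ ^ 2 / 16) * (a f) ^ 2) *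
          ((M.post (Sys.past r B f) (cw y) f - M.post (Sys.past r A f) (cw y) f) ^ 2
          * M.den B (cw y)) ∂(noise E) := by
          refine integral_mono_of_nonneg
            (Filter.Eventually.of_forall fun y => mul_nonneg (sq_nonneg _) (den_nonneg M B y))
            (integrable_finsetSum _ fun f _ => hint f)
            (Filter.Eventually.of_forall fun y => ?_)
          have := mul_le_mul_of_nonneg_right (pw y) (den_nonneg M B y)
          refine this.trans (le_of_eq ?_)
          simp only []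
          rw [Finset.sum_mul]
          exact Finset.sum_congr rfl fun f _ => by ring
      _ = ∑ f ∈ W, (W.card * (M.κ ^ 2 / 16) * (a f) ^ 2) *
          ∫ y, (M.post (Sys.past r B f) (cw y) f - M.post (Sys.past r A f) (cw y) f) ^ 2
          * M.den B (cw y) ∂(noise E) := by
          rw [integral_finsetSum _ fun f _ => hint f]
          exact Finset.sum_congr rfl fun f _ => integral_const_mul _ _
      _ = W.card * (M.κ ^ 2 / 16) * ∑ f ∈ W, (a f) ^ 2 *
          (∫ w, (M.post (Sys.past r B f) (M.F r B (cw w)) f) ^ 2 ∂(noise E)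
            - ∫ w, (M.post (Sys.past r A f) (M.F r A (cw w)) f) ^ 2 ∂(noise E)) := by
          rw [Finset.mul_sum]
          refine Finset.sum_congr rfl fun f _ => ?_
          have hsub : Sys.past r A f ⊆ Sys.past r B f := Finset.filter_subset_filter _ hAB
          have hsub2 : Sys.past r B f ⊆ B := Finset.filter_subset _ _
          rw [post_pyth M (Sys.past r A f) (Sys.past r B f) B hsub hsub2 f,
            second_moment M r B B (Finset.Subset.refl _) hr f,
            second_moment M r A B hAB hrA f]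
          ring
  -- combine
  have hTA := measurable_projTr M r A
  have hTB := measurable_projTr M r B
  have b4 : ∀ x z : ℝ, |x| ≤ 1 → |z| ≤ 1 → |(x - z) ^ 2| ≤ 4 := by
    intro x z hx hz
    rw [abs_pow]
    have : |x - z| ≤ 2 := (abs_sub _ _).trans (by linarith)
    calc |x - z| ^ 2 ≤ 2 ^ 2 := by gcongr
      _ = 4 := by norm_num
  have i1 : Integrable (fun y : E → unitInterval =>
      (M.F r A (cw (proj (M.Tr r B (cw y)))) e - g (proj (M.Tr r B (cw y)))) ^ 2
        * M.den B (cw y)) (noise E) :=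
    integrable_mul_den M (((hfA.comp hTB).sub (hg.comp hTB)).pow_const 2)
      (fun y => b4 _ _ (hfA1 _) (hg1 _)) B
  have i2 : Integrable (fun y : E → unitInterval =>
      (g (proj (M.Tr r B (cw y))) - g (proj (M.Tr r A (cw y)))) ^ 2
        * M.den B (cw y)) (noise E) :=
    integrable_mul_den M (((hg.comp hTB).sub (hg.comp hTA)).pow_const 2)
      (fun y => b4 _ _ (hg1 _) (hg1 _)) B
  have i3 : Integrable (fun y : E → unitInterval =>
      (M.F r A (cw (proj (M.Tr r A (cw y)))) e - g (proj (M.Tr r A (cw y)))) ^ 2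
        * M.den B (cw y)) (noise E) :=
    integrable_mul_den M (((hfA.comp hTA).sub (hg.comp hTA)).pow_const 2)
      (fun y => b4 _ _ (hfA1 _) (hg1 _)) B
  have j1 := i1.const_mul 3
  have j2 := i2.const_mul 3
  have j3 := i3.const_mul 3
  have j12 : Integrable (fun y : E → unitInterval =>
      3 * ((M.F r A (cw (proj (M.Tr r B (cw y)))) e
            - g (proj (M.Tr r B (cw y)))) ^ 2 * M.den B (cw y))
          + 3 * ((g (proj (M.Tr r B (cw y))) - g (proj (M.Tr r A (cw y)))) ^ 2
            * M.den B (cw y))) (noise E) := j1.add j2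
  rw [s1]
  calc ∫ y, (M.F r A (cw (proj (M.Tr r B (cw y)))) e
          - M.F r A (cw (proj (M.Tr r A (cw y)))) e) ^ 2 * M.den B (cw y) ∂(noise E)
      ≤ ∫ y, (3 * ((M.F r A (cw (proj (M.Tr r B (cw y)))) e
            - g (proj (M.Tr r B (cw y)))) ^ 2 * M.den B (cw y))
          + 3 * ((g (proj (M.Tr r B (cw y))) - g (proj (M.Tr r A (cw y)))) ^ 2
            * M.den B (cw y))
          + 3 * ((M.F r A (cw (proj (M.Tr r A (cw y)))) e
            - g (proj (M.Tr r A (cw y)))) ^ 2 * M.den B (cw y))) ∂(noise E) := by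
        refine integral_mono_of_nonneg
          (Filter.Eventually.of_forall fun y => mul_nonneg (sq_nonneg _) (den_nonneg M B y))
          (j12.add j3)
          (Filter.Eventually.of_forall fun y => ?_)
        have hd := den_nonneg M B y
        have hq : ∀ p q u v : ℝ, (p - q) ^ 2 ≤ 3 * (p - u) ^ 2 + 3 * (u - v) ^ 2 + 3 * (q - v) ^ 2 := by
          intro p q u v
          nlinarith [sq_nonneg ((p - u) - (u - v)), sq_nonneg ((u - v) - (v - q)),
            sq_nonneg ((p - u) - (v - q))]
        have := mul_le_mul_of_nonneg_right (hq (M.F r A (cw (proj (M.Tr r B (cw y)))) e)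
          (M.F r A (cw (proj (M.Tr r A (cw y)))) e) (g (proj (M.Tr r B (cw y))))
          (g (proj (M.Tr r A (cw y))))) hd
        refine this.trans (le_of_eq ?_)
        ring
    _ = 3 * ∫ y, (M.F r A (cw (proj (M.Tr r B (cw y)))) e
            - g (proj (M.Tr r B (cw y)))) ^ 2 * M.den B (cw y) ∂(noise E)
        + 3 * ∫ y, (g (proj (M.Tr r B (cw y))) - g (proj (M.Tr r A (cw y)))) ^ 2
            * M.den B (cw y) ∂(noise E)
        + 3 * ∫ y, (M.F r A (cw (proj (M.Tr r A (cw y)))) e
            - g (proj (M.Tr r A (cw y)))) ^ 2 * M.den B (cw y) ∂(noise E) := by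
        rw [integral_add j12 j3, integral_add j1 j2, integral_const_mul,
          integral_const_mul, integral_const_mul]
    _ ≤ _ := by linarith [t1, t2, t3]

end main

end Cy

theorem cauchy_abs {S E R : Type*} [LinearOrder R] [Countable E] [DecidableEq E] (M : Sys S E)
    (r : E → R) (A B W : Finset E) (hAB : A ⊆ B) (hW : W ⊆ A) (hr : Set.InjOn r B) (e : E)
    (he : e ∈ A) (a : E → ℝ) (ha : ∀ f, 0 ≤ a f)
    (hlip : ∀ w w' : E → unitInterval,
      |M.F r A (cw w) e - M.F r A (cw w') e| ≤ ∑ f ∈ A, a f * |(w f : ℝ) - w' f|) :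
    ∫ w, (M.F r A (cw w) e - M.F r B (cw w) e) ^ 2 ∂(noise E)
      ≤ 6 * ∑ f ∈ A \ W, (a f) ^ 2
        + 3 * W.card * (M.κ ^ 2 / 16) * ∑ f ∈ W, (a f) ^ 2 *
          (∫ w, (M.post (Sys.past r B f) (M.F r B (cw w)) f) ^ 2 ∂(noise E)
            - ∫ w, (M.post (Sys.past r A f) (M.F r A (cw w)) f) ^ 2 ∂(noise E)) :=
  Cy.cauchy_abs' M r A B W hAB hW hr e he a ha hlip

end P161
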