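import Mathlib

/-!
# P161: definitions

The free Ising measure on a tree, factors of IID, finite-volume magnetisations, and the one
dimensional observation channel.
-/

open MeasureTheory ProbabilityTheory Filter Topology
open scoped ENNReal unitInterval

namespace P161

variable {V : Type*}

/-- The sign `±1` of a Boolean spin. -/
def sg (b : Bool) : ℝ := if b then 1 else -1

/-- The factor `(1 + θ η_u η_v) / 2` attached to an unordered pair `{u, v}`. -/
noncomputable def ew (θ : ℝ) (η : V → Bool) : Sym2 V → ℝ :=
  Sym2.lift ⟨fun u v => (1 + θ * sg (η u) * sg (η v)) / 2, by intro u v; ring⟩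

open scoped Classical in
/-- The edges of `G` with both endpoints in the finite set `D`. -/
noncomputable def edgesIn (G : SimpleGraph V) (D : Finset V) : Finset (Sym2 V) :=
  D.sym2.filter fun e => e ∈ G.edgeSet

/-- `μ` is the free zero-field Ising measure with `θ = tanh β` on the tree `G`: it has the
prescribed finite-dimensional distributions on every finite connected subtree `D`. -/
structure IsFreeIsing (G : SimpleGraph V) (θ : ℝ) (μ : Measure (V → Bool)) : Prop where
  prob : IsProbabilityMeasure μ
  cyl : ∀ D : Finset V, (G.induce (D : Set V)).Connected → ∀ η : V → Bool,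
    μ.real {ω | ∀ v ∈ D, ω v = η v} = 1 / 2 * ∏ e ∈ edgesIn G D, ew θ η e

/-- The law of i.i.d. uniform `[0,1]` labels on the vertices. -/
noncomputable def iidLabels (V : Type*) : Measure (V → I) :=
  Measure.infinitePi fun _ : V => (volume : Measure I)

/-- `μ` is a factor of IID on the graph `G`: it is the law of `Φ(U)`, with `Φ` measurable and
`Φ(gU) = gΦ(U)` almost surely for each fixed automorphism `g` of `G`. -/
def IsFactorOfIID (G : SimpleGraph V) (μ : Measure (V → Bool)) : Prop :=
  ∃ Φ : (V → I) → (V → Bool), Measurable Φ ∧
    (∀ g : G ≃g G, ∀ᵐ U ∂(iidLabels V),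
      Φ (fun v => U (g.symm v)) = fun v => Φ U (g.symm v)) ∧
    (iidLabels V).map Φ = μ

/-! ### Finite-volume Ising model on a finite vertex set `D` with field `h` -/

open scoped Classical in
/-- the spin configuration which is `+` exactly on `S` -/
noncomputable def cfg (S : Finset V) : V → Bool := fun v => decide (v ∈ S)

/-- Gibbs weight of the configuration `S ⊆ D` -/
noncomputable def wt (G : SimpleGraph V) (θ : ℝ) (D : Finset V) (h : V → ℝ) (S : Finset V) : ℝ :=
  (∏ e ∈ edgesIn G D, ew θ (cfg S) e) * Real.exp (∑ u ∈ D, h u * sg (cfg S u))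

/-- magnetisation at `v` of the free Ising model on `D` with field `h` -/
noncomputable def mag (G : SimpleGraph V) (θ : ℝ) (D : Finset V) (h : V → ℝ) (v : V) : ℝ :=
  (∑ S ∈ D.powerset, sg (cfg S v) * wt G θ D h S) / ∑ S ∈ D.powerset, wt G θ D h S

/-! ### The observation channel -/

/-- the distribution function of the density `1 + κ m (2 y - 1)` on `[0,1]` -/
noncomputable def cdfF (κ m y : ℝ) : ℝ := y - κ * m * y * (1 - y)

/-- the log-likelihood ratio of an observation `y` -/
noncomputable def llr (κ y : ℝ) : ℝ :=
  Real.log ((1 + κ * (2 * y - 1)) / (1 - κ * (2 * y - 1))) / 2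

end P161
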