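import Vale.Agent.P161.SysDefs

/-!
# P161: window approximation (Efron-Stein)
-/

namespace P161

open MeasureTheory

section EfronStein

variable {E : Type*} [DecidableEq E]

lemma measurable_update_pair (e0 : E) :
    Measurable (fun p : (E → unitInterval) × unitInterval => Function.update p.1 e0 p.2) := by
  rw [measurable_pi_iff]
  intro e
  by_cases h : e = e0
  · subst h
    simpa using measurable_snd
  · simp only [Function.update_of_ne h]
    exact (measurable_pi_apply e).comp measurable_fst

/-- resampling one coordinate preserves the noise measure. -/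
lemma map_update (e0 : E) :
    ((noise E).prod (volume : Measure unitInterval)).map
      (fun p => Function.update p.1 e0 p.2) = noise E := by
  unfold noise
  apply Measure.eq_infinitePi
  intro s t ht
  rw [Measure.map_apply (measurable_update_pair e0) (.pi s.countable_toSet fun _ _ => ht _)]
  by_cases h : e0 ∈ s
  · have hpre : (fun p : (E → unitInterval) × unitInterval => Function.update p.1 e0 p.2) ⁻¹'
        ((s : Set E).pi t) = ((s.erase e0 : Finset E) : Set E).pi t ×ˢ t e0 := by
      ext p
      simp only [Set.mem_preimage, Set.mem_pi, Set.mem_prod, Finset.coe_erase, Set.mem_sdiff,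
        Finset.mem_coe, Set.mem_singleton_iff]
      constructor
      · intro hp
        refine ⟨fun i hi => ?_, ?_⟩
        · have := hp i hi.1
          rwa [Function.update_of_ne hi.2] at this
        · have := hp e0 h
          rwa [Function.update_self] at this
      · rintro ⟨h1, h2⟩ i hi
        by_cases hi0 : i = e0
        · subst hi0; rwa [Function.update_self]
        · rw [Function.update_of_ne hi0]; exact h1 i ⟨hi, hi0⟩
    rw [hpre, Measure.prod_prod, Measure.infinitePi_pi _ (fun i _ => ht i),
      Finset.prod_erase_mul _ _ h]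
  · have hpre : (fun p : (E → unitInterval) × unitInterval => Function.update p.1 e0 p.2) ⁻¹'
        ((s : Set E).pi t) = (s : Set E).pi t ×ˢ Set.univ := by
      ext p
      simp only [Set.mem_preimage, Set.mem_pi, Set.mem_prod, Finset.mem_coe, Set.mem_univ,
        and_true]
      refine forall₂_congr fun i hi => ?_
      rw [Function.update_of_ne (fun h0 : i = e0 => h (by rw [← h0]; exact hi))]
    rw [hpre, Measure.prod_prod, Measure.infinitePi_pi _ (fun i _ => ht i)]
    simp

/-- average over the coordinate `e0` -/
noncomputable def avg (e0 : E) (f : (E → unitInterval) → ℝ) : (E → unitInterval) → ℝ :=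
  fun w => ∫ u : unitInterval, f (Function.update w e0 u)

lemma measurable_avg (e0 : E) {f : (E → unitInterval) → ℝ} (hf : Measurable f) :
    Measurable (avg e0 f) := by
  unfold avg
  have h1 : StronglyMeasurable (fun p : (E → unitInterval) × unitInterval =>
      f (Function.update p.1 e0 p.2)) := (hf.comp (measurable_update_pair e0)).stronglyMeasurable
  exact h1.integral_prod_right.measurable

lemma integrable_bdd' {X : Type*} [MeasurableSpace X] {μ : Measure X} [IsProbabilityMeasure μ]
    {f : X → ℝ} (hf : Measurable f) {C : ℝ} (hb : ∀ y, |f y| ≤ C) : Integrable f μ :=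
  Integrable.of_bound hf.aestronglyMeasurable C (Filter.Eventually.of_forall hb)

lemma abs_integral_le_of_bdd {X : Type*} [MeasurableSpace X] {μ : Measure X}
    [IsProbabilityMeasure μ] {f : X → ℝ} {C : ℝ} (hb : ∀ y, |f y| ≤ C) : |∫ y, f y ∂μ| ≤ C := by
  have h := norm_integral_le_of_norm_le_const (μ := μ) (f := f) (C := C)
    (Filter.Eventually.of_forall hb)
  simpa using h

lemma integral_update (e0 : E) {F : (E → unitInterval) → ℝ} (hF : Measurable F) {C : ℝ}
    (hb : ∀ w, |F w| ≤ C) : ∫ w, F w ∂(noise E) = ∫ w, avg e0 F w ∂(noise E) := by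
  have hm := measurable_update_pair (E := E) e0
  conv_lhs => rw [← map_update e0]
  rw [integral_map hm.aemeasurable hF.aestronglyMeasurable]
  have hi : Integrable (fun p : (E → unitInterval) × unitInterval =>
      F (Function.update p.1 e0 p.2)) ((noise E).prod (volume : Measure unitInterval)) :=
    integrable_bdd' (hF.comp hm) (fun p => hb _)
  rw [integral_prod _ hi]
  rfl

/-- Lipschitz bound on the coordinates in `A` -/
def LipOn (A : Finset E) (a : E → ℝ) (f : (E → unitInterval) → ℝ) : Prop :=
  ∀ w w' : E → unitInterval, |f w - f w'| ≤ ∑ e ∈ A, a e * |(w e : ℝ) - w' e|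

lemma LipOn.indep {A : Finset E} {a : E → ℝ} {f : (E → unitInterval) → ℝ} (h : LipOn A a f)
    {e0 : E} (he : e0 ∉ A) (w : E → unitInterval) (u : unitInterval) :
    f (Function.update w e0 u) = f w := by
  have h1 := h (Function.update w e0 u) w
  have h2 : ∑ e ∈ A, a e * |((Function.update w e0 u e : unitInterval) : ℝ) - w e| = 0 := by
    refine Finset.sum_eq_zero fun e he' => ?_
    rw [Function.update_of_ne (fun h0 : e = e0 => he (by rw [← h0]; exact he'))]
    simp
  rw [h2] at h1
  exact sub_eq_zero.mp (abs_eq_zero.mp (le_antisymm h1 (abs_nonneg _)))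

lemma LipOn.bdd {A : Finset E} {a : E → ℝ} (ha : ∀ e, 0 ≤ a e) {f : (E → unitInterval) → ℝ}
    (h : LipOn A a f) : ∃ C, ∀ w, |f w| ≤ C := by
  let w0 : E → unitInterval := fun _ => 0
  refine ⟨|f w0| + ∑ e ∈ A, a e, fun w => ?_⟩
  have h1 := h w w0
  have h2 : ∑ e ∈ A, a e * |((w e : unitInterval) : ℝ) - w0 e| ≤ ∑ e ∈ A, a e := by
    refine Finset.sum_le_sum fun e _ => ?_
    have h3 : |((w e : unitInterval) : ℝ) - w0 e| ≤ 1 := by
      have := (w e).2
      simp only [w0, Set.Icc.coe_zero, sub_zero]
      rw [abs_of_nonneg this.1]; exact this.2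
    calc a e * |((w e : unitInterval) : ℝ) - w0 e| ≤ a e * 1 :=
          mul_le_mul_of_nonneg_left h3 (ha e)
      _ = a e := mul_one _
  have h4 : |f w| ≤ |f w0| + |f w - f w0| := by
    have := abs_add_le (f w0) (f w - f w0)
    simpa using this
  linarith

lemma avg_lip {A : Finset E} {a : E → ℝ} (ha : ∀ e, 0 ≤ a e) {f : (E → unitInterval) → ℝ}
    (hf : Measurable f) (h : LipOn A a f) (e0 : E) : LipOn (A.erase e0) a (avg e0 f) := by
  obtain ⟨C, hC⟩ := h.bdd ha
  intro w w'
  have hm : ∀ w : E → unitInterval, Measurable (fun u : unitInterval =>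
      f (Function.update w e0 u)) := fun w =>
    (hf.comp (measurable_update_pair e0)).comp (measurable_const.prodMk measurable_id)
  unfold avg
  rw [← integral_sub (integrable_bdd' (hm w) (fun _ => hC _))
    (integrable_bdd' (hm w') (fun _ => hC _))]
  refine abs_integral_le_of_bdd fun u => ?_
  refine (h _ _).trans ?_
  by_cases he : e0 ∈ A
  · rw [← Finset.add_sum_erase A _ he]
    simp only [Function.update_self, sub_self, abs_zero, mul_zero, zero_add]
    refine le_of_eq (Finset.sum_congr rfl fun e he' => ?_)
    rw [Function.update_of_ne (Finset.ne_of_mem_erase he'),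
      Function.update_of_ne (Finset.ne_of_mem_erase he')]
  · rw [Finset.erase_eq_of_notMem he]
    refine le_of_eq (Finset.sum_congr rfl fun e he' => ?_)
    have h0 : e ≠ e0 := fun h0 => he (by rw [← h0]; exact he')
    rw [Function.update_of_ne h0, Function.update_of_ne h0]

lemma avg_close {A : Finset E} {a : E → ℝ} (ha : ∀ e, 0 ≤ a e) {f : (E → unitInterval) → ℝ}
    (hf : Measurable f) (h : LipOn A a f) (e0 : E) (w : E → unitInterval) :
    |f w - avg e0 f w| ≤ a e0 := by
  obtain ⟨C, hC⟩ := h.bdd ha
  have hm : Measurable (fun u : unitInterval => f (Function.update w e0 u)) :=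
    (hf.comp (measurable_update_pair e0)).comp (measurable_const.prodMk measurable_id)
  have h1 : f w - avg e0 f w = ∫ u : unitInterval, (f w - f (Function.update w e0 u)) := by
    rw [integral_sub (integrable_const _) (integrable_bdd' hm (fun _ => hC _))]
    simp [avg]
  rw [h1]
  refine abs_integral_le_of_bdd fun u => ?_
  refine (h _ _).trans ?_
  have h2 : ∀ e, |((w e : unitInterval) : ℝ) - (Function.update w e0 u e : unitInterval)|
      ≤ if e = e0 then 1 else 0 := by
    intro e
    by_cases he : e = e0
    · subst he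
      rw [Function.update_self, if_pos rfl, abs_le]
      have h3 := (w e).2
      have h4 := u.2
      constructor <;> linarith [h3.1, h3.2, h4.1, h4.2]
    · rw [Function.update_of_ne he, if_neg he]; simp
  calc ∑ e ∈ A, a e * |((w e : unitInterval) : ℝ) - (Function.update w e0 u e : unitInterval)|
      ≤ ∑ e ∈ A, a e * (if e = e0 then 1 else 0) :=
        Finset.sum_le_sum fun e _ => mul_le_mul_of_nonneg_left (h2 e) (ha e)
    _ ≤ a e0 := by
        simp only [mul_ite, mul_one, mul_zero]
        rw [Finset.sum_ite_eq' A e0]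
        split_ifs
        · exact le_rfl
        · exact ha e0

theorem window_aux (W : Finset E) (a : E → ℝ) (ha : ∀ e, 0 ≤ a e) : ∀ (n : ℕ) (A : Finset E),
    W ⊆ A → (A \ W).card = n → ∀ f : (E → unitInterval) → ℝ, Measurable f → LipOn A a f →
    ∃ g : (E → unitInterval) → ℝ, Measurable g ∧ LipOn W a g ∧
      (∀ C, (∀ w, |f w| ≤ C) → ∀ w, |g w| ≤ C) ∧
      ∫ w, (f w - g w) ^ 2 ∂(noise E) ≤ ∑ e ∈ A \ W, (a e) ^ 2 := by
  intro n
  induction n with
  | zero =>
    intro A hW hn f hf hl
    have h0 : A \ W = ∅ := Finset.card_eq_zero.mp hn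
    have hAW : A = W := le_antisymm (Finset.sdiff_eq_empty_iff_subset.mp h0) hW
    subst hAW
    exact ⟨f, hf, hl, fun C hC => hC, by simp⟩
  | succ n ih =>
    intro A hW hn f hf hl
    obtain ⟨e0, he0⟩ : (A \ W).Nonempty := by
      rw [← Finset.card_pos, hn]; omega
    have heA : e0 ∈ A := (Finset.mem_sdiff.mp he0).1
    have heW : e0 ∉ W := (Finset.mem_sdiff.mp he0).2
    have hW1 : W ⊆ A.erase e0 := fun e he =>
      Finset.mem_erase.mpr ⟨fun h => heW (h ▸ he), hW he⟩
    have hsd : A.erase e0 \ W = (A \ W).erase e0 := by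
      ext e; simp only [Finset.mem_sdiff, Finset.mem_erase]; tauto
    obtain ⟨g, hg, hgl, hgb, hgi⟩ := ih (A.erase e0) hW1
      (by rw [hsd, Finset.card_erase_of_mem he0, hn]; rfl)
      (avg e0 f) (measurable_avg e0 hf) (avg_lip ha hf hl e0)
    refine ⟨g, hg, hgl, fun C hC => hgb C (fun w => ?_), ?_⟩
    · exact abs_integral_le_of_bdd fun u => hC _
    · obtain ⟨Cf, hCf⟩ := hl.bdd ha
      obtain ⟨Cg, hCg⟩ := hgl.bdd ha
      obtain ⟨Ca, hCa⟩ := (avg_lip ha hf hl e0).bdd ha
      have hma := measurable_avg e0 hf
      have bd : ∀ {x y : ℝ} {C D : ℝ}, |x| ≤ C → |y| ≤ D → |x * y| ≤ C * D := by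
        intro x y C D hx hy
        rw [abs_mul]
        exact mul_le_mul hx hy (abs_nonneg _) ((abs_nonneg _).trans hx)
      have bs : ∀ {x y : ℝ} {C D : ℝ}, |x| ≤ C → |y| ≤ D → |x - y| ≤ C + D := by
        intro x y C D hx hy
        exact (abs_sub _ _).trans (add_le_add hx hy)
      -- orthogonality
      have ind : ∀ (w : E → unitInterval) (u : unitInterval),
          avg e0 f (Function.update w e0 u) - g (Function.update w e0 u)
            = avg e0 f w - g w := by
        intro w u
        rw [(avg_lip ha hf hl e0).indep (Finset.notMem_erase e0 A), hgl.indep heW]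
      have orth : ∫ w, f w * (avg e0 f w - g w) ∂(noise E)
          = ∫ w, avg e0 f w * (avg e0 f w - g w) ∂(noise E) := by
        rw [integral_update e0 (F := fun w => f w * (avg e0 f w - g w))
          (hf.mul (hma.sub hg)) (fun w => bd (hCf w) (bs (hCa w) (hCg w)))]
        refine integral_congr_ae (Filter.Eventually.of_forall fun w => ?_)
        simp only [avg]
        have : ∀ u : unitInterval, f (Function.update w e0 u) *
            ((∫ u' : unitInterval, f (Function.update (Function.update w e0 u) e0 u'))
              - g (Function.update w e0 u))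
            = f (Function.update w e0 u) * ((∫ u' : unitInterval, f (Function.update w e0 u'))
              - g w) := by
          intro u
          have := ind w u
          simp only [avg] at this
          rw [this]
        simp only [this]
        rw [integral_mul_const]
      have i1 : Integrable (fun w => (f w - avg e0 f w) ^ 2) (noise E) :=
        integrable_bdd' ((hf.sub hma).pow_const 2) (fun w => by
          rw [sq]; exact bd (bs (hCf w) (hCa w)) (bs (hCf w) (hCa w)))
      have i2 : Integrable (fun w => (avg e0 f w - g w) ^ 2) (noise E) :=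
        integrable_bdd' ((hma.sub hg).pow_const 2) (fun w => by
          rw [sq]; exact bd (bs (hCa w) (hCg w)) (bs (hCa w) (hCg w)))
      have i3 : Integrable (fun w => f w * (avg e0 f w - g w)) (noise E) :=
        integrable_bdd' (hf.mul (hma.sub hg)) (fun w => bd (hCf w) (bs (hCa w) (hCg w)))
      have i4 : Integrable (fun w => avg e0 f w * (avg e0 f w - g w)) (noise E) :=
        integrable_bdd' (hma.mul (hma.sub hg)) (fun w => bd (hCa w) (bs (hCa w) (hCg w)))
      have e1 : ∫ w, (f w - g w) ^ 2 ∂(noise E)
          = ∫ w, (f w - avg e0 f w) ^ 2 ∂(noise E) + ∫ w, (avg e0 f w - g w) ^ 2 ∂(noise E) := by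
        have e2 : ∀ w, (f w - g w) ^ 2 = (f w - avg e0 f w) ^ 2 + (avg e0 f w - g w) ^ 2
            + 2 * (f w * (avg e0 f w - g w) - avg e0 f w * (avg e0 f w - g w)) := by
          intro w; ring
        have i34 : Integrable (fun w => f w * (avg e0 f w - g w)
            - avg e0 f w * (avg e0 f w - g w)) (noise E) := i3.sub i4
        have i5 : Integrable (fun w => (f w - avg e0 f w) ^ 2 + (avg e0 f w - g w) ^ 2)
            (noise E) := i1.add i2
        simp only [e2]
        rw [integral_add i5 (i34.const_mul 2), integral_add i1 i2, integral_const_mul,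
          integral_sub i3 i4, orth]
        ring
      have e3 : ∫ w, (f w - avg e0 f w) ^ 2 ∂(noise E) ≤ (a e0) ^ 2 := by
        have h1 := abs_integral_le_of_bdd (μ := noise E)
          (f := fun w => (f w - avg e0 f w) ^ 2) (C := (a e0) ^ 2) (fun w => by
            rw [abs_pow]
            exact pow_le_pow_left₀ (abs_nonneg _) (avg_close ha hf hl e0 w) 2)
        exact (le_abs_self _).trans h1
      rw [e1, ← Finset.add_sum_erase (A \ W) _ he0, ← hsd]
      exact add_le_add e3 hgi

end EfronStein

theorem window {E : Type*} [Countable E] [DecidableEq E] (A W : Finset E) (hW : W ⊆ A)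
    (f : (E → unitInterval) → ℝ) (hf : Measurable f) (a : E → ℝ) (ha : ∀ e, 0 ≤ a e)
    (hlip : ∀ w w' : E → unitInterval, |f w - f w'| ≤ ∑ e ∈ A, a e * |(w e : ℝ) - w' e|) :
    ∃ g : (E → unitInterval) → ℝ, Measurable g ∧
      (∀ w w' : E → unitInterval, |g w - g w'| ≤ ∑ e ∈ W, a e * |(w e : ℝ) - w' e|) ∧
      (∀ C, (∀ w, |f w| ≤ C) → ∀ w, |g w| ≤ C) ∧
      ∫ w, (f w - g w) ^ 2 ∂(noise E) ≤ ∑ e ∈ A \ W, (a e) ^ 2 :=
  window_aux W a ha _ A hW rfl f hf hlip

end P161
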