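import Vale.Agent.P161.SysDefs

/-!
# P161: change of labels for the recursion
-/

open MeasureTheory

namespace P161

section
variable {S E R : Type*} [LinearOrder R] (M : Sys S E)

theorem lik_congr_c {B : Finset E} {y y' : E → ℝ} (h : ∀ f ∈ B, y f = y' f) (s : S) :
    M.lik B y s = M.lik B y' s := by
  unfold Sys.lik
  exact Finset.prod_congr rfl fun f hf => by rw [h f hf]

theorem post_congr_c {B : Finset E} {y y' : E → ℝ} (h : ∀ f ∈ B, y f = y' f) (e : E) :
    M.post B y e = M.post B y' e := by
  unfold Sys.post Sys.den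
  simp_rw [lik_congr_c M h]

theorem past_subset_c (r : E → R) (A : Finset E) (e : E) : Sys.past r A e ⊆ A :=
  Finset.filter_subset _ _

/-- change of system and of the labels of the events -/
theorem F_congr {S' E' R' : Type*} [LinearOrder R'] (M' : Sys S' E') (hκ : M'.κ = M.κ)
    (φ : E ≃ E') (r : E → R) (r' : E' → R') (A : Finset E) (A' : Finset E')
    (hA : ∀ e, φ e ∈ A' ↔ e ∈ A) (hr : ∀ e ∈ A, ∀ f ∈ A, r' (φ e) < r' (φ f) ↔ r e < r f)
    (hpost : ∀ e ∈ A, ∀ B ⊆ A, ∀ y : E' → ℝ,
      M'.post (B.map φ.toEmbedding) y (φ e) = M.post B (fun f => y (φ f)) e)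
    (w : E' → ℝ) : ∀ e ∈ A, M'.F r' A' w (φ e) = M.F r A (fun f => w (φ f)) e := by
  classical
  have hA' : A' = A.map φ.toEmbedding := by
    ext x
    rw [Finset.mem_map_equiv]
    have := hA (φ.symm x)
    rw [Equiv.apply_symm_apply] at this
    exact this
  have hcard : A'.card = A.card := by rw [hA', Finset.card_map]
  have hpast : ∀ e ∈ A, Sys.past r' A' (φ e) = (Sys.past r A e).map φ.toEmbedding := by
    intro e he
    ext x
    rw [Finset.mem_map_equiv]
    unfold Sys.past
    rw [Finset.mem_filter, Finset.mem_filter, hA', Finset.mem_map_equiv]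
    constructor
    · rintro ⟨h1, h2⟩
      refine ⟨h1, ?_⟩
      have := hr (φ.symm x) h1 e he
      rw [Equiv.apply_symm_apply] at this
      exact this.1 h2
    · rintro ⟨h1, h2⟩
      refine ⟨h1, ?_⟩
      have := hr (φ.symm x) h1 e he
      rw [Equiv.apply_symm_apply] at this
      exact this.2 h2
  have key : ∀ n, ∀ e ∈ A, M'.itF r' A' w n (φ e) = M.itF r A (fun f => w (φ f)) n e := by
    intro n
    induction n with
    | zero => intro e _; rfl
    | succ n ih =>
      intro e he
      show Qf M'.κ (M'.post (Sys.past r' A' (φ e)) (M'.itF r' A' w n) (φ e)) (w (φ e))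
        = Qf M.κ (M.post (Sys.past r A e) (M.itF r A (fun f => w (φ f)) n) e) (w (φ e))
      rw [hκ, hpast e he, hpost e he _ (past_subset_c r A e)]
      congr 1
      exact post_congr_c M (fun f hf => ih f (past_subset_c r A e hf)) e
  intro e he
  unfold Sys.F
  rw [hcard]
  exact key _ e he

end

end P161
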