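import Vale.Agent.P161.SysEquiv
import Vale.Agent.P161.FCongr

/-!
# P161: equivariance of the finite volume observations
-/

open MeasureTheory

namespace P161

variable {V : Type*} {G : SimpleGraph V}

/-- Equivariance of the finite volume observations. -/
theorem isys_F_gem (hT : G.IsTree) {θ κ : ℝ} (h0 : 0 ≤ θ) (h1 : θ < 1)
    (hκ : 0 ≤ κ) (hκ1 : κ < 1) (D : Finset V) (hD : (G.induce (D : Set V)).Connected)
    (g : G ≃g G)
    (hD' : (G.induce ((D.map (gem g) : Finset V) : Set V)).Connected) (N : ℕ) (ω : V → ℕ → unitInterval) (e : V × ℕ) (he : e ∈ evs D N) :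
    (isys G hT h0 h1 hκ hκ1 (D.map (gem g)) hD').F
        (rk (key (fun v => ω (g.symm v)))) (evs (D.map (gem g)) N)
        (cw (evn (fun v => ω (g.symm v)))) (g e.1, e.2)
      = (isys G hT h0 h1 hκ hκ1 D hD).F (rk (key ω)) (evs D N) (cw (evn ω)) e := by
  have h := F_congr (isys G hT h0 h1 hκ hκ1 D hD)
    (isys G hT h0 h1 hκ hκ1 (D.map (gem g)) (connected_gem g hD)) rfl (gev g)
    (rk (key ω)) (rk (key (fun v => ω (g.symm v)))) (evs D N) (evs (D.map (gem g)) N)
    (fun e => mem_evs_gem g D N e)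
    (fun e _ f _ => by rw [rk_gem, rk_gem])
    (fun e _ B _ y => isys_post_gem hT h0 h1 hκ hκ1 D hD g B y e)
    (cw (evn (fun v => ω (g.symm v)))) e he
  have h2 : (fun f => cw (evn (fun v => ω (g.symm v))) (gev g f)) = cw (evn ω) := by
    funext f
    unfold cw
    rw [evn_gem]
  rw [h2] at h
  exact h

end P161
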