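import Vale.Agent.P161.Defs

/-!
# P161: sequential revealing, internal definitions

Events `e : E` are revealed one after the other; an event shows a number `y e ∈ [0,1]` whose
density given the hidden state `s` is `1 + κ * x s e * (2 y - 1)`.
-/

namespace P161

open MeasureTheory

/-- inverse of `cdfF κ m` on `[0,1]`. -/
noncomputable def Qf (κ m w : ℝ) : ℝ :=
  2 * w / ((1 - κ * m) + Real.sqrt ((1 - κ * m) ^ 2 + 4 * (κ * m) * w))

/-- coercion of `[0,1]`-valued families to real ones. -/
def cw {E : Type*} (w : E → unitInterval) : E → ℝ := fun e => (w e : ℝ)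

/-- iid uniform noise indexed by `E`. -/
noncomputable def noise (E : Type*) : Measure (E → unitInterval) :=
  Measure.infinitePi (fun _ : E => (volume : Measure unitInterval))

instance instProbNoise (E : Type*) : IsProbabilityMeasure (noise E) := by
  unfold noise; infer_instance

/-- finite hidden state space `T` with prior `μ`, channel strength `κ`, sign `x s e ∈ [-1,1]` of
the hidden state `s` relevant for the event `e`. -/
structure Sys (S E : Type*) where
  T : Finset S
  μ : S → ℝ
  κ : ℝ
  x : S → E → ℝ
  μ_nonneg : ∀ s ∈ T, 0 ≤ μ s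
  μ_sum : ∑ s ∈ T, μ s = 1
  κ_nonneg : 0 ≤ κ
  κ_lt : κ < 1
  x_abs : ∀ s e, |x s e| ≤ 1

namespace Sys

variable {S E R : Type*} [LinearOrder R] (M : Sys S E)

/-- likelihood of the observations `y` on the event set `A`. -/
noncomputable def lik (A : Finset E) (y : E → ℝ) (s : S) : ℝ :=
  ∏ e ∈ A, (1 + M.κ * M.x s e * (2 * y e - 1))

/-- density of the observations on `A`. -/
noncomputable def den (A : Finset E) (y : E → ℝ) : ℝ :=
  ∑ s ∈ M.T, M.μ s * M.lik A y s

/-- posterior mean of the sign of the event `e` given the observations on `A`. -/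
noncomputable def post (A : Finset E) (y : E → ℝ) (e : E) : ℝ :=
  (∑ s ∈ M.T, M.μ s * M.x s e * M.lik A y s) / M.den A y

/-- the events of `A` before `e`. -/
noncomputable def past (r : E → R) (A : Finset E) (e : E) : Finset E :=
  A.filter (fun f => r f < r e)

/-- one sweep of the fixed point iteration `y e = Q_{post}(w e)`. -/
noncomputable def stp (r : E → R) (A : Finset E) (w y : E → ℝ) : E → ℝ :=
  fun e => Qf M.κ (M.post (past r A e) y e) (w e)

/-- iterates. -/
noncomputable def itF (r : E → R) (A : Finset E) (w : E → ℝ) : ℕ → E → ℝ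
  | 0 => fun _ => 1 / 2
  | n + 1 => M.stp r A w (itF r A w n)

/-- the observations as a function of the noise `w`. -/
noncomputable def F (r : E → R) (A : Finset E) (w : E → ℝ) : E → ℝ :=
  M.itF r A w (A.card + 1)

/-- the innovations as a function of the observations. -/
noncomputable def Tr (r : E → R) (A : Finset E) (y : E → ℝ) : E → ℝ :=
  fun e => cdfF M.κ (M.post (past r A e) y e) (y e)

end Sys

/-! ## The Ising system on a finite subtree; events are pairs (vertex, round) -/

section Ising
variable {V : Type*}

/-- probability of the configuration `S ⊆ D` (set of plus vertices) on the subtree `D`. -/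
noncomputable def isw (G : SimpleGraph V) (θ : ℝ) (D S : Finset V) : ℝ :=
  (1 / 2) * ∏ e ∈ edgesIn G D, ew θ (cfg S) e

/-- rank of an event: rounds first, then the order key of the vertex. -/
def rk (L : V → ℝ) (e : V × ℕ) : ℕ ×ₗ ℝ := toLex (e.2, L e.1)

/-- events in `D` during the rounds `< N`. -/
def evs (D : Finset V) (N : ℕ) : Finset (V × ℕ) := D ×ˢ Finset.range N

end Ising

end P161
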