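import Vale.Agent.P161.IsingTree
import Vale.Agent.P161.SysDefs

/-!
# P161, module M2b: consistency of the Ising weights on finite subtrees
-/

namespace P161

variable {V : Type*} {G : SimpleGraph V} {θ : ℝ}

/-- A vertex outside a connected vertex set of a forest has at most one neighbour in the set. -/
theorem nbr_unique (hG : G.IsTree) {D : Finset V} (hD : (G.induce (D : Set V)).Connected)
    {l p q : V} (hl : l ∉ D) (hp : p ∈ D) (hq : q ∈ D) (hlp : G.Adj l p) (hlq : G.Adj l q) :
    q = p := by
  classical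
  by_contra hne
  obtain ⟨P, hP⟩ := (hD ⟨p, hp⟩ ⟨q, hq⟩).exists_isPath
  let φ : G.induce (D : Set V) →g G := (SimpleGraph.Embedding.induce (D : Set V)).toHom
  have hφ : Function.Injective φ := Subtype.val_injective
  have hW : (P.map φ).IsPath := SimpleGraph.Walk.IsPath.map hφ hP
  have hW2 : (SimpleGraph.Walk.cons hlp.symm
      (SimpleGraph.Walk.cons hlq SimpleGraph.Walk.nil) : G.Walk p q).IsPath := by
    rw [SimpleGraph.Walk.cons_isPath_iff, SimpleGraph.Walk.cons_isPath_iff]
    refine ⟨⟨SimpleGraph.Walk.IsPath.nil, ?_⟩, ?_⟩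
    · rw [SimpleGraph.Walk.support_nil, List.mem_singleton]
      exact fun h => hl (h ▸ hq)
    · rw [SimpleGraph.Walk.support_cons, SimpleGraph.Walk.support_nil]
      simp only [List.mem_cons, List.not_mem_nil, or_false, not_or]
      exact ⟨fun h => hl (h ▸ hp), fun h => hne h.symm⟩
  have heq : (P.map φ : G.Walk p q) = SimpleGraph.Walk.cons hlp.symm
      (SimpleGraph.Walk.cons hlq SimpleGraph.Walk.nil) :=
    congrArg Subtype.val (@Subsingleton.elim (G.Path p q) (hG.isAcyclic.subsingleton_path p q)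
      ⟨P.map φ, hW⟩ ⟨_, hW2⟩)
  have hsupp : l ∈ (P.map φ).support := by
    have h3 : (P.map φ).support = [p, l, q] :=
      congrArg (fun W : G.Walk p q => W.support) heq
    rw [h3]
    simp
  rw [SimpleGraph.Walk.support_map, List.mem_map] at hsupp
  obtain ⟨a, _, ha⟩ := hsupp
  apply hl
  have : (φ a) = a.1 := rfl
  rw [this] at ha
  rw [← ha]
  exact a.2

open scoped Classical in
/-- Growing a finite connected set inside a larger one by one pendant vertex. -/
theorem exists_grow (hG : G.IsTree) {D D' : Finset V} (hD : (G.induce (D : Set V)).Connected)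
    (hD' : (G.induce (D' : Set V)).Connected) (h : D ⊆ D') (hne : D ≠ D') :
    ∃ l ∈ D', l ∉ D ∧ ∃ p ∈ D, G.Adj l p ∧ (∀ q ∈ D, G.Adj l q → q = p) ∧
      (G.induce ((insert l D : Finset V) : Set V)).Connected ∧ insert l D ⊆ D' := by
  classical
  obtain ⟨⟨v, hv⟩⟩ := hD.nonempty
  have hex : ∃ x ∈ D', x ∉ D := by
    by_contra hcon
    push Not at hcon
    exact hne (Finset.Subset.antisymm h hcon)
  obtain ⟨x, hx, hxD⟩ := hex
  have hvD : v ∈ D := hv
  obtain ⟨W⟩ := hD' ⟨v, h hvD⟩ ⟨x, hx⟩
  obtain ⟨⟨⟨a, b⟩, hab⟩, _, hd1, hd2⟩ := W.exists_boundary_dart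
    {y : (D' : Set V) | y.1 ∈ D} (by exact hvD) (by exact hxD)
  have had : G.Adj b.1 a.1 := (show G.Adj a.1 b.1 from hab).symm
  have ha : a.1 ∈ D := hd1
  have hb : b.1 ∉ D := hd2
  have hbD' : b.1 ∈ D' := b.2
  refine ⟨b.1, hbD', hb, a.1, ha, had,
    fun q hq hlq => nbr_unique hG hD hb ha hq had hlq, ?_, ?_⟩
  · have h1 : (G.induce ({b.1} : Set V)).Preconnected := by
      rintro ⟨y, hy⟩ ⟨z, hz⟩
      rw [Set.mem_singleton_iff] at hy hz
      subst hy; subst hz
      exact SimpleGraph.Reachable.refl _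
    have h2 := SimpleGraph.connected_induce_union (G := G) h1 hD.preconnected
      (Set.mem_singleton b.1) ha had
    have h3 : ((insert b.1 D : Finset V) : Set V) = {b.1} ∪ (D : Set V) := by
      rw [Finset.coe_insert, Set.insert_eq]
    rw [h3]
    exact h2
  · intro y hy
    rcases Finset.mem_insert.1 hy with h4 | h4
    · rw [h4]; exact hbD'
    · exact h h4

open scoped Classical in
theorem isw_insert_sum {D : Finset V} {l p : V} (hl : l ∉ D)
    (hp : p ∈ D) (hlp : G.Adj l p) (huniq : ∀ q ∈ D, G.Adj l q → q = p)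
    {S : Finset V} (hS : S ⊆ D) :
    isw G θ (insert l D) S + isw G θ (insert l D) (insert l S) = isw G θ D S := by
  have hlS : l ∉ S := fun hh => hl (hS hh)
  have hpl : p ≠ l := fun hh => hl (by rw [← hh]; exact hp)
  have hc1 : cfg S l = false := by simp [cfg, hlS]
  have hc2 : cfg (insert l S) l = true := by simp [cfg]
  unfold isw
  rw [edgesIn_insert hl hp hlp huniq, Finset.prod_insert (not_mem_edgesIn hl),
    Finset.prod_insert (not_mem_edgesIn hl), ew_mk, ew_mk, hc1, hc2, prod_ew_insert hl,
    cfg_insert_of_ne hpl]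
  have e1 : sg false = -1 := by simp [sg]
  have e2 : sg true = 1 := by simp [sg]
  rw [e1, e2]
  ring

open scoped Classical in
/-- One step of the marginalisation. -/
theorem isw_step {D : Finset V} {l p : V} (hl : l ∉ D)
    (hp : p ∈ D) (hlp : G.Adj l p) (huniq : ∀ q ∈ D, G.Adj l q → q = p)
    (f : Finset V → ℝ) :
    ∑ S ∈ (insert l D).powerset, isw G θ (insert l D) S * f (S ∩ D)
      = ∑ S ∈ D.powerset, isw G θ D S * f S := by
  rw [Finset.sum_powerset_insert hl, ← Finset.sum_add_distrib]
  refine Finset.sum_congr rfl fun S hS => ?_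
  rw [Finset.mem_powerset] at hS
  have h1 : S ∩ D = S := Finset.inter_eq_left.2 hS
  have h2 : insert l S ∩ D = S := by
    rw [Finset.insert_inter_of_notMem hl, h1]
  rw [h1, h2, ← add_mul, isw_insert_sum hl hp hlp huniq hS]

open scoped Classical in
theorem isw_marginal (G : SimpleGraph V) (hT : G.IsTree) (θ : ℝ) (D D' : Finset V)
    (hD : (G.induce (D : Set V)).Connected) (hD' : (G.induce (D' : Set V)).Connected)
    (h : D ⊆ D') (f : Finset V → ℝ) :
    ∑ S ∈ D'.powerset, isw G θ D' S * f (S ∩ D) = ∑ S ∈ D.powerset, isw G θ D S * f S := by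
  induction hn : (D' \ D).card using Nat.strong_induction_on generalizing D f with
  | _ n ih =>
    by_cases hne : D = D'
    · subst hne
      refine Finset.sum_congr rfl fun S hS => ?_
      rw [Finset.mem_powerset] at hS
      rw [Finset.inter_eq_left.2 hS]
    · obtain ⟨l, hlD', hl, p, hp, hlp, huniq, hconn, hsub⟩ := exists_grow hT hD hD' h hne
      have hcard : (D' \ insert l D).card < n := by
        rw [← hn]
        apply Finset.card_lt_card
        refine ⟨fun y hy => ?_, fun hcon => ?_⟩
        · rw [Finset.mem_sdiff, Finset.mem_insert, not_or] at hy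
          exact Finset.mem_sdiff.2 ⟨hy.1, hy.2.2⟩
        · have := hcon (Finset.mem_sdiff.2 ⟨hlD', hl⟩)
          rw [Finset.mem_sdiff, Finset.mem_insert, not_or] at this
          exact this.2.1 rfl
      have key := ih _ hcard (insert l D) hconn hsub (fun S => f (S ∩ D)) rfl
      rw [isw_step hl hp hlp huniq f] at key
      rw [← key]
      refine Finset.sum_congr rfl fun S _ => ?_
      have : S ∩ insert l D ∩ D = S ∩ D := by
        ext y
        simp only [Finset.mem_inter, Finset.mem_insert]
        tauto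
      simp only [this]

open scoped Classical in
theorem isw_singleton (G : SimpleGraph V) (θ : ℝ) (v : V) (S : Finset V) :
    isw G θ {v} S = 1 / 2 := by
  have he : edgesIn G ({v} : Finset V) = ∅ := by
    unfold edgesIn
    rw [Finset.filter_eq_empty_iff]
    intro e he
    induction e with
    | _ a b =>
      rw [Finset.mk_mem_sym2_iff, Finset.mem_singleton, Finset.mem_singleton] at he
      rw [he.1, he.2]
      exact G.loopless.irrefl _
  unfold isw
  rw [he, Finset.prod_empty, mul_one]

theorem isw_sum (G : SimpleGraph V) (hT : G.IsTree) (θ : ℝ) (D : Finset V)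
    (hD : (G.induce (D : Set V)).Connected) : ∑ S ∈ D.powerset, isw G θ D S = 1 := by
  classical
  obtain ⟨⟨v, hv⟩⟩ := hD.nonempty
  have hvD : v ∈ D := hv
  have h1 : (G.induce (({v} : Finset V) : Set V)).Connected := by
    rw [Finset.coe_singleton]
    refine (SimpleGraph.connected_iff _).2 ⟨?_, ⟨⟨v, rfl⟩⟩⟩
    rintro ⟨y, hy⟩ ⟨z, hz⟩
    rw [Set.mem_singleton_iff] at hy hz
    subst hy; subst hz
    exact SimpleGraph.Reachable.refl _
  have h2 := isw_marginal G hT θ {v} D h1 hD (Finset.singleton_subset_iff.2 hvD) (fun _ => 1)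
  simp only [mul_one] at h2
  rw [h2, Finset.sum_congr rfl (fun S _ => isw_singleton G θ v S), Finset.sum_const,
    Finset.card_powerset, Finset.card_singleton]
  norm_num

theorem isw_nonneg (G : SimpleGraph V) {θ : ℝ} (h0 : 0 ≤ θ) (h1 : θ < 1) (D S : Finset V) :
    0 ≤ isw G θ D S :=
  mul_nonneg (by norm_num) (Finset.prod_nonneg fun e _ => (ew_pos h0 h1 _ e).le)

end P161
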