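import Vale.Agent.P161.Defs

/-!
# P161, module M2: the Ising model on finite subtrees with fields
-/

open MeasureTheory ProbabilityTheory Filter Topology
open scoped ENNReal unitInterval

namespace P161

variable {V : Type*} {G : SimpleGraph V} {θ : ℝ}

/-! ### Leaves -/

theorem not_mem_support_of_dist {v l p : V} {q : G.Walk v p} (hq : q.length = G.dist v p)
    (h : G.dist v l = G.dist v p + 1) : l ∉ q.support := by
  classical
  intro hl
  have h1 : G.dist v l ≤ (q.takeUntil l hl).length := SimpleGraph.dist_le _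
  have h2 : (q.takeUntil l hl).length ≤ q.length := q.length_takeUntil_le_length hl
  omega

theorem closer_unique (hG : G.IsTree) {v l p q : V} (hp : G.Adj l p) (hq : G.Adj l q)
    (hdp : G.dist v l = G.dist v p + 1) (hdq : G.dist v l = G.dist v q + 1) : p = q := by
  obtain ⟨R, hR, _⟩ := (hG.connected v l).exists_path_of_dist
  obtain ⟨P, hP, hP'⟩ := (hG.connected v p).exists_path_of_dist
  obtain ⟨Q, hQ, hQ'⟩ := (hG.connected v q).exists_path_of_dist
  have h1 := hG.isAcyclic.mem_support_of_ne_mem_support_of_adj_of_isPath hR hP hp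
    (not_mem_support_of_dist hP' hdp)
  have h2 := hG.isAcyclic.mem_support_of_ne_mem_support_of_adj_of_isPath hR hQ hq
    (not_mem_support_of_dist hQ' hdq)
  rw [hG.isAcyclic.eq_penultimate_of_adj_end hR hp h1,
    hG.isAcyclic.eq_penultimate_of_adj_end hR hq h2]

open Classical in
/-- Removing a pending vertex keeps connectedness. -/
theorem connected_erase {D : Finset V} (hD : (G.induce (D : Set V)).Connected) {v l p : V}
    (hv : v ∈ D) (hlv : l ≠ v) (hpD : p ∈ D) (hlp : G.Adj l p)
    (huniq : ∀ q ∈ D, G.Adj l q → q = p) :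
    (G.induce ((D.erase l : Finset V) : Set V)).Connected := by
  have hpl : p ≠ l := fun h => by subst h; exact G.loopless.irrefl _ hlp
  have hp' : p ∈ ((D.erase l : Finset V) : Set V) := by
    rw [Finset.mem_coe, Finset.mem_erase]; exact ⟨hpl, hpD⟩
  have hv' : v ∈ ((D.erase l : Finset V) : Set V) := by
    rw [Finset.mem_coe, Finset.mem_erase]; exact ⟨hlv.symm, hv⟩
  have hmem : ∀ x : (D : Set V), x.1 ≠ l → x.1 ∈ ((D.erase l : Finset V) : Set V) := by
    intro x hx
    rw [Finset.mem_coe, Finset.mem_erase]; exact ⟨hx, x.2⟩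
  have key : ∀ (a b : (D : Set V)) (_ : (G.induce (D : Set V)).Walk a b) (hb : b.1 ≠ l),
      (∀ ha : a.1 ≠ l, (G.induce ((D.erase l : Finset V) : Set V)).Reachable
        ⟨a.1, hmem a ha⟩ ⟨b.1, hmem b hb⟩) ∧
      (a.1 = l → (G.induce ((D.erase l : Finset V) : Set V)).Reachable
        ⟨p, hp'⟩ ⟨b.1, hmem b hb⟩) := by
    intro a b W
    induction W with
    | nil =>
      intro hb
      exact ⟨fun _ => SimpleGraph.Reachable.refl _, fun h => absurd h hb⟩
    | @cons a c b hac W ih =>
      intro hb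
      have ih' := ih hb
      have hac' : G.Adj a.1 c.1 := hac
      constructor
      · intro ha
        by_cases hc : c.1 = l
        · have h1 := ih'.2 hc
          have h2 : a.1 = p := huniq a.1 a.2 (by rw [← hc]; exact hac'.symm)
          have h3 : (⟨a.1, hmem a ha⟩ : ((D.erase l : Finset V) : Set V)) = ⟨p, hp'⟩ :=
            Subtype.ext h2
          rw [h3]; exact h1
        · refine SimpleGraph.Reachable.trans ?_ (ih'.1 hc)
          exact SimpleGraph.Adj.reachable (show G.Adj a.1 c.1 from hac')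
      · intro ha
        have h2 : c.1 = p := huniq c.1 c.2 (by rw [← ha]; exact hac')
        have hc : c.1 ≠ l := by rw [h2]; exact hpl
        have h1 := ih'.1 hc
        have h3 : (⟨c.1, hmem c hc⟩ : ((D.erase l : Finset V) : Set V)) = ⟨p, hp'⟩ :=
          Subtype.ext h2
        rw [h3] at h1; exact h1
  refine (SimpleGraph.connected_iff _).2 ⟨fun x y => ?_, ⟨⟨v, hv'⟩⟩⟩
  have hx : x.1 ∈ D ∧ x.1 ≠ l := by
    have := x.2; rw [Finset.mem_coe, Finset.mem_erase] at this; exact ⟨this.2, this.1⟩
  have hy : y.1 ∈ D ∧ y.1 ≠ l := by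
    have := y.2; rw [Finset.mem_coe, Finset.mem_erase] at this; exact ⟨this.2, this.1⟩
  obtain ⟨W⟩ := hD ⟨x.1, hx.1⟩ ⟨y.1, hy.1⟩
  exact (key _ _ W hy.2).1 hx.2

open Classical in
/-- Farthest-leaf decomposition of a finite subtree. -/
theorem exists_leaf (hG : G.IsTree) {D : Finset V} (hD : (G.induce (D : Set V)).Connected)
    {v : V} (hv : v ∈ D) (hne : D ≠ {v}) :
    ∃ l ∈ D, l ≠ v ∧ ∃ p ∈ D, G.Adj l p ∧ G.dist v l = G.dist v p + 1 ∧
      (∀ q ∈ D, G.Adj l q → q = p) ∧
      (G.induce ((D.erase l : Finset V) : Set V)).Connected := by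
  obtain ⟨l, hl, hmax⟩ := D.exists_max_image (fun x => G.dist v x) ⟨v, hv⟩
  have hex : ∃ x ∈ D, x ≠ v := by
    by_contra hcon
    push Not at hcon
    exact hne (Finset.eq_singleton_iff_unique_mem.2 ⟨hv, hcon⟩)
  obtain ⟨x, hx, hxv⟩ := hex
  have hlv : l ≠ v := by
    intro h
    have h1 := hmax x hx
    rw [h, SimpleGraph.dist_self] at h1
    have h2 : 0 < G.dist v x := (hG.connected v x).pos_dist_of_ne hxv.symm
    omega
  -- a neighbour of `l` inside `D`
  obtain ⟨W⟩ := hD ⟨l, hl⟩ ⟨v, hv⟩
  have hnb : ∃ p ∈ D, G.Adj l p := by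
    cases W with
    | nil => exact absurd rfl hlv
    | @cons _ c _ hac _ => exact ⟨c.1, c.2, hac⟩
  obtain ⟨p, hp, hlp⟩ := hnb
  have hclose : ∀ q ∈ D, G.Adj l q → G.dist v l = G.dist v q + 1 := by
    intro q hq hlq
    rcases hG.dist_eq_dist_add_one_of_adj v hlq with h | h
    · exact h
    · have := hmax q hq
      omega
  have huniq : ∀ q ∈ D, G.Adj l q → q = p := fun q hq hlq =>
    closer_unique hG hlq hlp (hclose q hq hlq) (hclose p hp hlp)
  exact ⟨l, hl, hlv, p, hp, hlp, hclose p hp hlp, huniq,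
    connected_erase hD hv hlv hp hlp huniq⟩

/-! ### The edge function -/

/-- `cosh x + θ s sinh x = cC θ x * exp (s * gth θ x)` for `s = ±1`. -/
noncomputable def gth (θ x : ℝ) : ℝ :=
  (Real.log (Real.cosh x + θ * Real.sinh x) - Real.log (Real.cosh x - θ * Real.sinh x)) / 2

noncomputable def cC (θ x : ℝ) : ℝ :=
  Real.exp ((Real.log (Real.cosh x + θ * Real.sinh x)
    + Real.log (Real.cosh x - θ * Real.sinh x)) / 2)

theorem abs_sinh_lt_cosh (x : ℝ) : |Real.sinh x| < Real.cosh x := by
  rw [abs_lt]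
  constructor
  · have h1 := Real.cosh_sub_sinh (-x)
    rw [Real.cosh_neg, Real.sinh_neg] at h1
    have := Real.exp_pos (-(-x))
    linarith
  · have h1 := Real.cosh_sub_sinh x
    have := Real.exp_pos (-x)
    linarith

theorem cosh_add_pos (h0 : 0 ≤ θ) (h1 : θ ≤ 1) (x : ℝ) :
    0 < Real.cosh x + θ * Real.sinh x := by
  have h := abs_sinh_lt_cosh x
  have h2 : |θ * Real.sinh x| ≤ |Real.sinh x| := by
    rw [abs_mul, abs_of_nonneg h0]
    exact mul_le_of_le_one_left (abs_nonneg _) h1
  have h3 := neg_abs_le (θ * Real.sinh x)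
  linarith

theorem cosh_sub_pos (h0 : 0 ≤ θ) (h1 : θ ≤ 1) (x : ℝ) :
    0 < Real.cosh x - θ * Real.sinh x := by
  have := cosh_add_pos h0 h1 (-x)
  rw [Real.cosh_neg, Real.sinh_neg] at this
  linarith

theorem cC_pos (θ x : ℝ) : 0 < cC θ x := Real.exp_pos _

theorem edge_identity (h0 : 0 ≤ θ) (h1 : θ ≤ 1) (x : ℝ) (b : Bool) :
    (1 + θ * sg b * sg true) / 2 * Real.exp (x * sg true)
      + (1 + θ * sg b * sg false) / 2 * Real.exp (x * sg false)
      = cC θ x * Real.exp (gth θ x * sg b) := by
  have hp := cosh_add_pos h0 h1 x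
  have hm := cosh_sub_pos h0 h1 x
  cases b with
  | true =>
    have e1 : cC θ x * Real.exp (gth θ x * sg true) = Real.cosh x + θ * Real.sinh x := by
      unfold cC gth
      rw [← Real.exp_add]
      simp only [sg, if_true, mul_one]
      rw [← Real.exp_log hp]
      congr 1
      rw [Real.exp_log hp]
      ring
    rw [e1, Real.cosh_eq, Real.sinh_eq]
    simp only [sg, if_true]
    norm_num
    ring
  | false =>
    have e1 : cC θ x * Real.exp (gth θ x * sg false) = Real.cosh x - θ * Real.sinh x := by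
      unfold cC gth
      rw [← Real.exp_add]
      simp only [sg]
      rw [← Real.exp_log hm]
      congr 1
      rw [Real.exp_log hm]
      norm_num
      ring
    rw [e1, Real.cosh_eq, Real.sinh_eq]
    simp only [sg]
    norm_num
    ring

theorem hasDerivAt_gth (h0 : 0 ≤ θ) (h1 : θ ≤ 1) (x : ℝ) :
    HasDerivAt (gth θ)
      (((Real.sinh x + θ * Real.cosh x) / (Real.cosh x + θ * Real.sinh x)
        - (Real.sinh x - θ * Real.cosh x) / (Real.cosh x - θ * Real.sinh x)) / 2) x := by
  have hp := cosh_add_pos h0 h1 x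
  have hm := cosh_sub_pos h0 h1 x
  have d1 : HasDerivAt (fun x => Real.cosh x + θ * Real.sinh x)
      (Real.sinh x + θ * Real.cosh x) x :=
    (Real.hasDerivAt_cosh x).add ((Real.hasDerivAt_sinh x).const_mul θ)
  have d2 : HasDerivAt (fun x => Real.cosh x - θ * Real.sinh x)
      (Real.sinh x - θ * Real.cosh x) x :=
    (Real.hasDerivAt_cosh x).sub ((Real.hasDerivAt_sinh x).const_mul θ)
  exact ((d1.log hp.ne').sub (d2.log hm.ne')).div_const 2

theorem deriv_gth_bound (h0 : 0 ≤ θ) (h1 : θ ≤ 1) (x : ℝ) :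
    |((Real.sinh x + θ * Real.cosh x) / (Real.cosh x + θ * Real.sinh x)
        - (Real.sinh x - θ * Real.cosh x) / (Real.cosh x - θ * Real.sinh x)) / 2| ≤ θ := by
  have hp := cosh_add_pos h0 h1 x
  have hm := cosh_sub_pos h0 h1 x
  have hsq := Real.cosh_sq x
  have e : ((Real.sinh x + θ * Real.cosh x) / (Real.cosh x + θ * Real.sinh x)
        - (Real.sinh x - θ * Real.cosh x) / (Real.cosh x - θ * Real.sinh x)) / 2
      = θ / ((Real.cosh x + θ * Real.sinh x) * (Real.cosh x - θ * Real.sinh x)) := by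
    have hp' := hp.ne'
    have hm' := hm.ne'
    rw [div_sub_div _ _ hp' hm', div_div, div_eq_div_iff (by positivity) (by positivity)]
    linear_combination (2 * θ * (Real.cosh x + θ * Real.sinh x) * (Real.cosh x - θ * Real.sinh x)) * hsq
  have hden : 1 ≤ (Real.cosh x + θ * Real.sinh x) * (Real.cosh x - θ * Real.sinh x) := by
    have h2 : θ ^ 2 ≤ 1 := by nlinarith
    have h3 : 0 ≤ Real.sinh x ^ 2 := sq_nonneg _
    nlinarith [mul_le_mul_of_nonneg_right h2 h3]
  rw [e, abs_of_nonneg (by positivity)]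
  exact div_le_self h0 hden

theorem gth_lip (h0 : 0 ≤ θ) (h1 : θ ≤ 1) (x y : ℝ) : |gth θ x - gth θ y| ≤ θ * |x - y| := by
  have := Convex.norm_image_sub_le_of_norm_hasDerivWithin_le (f := gth θ) (s := Set.univ)
    (x := y) (y := x) (C := θ)
    (fun z _ => (hasDerivAt_gth h0 h1 z).hasDerivWithinAt)
    (fun z _ => by rw [Real.norm_eq_abs]; exact deriv_gth_bound h0 h1 z)
    convex_univ (Set.mem_univ _) (Set.mem_univ _)
  simpa [Real.norm_eq_abs] using this

theorem continuous_gth (h0 : 0 ≤ θ) (h1 : θ ≤ 1) : Continuous (gth θ) :=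
  continuous_iff_continuousAt.2 fun x => (hasDerivAt_gth h0 h1 x).continuousAt

/-! ### Weights -/

theorem ew_mk (η : V → Bool) (u v : V) : ew θ η s(u, v) = (1 + θ * sg (η u) * sg (η v)) / 2 :=
  rfl

theorem ew_pos (h0 : 0 ≤ θ) (h1 : θ < 1) (η : V → Bool) (e : Sym2 V) : 0 < ew θ η e := by
  induction e with
  | _ u v =>
    rw [ew_mk]
    have h2 : ∀ b : Bool, sg b = 1 ∨ sg b = -1 := by
      intro b; cases b
      · right; simp [sg]
      · left; simp [sg]
    rcases h2 (η u) with h | h <;> rcases h2 (η v) with h' | h' <;> rw [h, h'] <;> linarith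

theorem wt_pos (h0 : 0 ≤ θ) (h1 : θ < 1) (D : Finset V) (h : V → ℝ) (S : Finset V) :
    0 < wt G θ D h S :=
  mul_pos (Finset.prod_pos fun e _ => ew_pos h0 h1 _ e) (Real.exp_pos _)

theorem Z_pos (h0 : 0 ≤ θ) (h1 : θ < 1) (D : Finset V) (h : V → ℝ) :
    0 < ∑ S ∈ D.powerset, wt G θ D h S :=
  Finset.sum_pos (fun S _ => wt_pos h0 h1 D h S) ⟨∅, Finset.empty_mem_powerset D⟩

theorem abs_sg (b : Bool) : |sg b| = 1 := by
  cases b <;> simp [sg]

theorem abs_mag_le_one (h0 : 0 ≤ θ) (h1 : θ < 1) (D : Finset V) (h : V → ℝ) (v : V) :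
    |mag G θ D h v| ≤ 1 := by
  unfold mag
  rw [abs_div, abs_of_pos (Z_pos h0 h1 D h), div_le_one (Z_pos h0 h1 D h)]
  refine (Finset.abs_sum_le_sum_abs _ _).trans (Finset.sum_le_sum fun S _ => ?_)
  rw [abs_mul, abs_sg, one_mul, abs_of_pos (wt_pos h0 h1 D h S)]

theorem continuous_mag (h0 : 0 ≤ θ) (h1 : θ < 1) (D : Finset V) (v : V) :
    Continuous fun h : V → ℝ => mag G θ D h v := by
  unfold mag wt
  refine Continuous.div (by fun_prop) (by fun_prop) fun h => ?_
  exact (Z_pos h0 h1 D h).ne'

theorem measurable_mag [Countable V] (h0 : 0 ≤ θ) (h1 : θ < 1) (D : Finset V) (v : V) :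
    Measurable fun h : V → ℝ => mag G θ D h v :=
  (continuous_mag h0 h1 D v).measurable

theorem wt_congr (D : Finset V) {h h' : V → ℝ} (hh : ∀ u ∈ D, h u = h' u) (S : Finset V) :
    wt G θ D h S = wt G θ D h' S := by
  unfold wt
  congr 2
  exact Finset.sum_congr rfl fun u hu => by rw [hh u hu]

theorem mag_congr (D : Finset V) {h h' : V → ℝ} (hh : ∀ u ∈ D, h u = h' u) (v : V) :
    mag G θ D h v = mag G θ D h' v := by
  unfold mag
  simp_rw [wt_congr (G := G) (θ := θ) D hh]

open Classical in
theorem edgesIn_insert {D : Finset V} {l p : V} (hl : l ∉ D) (hp : p ∈ D) (hlp : G.Adj l p)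
    (huniq : ∀ q ∈ D, G.Adj l q → q = p) :
    edgesIn G (insert l D) = insert s(l, p) (edgesIn G D) := by
  ext e
  unfold edgesIn
  rw [Finset.mem_insert, Finset.mem_filter, Finset.mem_filter]
  induction e with
  | _ a b =>
    rw [Finset.mk_mem_sym2_iff, Finset.mk_mem_sym2_iff, Finset.mem_insert, Finset.mem_insert,
      SimpleGraph.mem_edgeSet]
    constructor
    · rintro ⟨⟨ha | ha, hb | hb⟩, hab⟩
      · subst ha; subst hb; exact absurd hab (G.loopless.irrefl _)
      · subst ha
        left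
        rw [huniq b hb hab]
      · subst hb
        left
        rw [huniq a ha hab.symm, Sym2.eq_swap]
      · right
        exact ⟨⟨ha, hb⟩, hab⟩
    · rintro (h | ⟨⟨ha, hb⟩, hab⟩)
      · rcases Sym2.eq_iff.1 h with ⟨rfl, rfl⟩ | ⟨rfl, rfl⟩
        · exact ⟨⟨Or.inl rfl, Or.inr hp⟩, hlp⟩
        · exact ⟨⟨Or.inr hp, Or.inl rfl⟩, hlp.symm⟩
      · exact ⟨⟨Or.inr ha, Or.inr hb⟩, hab⟩

open Classical in
theorem not_mem_edgesIn {D : Finset V} {l p : V} (hl : l ∉ D) : s(l, p) ∉ edgesIn G D := by
  unfold edgesIn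
  rw [Finset.mem_filter, Finset.mk_mem_sym2_iff]
  rintro ⟨⟨h, _⟩, _⟩
  exact hl h

open Classical in
theorem cfg_insert_of_ne {S : Finset V} {l u : V} (h : u ≠ l) : cfg (insert l S) u = cfg S u := by
  unfold cfg
  simp [h]

open Classical in
theorem prod_ew_insert {D : Finset V} {l : V} (hl : l ∉ D) (S : Finset V) :
    ∏ e ∈ edgesIn G D, ew θ (cfg (insert l S)) e = ∏ e ∈ edgesIn G D, ew θ (cfg S) e := by
  refine Finset.prod_congr rfl fun e he => ?_
  unfold edgesIn at he
  rw [Finset.mem_filter] at he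
  induction e with
  | _ a b =>
    rw [Finset.mk_mem_sym2_iff] at he
    have ha : a ≠ l := fun h => hl (h ▸ he.1.1)
    have hb : b ≠ l := fun h => hl (h ▸ he.1.2)
    rw [ew_mk, ew_mk, cfg_insert_of_ne ha, cfg_insert_of_ne hb]

open Classical in
/-- the field after elimination of the leaf `l` attached to `p` -/
noncomputable def elim (θ : ℝ) (l p : V) (h : V → ℝ) : V → ℝ :=
  fun u => h u + if u = p then gth θ (h l) else 0

open Classical in
theorem wt_insert_sum (h0 : 0 ≤ θ) (h1 : θ < 1) {D : Finset V} {l p : V} (hl : l ∉ D)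
    (hp : p ∈ D) (hlp : G.Adj l p) (huniq : ∀ q ∈ D, G.Adj l q → q = p) (h : V → ℝ)
    {S : Finset V} (hS : S ⊆ D) :
    wt G θ (insert l D) h S + wt G θ (insert l D) h (insert l S)
      = cC θ (h l) * wt G θ D (elim θ l p h) S := by
  have hlS : l ∉ S := fun hh => hl (hS hh)
  have hpl : p ≠ l := fun hh => hl (by rw [← hh]; exact hp)
  have hc1 : cfg S l = false := by simp [cfg, hlS]
  have hc2 : cfg (insert l S) l = true := by simp [cfg]
  have e1 : wt G θ (insert l D) h S
      = ((1 + θ * sg (cfg S p) * sg false) / 2 * Real.exp (h l * sg false))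
        * wt G θ D h S := by
    unfold wt
    rw [edgesIn_insert hl hp hlp huniq, Finset.prod_insert (not_mem_edgesIn hl),
      Finset.sum_insert hl, Real.exp_add, ew_mk, hc1]
    ring
  have e2 : wt G θ (insert l D) h (insert l S)
      = ((1 + θ * sg (cfg S p) * sg true) / 2 * Real.exp (h l * sg true))
        * wt G θ D h S := by
    unfold wt
    rw [edgesIn_insert hl hp hlp huniq, Finset.prod_insert (not_mem_edgesIn hl),
      Finset.sum_insert hl, Real.exp_add, ew_mk, hc2, prod_ew_insert hl, cfg_insert_of_ne hpl]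
    have : ∑ u ∈ D, h u * sg (cfg (insert l S) u) = ∑ u ∈ D, h u * sg (cfg S u) := by
      refine Finset.sum_congr rfl fun u hu => ?_
      rw [cfg_insert_of_ne (fun hh => hl (by rw [← hh]; exact hu))]
    rw [this]
    ring
  have e3 : wt G θ D (elim θ l p h) S = Real.exp (gth θ (h l) * sg (cfg S p)) * wt G θ D h S := by
    unfold wt elim
    have : ∑ u ∈ D, (h u + if u = p then gth θ (h l) else 0) * sg (cfg S u)
        = ∑ u ∈ D, h u * sg (cfg S u) + gth θ (h l) * sg (cfg S p) := by
      simp only [add_mul, Finset.sum_add_distrib, ite_mul, zero_mul]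
      congr 1
      rw [Finset.sum_ite_eq' D p]
      simp [hp]
    rw [this, Real.exp_add]
    ring
  rw [e1, e2, e3, ← add_mul, add_comm, edge_identity h0 h1.le]
  ring

open Classical in
/-- Leaf elimination. -/
theorem mag_insert (h0 : 0 ≤ θ) (h1 : θ < 1) {D : Finset V} {l p : V} (hl : l ∉ D)
    (hp : p ∈ D) (hlp : G.Adj l p) (huniq : ∀ q ∈ D, G.Adj l q → q = p) (h : V → ℝ)
    {v : V} (hv : v ≠ l) :
    mag G θ (insert l D) h v = mag G θ D (elim θ l p h) v := by
  unfold mag
  rw [Finset.sum_powerset_insert hl, Finset.sum_powerset_insert hl, ← Finset.sum_add_distrib,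
    ← Finset.sum_add_distrib]
  have hnum : ∑ S ∈ D.powerset, (sg (cfg S v) * wt G θ (insert l D) h S
      + sg (cfg (insert l S) v) * wt G θ (insert l D) h (insert l S))
      = cC θ (h l) * ∑ S ∈ D.powerset, sg (cfg S v) * wt G θ D (elim θ l p h) S := by
    rw [Finset.mul_sum]
    refine Finset.sum_congr rfl fun S hS => ?_
    rw [Finset.mem_powerset] at hS
    rw [cfg_insert_of_ne hv, ← mul_add, wt_insert_sum h0 h1 hl hp hlp huniq h hS]
    ring
  have hden : ∑ S ∈ D.powerset, (wt G θ (insert l D) h S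
      + wt G θ (insert l D) h (insert l S))
      = cC θ (h l) * ∑ S ∈ D.powerset, wt G θ D (elim θ l p h) S := by
    rw [Finset.mul_sum]
    refine Finset.sum_congr rfl fun S hS => ?_
    rw [Finset.mem_powerset] at hS
    rw [wt_insert_sum h0 h1 hl hp hlp huniq h hS]
  rw [hnum, hden, mul_div_mul_left _ _ (cC_pos θ (h l)).ne']

/-! ### The base case -/

open Classical in
theorem mag_singleton (h : V → ℝ) (v : V) :
    mag G θ {v} h v = (Real.exp (h v) - Real.exp (-h v)) / (Real.exp (h v) + Real.exp (-h v)) := by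
  have he : edgesIn G ({v} : Finset V) = ∅ := by
    unfold edgesIn
    rw [Finset.filter_eq_empty_iff]
    intro e he
    induction e with
    | _ a b =>
      rw [Finset.mk_mem_sym2_iff, Finset.mem_singleton, Finset.mem_singleton] at he
      rw [he.1, he.2]
      exact G.loopless.irrefl _
  unfold mag wt
  rw [he, show ({v} : Finset V) = insert v ∅ from rfl, Finset.sum_powerset_insert (by simp),
    Finset.sum_powerset_insert (by simp)]
  simp [cfg, sg]
  ring

theorem tanh_lip (x y : ℝ) :
    |(Real.exp x - Real.exp (-x)) / (Real.exp x + Real.exp (-x))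
      - (Real.exp y - Real.exp (-y)) / (Real.exp y + Real.exp (-y))| ≤ |x - y| := by
  have hd : ∀ z : ℝ, HasDerivAt (fun x => (Real.exp x - Real.exp (-x)) / (Real.exp x + Real.exp (-x)))
      (((Real.exp z + Real.exp (-z)) * (Real.exp z + Real.exp (-z))
        - (Real.exp z - Real.exp (-z)) * (Real.exp z - Real.exp (-z)))
        / (Real.exp z + Real.exp (-z)) ^ 2) z := by
    intro z
    have d1 : HasDerivAt (fun x : ℝ => Real.exp (-x)) (-Real.exp (-z)) z := by
      have := (hasDerivAt_neg z).exp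
      simpa using this
    have d2 : HasDerivAt (fun x => Real.exp x - Real.exp (-x)) (Real.exp z + Real.exp (-z)) z :=
      ((Real.hasDerivAt_exp z).sub d1).congr_deriv (by ring)
    have d3 : HasDerivAt (fun x => Real.exp x + Real.exp (-x)) (Real.exp z - Real.exp (-z)) z :=
      ((Real.hasDerivAt_exp z).add d1).congr_deriv (by ring)
    have h3 : Real.exp z + Real.exp (-z) ≠ 0 := by positivity
    exact d2.div d3 h3
  have hb : ∀ z : ℝ, ‖(((Real.exp z + Real.exp (-z)) * (Real.exp z + Real.exp (-z))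
        - (Real.exp z - Real.exp (-z)) * (Real.exp z - Real.exp (-z)))
        / (Real.exp z + Real.exp (-z)) ^ 2)‖ ≤ 1 := by
    intro z
    have h1 := Real.exp_pos z
    have h2 := Real.exp_pos (-z)
    rw [Real.norm_eq_abs, abs_of_nonneg (by
      apply div_nonneg _ (by positivity)
      nlinarith)]
    rw [div_le_one (by positivity)]
    nlinarith [sq_nonneg (Real.exp z - Real.exp (-z))]
  have := Convex.norm_image_sub_le_of_norm_hasDerivWithin_le
    (f := fun x => (Real.exp x - Real.exp (-x)) / (Real.exp x + Real.exp (-x)))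
    (s := Set.univ) (x := y) (y := x) (C := 1)
    (fun z _ => (hd z).hasDerivWithinAt) (fun z _ => hb z)
    convex_univ (Set.mem_univ _) (Set.mem_univ _)
  simpa [Real.norm_eq_abs] using this

/-! ### Main estimate -/

open Classical in
theorem mag_lip (hG : G.IsTree) (h0 : 0 ≤ θ) (h1 : θ < 1) (D : Finset V)
    (hD : (G.induce (D : Set V)).Connected) (v : V) (hv : v ∈ D) (h h' : V → ℝ) :
    |mag G θ D h v - mag G θ D h' v| ≤ ∑ u ∈ D, θ ^ (G.dist v u) * |h u - h' u| := by
  induction hn : D.card using Nat.strong_induction_on generalizing D h h' with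
  | _ n ih =>
    by_cases hne : D = {v}
    · subst hne
      rw [mag_singleton, mag_singleton, Finset.sum_singleton, SimpleGraph.dist_self, pow_zero,
        one_mul]
      exact tanh_lip _ _
    · obtain ⟨l, hl, hlv, p, hp, hlp, hdist, huniq, hconn⟩ := exists_leaf hG hD hv hne
      have hpl : p ≠ l := fun hh => by subst hh; exact G.loopless.irrefl _ hlp
      set D' := D.erase l with hD'
      have hins : insert l D' = D := Finset.insert_erase hl
      have hlD' : l ∉ D' := Finset.notMem_erase l D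
      have hpD' : p ∈ D' := Finset.mem_erase.2 ⟨hpl, hp⟩
      have hvD' : v ∈ D' := Finset.mem_erase.2 ⟨hlv.symm, hv⟩
      have huniq' : ∀ q ∈ D', G.Adj l q → q = p := fun q hq hlq =>
        huniq q (Finset.mem_of_mem_erase hq) hlq
      have hcard : D'.card < n := by
        rw [← hn]
        exact Finset.card_erase_lt_of_mem hl
      have key := ih _ hcard D' hconn hvD' (elim θ l p h) (elim θ l p h') rfl
      have e1 : mag G θ D h v = mag G θ D' (elim θ l p h) v := by
        rw [← mag_insert h0 h1 hlD' hpD' hlp huniq' h hlv.symm, hins]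
      have e2 : mag G θ D h' v = mag G θ D' (elim θ l p h') v := by
        rw [← mag_insert h0 h1 hlD' hpD' hlp huniq' h' hlv.symm, hins]
      rw [e1, e2]
      refine key.trans ?_
      rw [← hins, Finset.sum_insert hlD']
      have hterm : ∀ u ∈ D', θ ^ (G.dist v u) * |elim θ l p h u - elim θ l p h' u|
          ≤ θ ^ (G.dist v u) * |h u - h' u|
            + (if u = p then θ ^ (G.dist v p) * |gth θ (h l) - gth θ (h' l)| else 0) := by
        intro u _
        unfold elim
        by_cases hu : u = p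
        · subst hu
          simp only [if_true]
          rw [← mul_add]
          refine mul_le_mul_of_nonneg_left ?_ (pow_nonneg h0 _)
          have : h u + gth θ (h l) - (h' u + gth θ (h' l))
              = (h u - h' u) + (gth θ (h l) - gth θ (h' l)) := by ring
          rw [this]
          exact abs_add_le _ _
        · simp [hu]
      refine (Finset.sum_le_sum hterm).trans ?_
      rw [Finset.sum_add_distrib, Finset.sum_ite_eq' D' p, if_pos hpD', add_comm]
      refine add_le_add_left ?_ _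
      rw [hdist, pow_succ]
      have h2 := gth_lip h0 h1.le (h l) (h' l)
      calc θ ^ (G.dist v p) * |gth θ (h l) - gth θ (h' l)|
          ≤ θ ^ (G.dist v p) * (θ * |h l - h' l|) :=
            mul_le_mul_of_nonneg_left h2 (pow_nonneg h0 _)
        _ = θ ^ (G.dist v p) * θ * |h l - h' l| := by ring

end P161
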