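import Vale.Agent.P161.SysDefs
import Vale.Agent.P161.IsingTree
import Vale.Agent.P161.IsingMarg

/-!
# P161, module M2 (second part): the Ising system on a finite subtree
-/

open MeasureTheory

namespace P161

variable {V : Type*}

/-- the Ising system on `D` -/
noncomputable def isys (G : SimpleGraph V) (hT : G.IsTree) {θ κ : ℝ} (h0 : 0 ≤ θ) (h1 : θ < 1)
    (hκ : 0 ≤ κ) (hκ1 : κ < 1) (D : Finset V) (hD : (G.induce (D : Set V)).Connected) :
    Sys (Finset V) (V × ℕ) where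
  T := D.powerset
  μ := isw G θ D
  κ := κ
  x := fun S e => sg (cfg S e.1)
  μ_nonneg := fun S _ => isw_nonneg G h0 h1 D S
  μ_sum := isw_sum G hT θ D hD
  κ_nonneg := hκ
  κ_lt := hκ1
  x_abs := fun _ _ => (abs_sg _).le

theorem chan_pos {κ : ℝ} (hκ : 0 ≤ κ) (hκ1 : κ < 1) {y : ℝ} (hy : y ∈ Set.Icc (0 : ℝ) 1) :
    0 < 1 + κ * (2 * y - 1) ∧ 0 < 1 - κ * (2 * y - 1) := by
  obtain ⟨hy0, hy1⟩ := hy
  constructor <;> nlinarith

/-- normalising factor of an observation -/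
noncomputable def chc (κ y : ℝ) : ℝ :=
  Real.exp ((Real.log (1 + κ * (2 * y - 1)) + Real.log (1 - κ * (2 * y - 1))) / 2)

theorem chan_factor {κ : ℝ} (hκ : 0 ≤ κ) (hκ1 : κ < 1) {y : ℝ} (hy : y ∈ Set.Icc (0 : ℝ) 1)
    (b : Bool) :
    1 + κ * sg b * (2 * y - 1) = chc κ y * Real.exp (llr κ y * sg b) := by
  obtain ⟨hp, hm⟩ := chan_pos hκ hκ1 hy
  unfold chc llr
  rw [← Real.exp_add, Real.log_div hp.ne' hm.ne']
  cases b
  · have hs : sg false = -1 := by simp [sg]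
    rw [hs, show (Real.log (1 + κ * (2 * y - 1)) + Real.log (1 - κ * (2 * y - 1))) / 2
        + (Real.log (1 + κ * (2 * y - 1)) - Real.log (1 - κ * (2 * y - 1))) / 2 * (-1)
        = Real.log (1 - κ * (2 * y - 1)) by ring, Real.exp_log hm]
    ring
  · have hs : sg true = 1 := by simp [sg]
    rw [hs, show (Real.log (1 + κ * (2 * y - 1)) + Real.log (1 - κ * (2 * y - 1))) / 2
        + (Real.log (1 + κ * (2 * y - 1)) - Real.log (1 - κ * (2 * y - 1))) / 2 * 1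
        = Real.log (1 + κ * (2 * y - 1)) by ring, Real.exp_log hp]
    ring

open Classical in
/-- the field created by the observations -/
noncomputable def fld (κ : ℝ) (A : Finset (V × ℕ)) (y : V × ℕ → ℝ) (u : V) : ℝ :=
  ∑ f ∈ A.filter (fun f => f.1 = u), llr κ (y f)

open Classical in
theorem sum_fld (κ : ℝ) {A : Finset (V × ℕ)} {D : Finset V} (hA : ∀ f ∈ A, f.1 ∈ D)
    (y : V × ℕ → ℝ) (g : V → ℝ) :
    ∑ u ∈ D, fld κ A y u * g u = ∑ f ∈ A, llr κ (y f) * g f.1 := by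
  rw [← Finset.sum_fiberwise_of_maps_to (g := fun f : V × ℕ => f.1) hA]
  refine Finset.sum_congr rfl fun u _ => ?_
  unfold fld
  rw [Finset.sum_mul]
  refine Finset.sum_congr rfl fun f hf => ?_
  rw [(Finset.mem_filter.1 hf).2]

section
variable (G : SimpleGraph V) (hT : G.IsTree) {θ κ : ℝ} (h0 : 0 ≤ θ) (h1 : θ < 1)
    (hκ : 0 ≤ κ) (hκ1 : κ < 1) (D : Finset V) (hD : (G.induce (D : Set V)).Connected)

theorem isys_lik (A : Finset (V × ℕ)) (hA : ∀ f ∈ A, f.1 ∈ D)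
    (y : V × ℕ → ℝ) (hy : ∀ f, y f ∈ Set.Icc (0 : ℝ) 1) (S : Finset V) :
    (isys G hT h0 h1 hκ hκ1 D hD).lik A y S
      = (∏ f ∈ A, chc κ (y f)) * Real.exp (∑ u ∈ D, fld κ A y u * sg (cfg S u)) := by
  rw [sum_fld κ hA y, Real.exp_sum, ← Finset.prod_mul_distrib]
  unfold Sys.lik
  exact Finset.prod_congr rfl fun f _ => chan_factor hκ hκ1 (hy f) _

theorem chc_pos (κ y : ℝ) : 0 < chc κ y := Real.exp_pos _

theorem isys_post_eq_mag (A : Finset (V × ℕ)) (hA : ∀ f ∈ A, f.1 ∈ D) (e : V × ℕ)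
    (y : V × ℕ → ℝ) (hy : ∀ f, y f ∈ Set.Icc (0 : ℝ) 1) :
    (isys G hT h0 h1 hκ hκ1 D hD).post A y e = mag G θ D (fld κ A y) e.1 := by
  have hC : 0 < ∏ f ∈ A, chc κ (y f) := Finset.prod_pos fun f _ => chc_pos _ _
  have hC' : (1 / 2 * ∏ f ∈ A, chc κ (y f)) ≠ 0 := by positivity
  unfold Sys.post Sys.den mag
  simp_rw [isys_lik G hT h0 h1 hκ hκ1 D hD A hA y hy]
  have e1 : ∑ S ∈ (isys G hT h0 h1 hκ hκ1 D hD).T, (isys G hT h0 h1 hκ hκ1 D hD).μ S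
        * (isys G hT h0 h1 hκ hκ1 D hD).x S e
        * ((∏ f ∈ A, chc κ (y f)) * Real.exp (∑ u ∈ D, fld κ A y u * sg (cfg S u)))
      = (1 / 2 * ∏ f ∈ A, chc κ (y f))
        * ∑ S ∈ D.powerset, sg (cfg S e.1) * wt G θ D (fld κ A y) S := by
    rw [Finset.mul_sum]
    refine Finset.sum_congr rfl fun S _ => ?_
    show isw G θ D S * sg (cfg S e.1) * _ = _
    unfold isw wt
    ring
  have e2 : ∑ S ∈ (isys G hT h0 h1 hκ hκ1 D hD).T, (isys G hT h0 h1 hκ hκ1 D hD).μ S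
        * ((∏ f ∈ A, chc κ (y f)) * Real.exp (∑ u ∈ D, fld κ A y u * sg (cfg S u)))
      = (1 / 2 * ∏ f ∈ A, chc κ (y f))
        * ∑ S ∈ D.powerset, wt G θ D (fld κ A y) S := by
    rw [Finset.mul_sum]
    refine Finset.sum_congr rfl fun S _ => ?_
    show isw G θ D S * _ = _
    unfold isw wt
    ring
  rw [e1, e2, mul_div_mul_left _ _ hC']

end

theorem llr_lip {κ : ℝ} (hκ : 0 ≤ κ) (hκ1 : κ < 1) {y y' : ℝ} (hy : y ∈ Set.Icc (0 : ℝ) 1)
    (hy' : y' ∈ Set.Icc (0 : ℝ) 1) :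
    |llr κ y - llr κ y'| ≤ 2 * κ / (1 - κ ^ 2) * |y - y'| := by
  have hd : ∀ z ∈ Set.Icc (0 : ℝ) 1, HasDerivWithinAt (llr κ)
      ((κ * 2 / (1 + κ * (2 * z - 1)) + κ * 2 / (1 - κ * (2 * z - 1))) / 2)
      (Set.Icc (0 : ℝ) 1) z := by
    intro z hz
    obtain ⟨hp, hm⟩ := chan_pos hκ hκ1 hz
    have dl : HasDerivAt (fun z : ℝ => κ * (2 * z - 1)) (κ * 2) z := by
      have := (((hasDerivAt_id z).const_mul 2).sub_const 1).const_mul κ
      simpa using this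
    have d1 : HasDerivAt (fun z : ℝ => 1 + κ * (2 * z - 1)) (κ * 2) z := dl.const_add 1
    have d2 : HasDerivAt (fun z : ℝ => 1 - κ * (2 * z - 1)) (-(κ * 2)) z := dl.const_sub 1
    have d3 : HasDerivAt (fun z : ℝ => (Real.log (1 + κ * (2 * z - 1))
        - Real.log (1 - κ * (2 * z - 1))) / 2)
        ((κ * 2 / (1 + κ * (2 * z - 1)) + κ * 2 / (1 - κ * (2 * z - 1))) / 2) z :=
      (((d1.log hp.ne').sub (d2.log hm.ne')).div_const 2).congr_deriv (by ring)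
    refine d3.hasDerivWithinAt.congr (fun x hx => ?_) ?_
    · obtain ⟨hp', hm'⟩ := chan_pos hκ hκ1 hx
      unfold llr
      rw [Real.log_div hp'.ne' hm'.ne']
    · unfold llr
      rw [Real.log_div hp.ne' hm.ne']
  have hb : ∀ z ∈ Set.Icc (0 : ℝ) 1,
      ‖(κ * 2 / (1 + κ * (2 * z - 1)) + κ * 2 / (1 - κ * (2 * z - 1))) / 2‖
        ≤ 2 * κ / (1 - κ ^ 2) := by
    intro z hz
    obtain ⟨hp, hm⟩ := chan_pos hκ hκ1 hz
    rw [Real.norm_eq_abs, abs_of_nonneg (by positivity)]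
    have e : (κ * 2 / (1 + κ * (2 * z - 1)) + κ * 2 / (1 - κ * (2 * z - 1))) / 2
        = 2 * κ / ((1 + κ * (2 * z - 1)) * (1 - κ * (2 * z - 1))) := by
      have hp' := hp.ne'
      have hm' := hm.ne'
      rw [div_add_div _ _ hp' hm', div_div, div_eq_div_iff (by positivity) (by positivity)]
      ring
    rw [e]
    have hk2 : 0 < 1 - κ ^ 2 := by nlinarith
    have hz2 : (2 * z - 1) ^ 2 ≤ 1 := by
      obtain ⟨hz0, hz1⟩ := hz
      nlinarith
    refine div_le_div_of_nonneg_left (by positivity) hk2 ?_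
    nlinarith [sq_nonneg κ, mul_le_mul_of_nonneg_left hz2 (sq_nonneg κ)]
  have := Convex.norm_image_sub_le_of_norm_hasDerivWithin_le (f := llr κ)
    (s := Set.Icc (0 : ℝ) 1) (x := y') (y := y) hd hb (convex_Icc 0 1) hy' hy
  simpa [Real.norm_eq_abs] using this

theorem isys_post_lip (G : SimpleGraph V) (hT : G.IsTree) {θ κ : ℝ} (h0 : 0 ≤ θ) (h1 : θ < 1)
    (hκ : 0 ≤ κ) (hκ1 : κ < 1) (D : Finset V) (hD : (G.induce (D : Set V)).Connected)
    (A : Finset (V × ℕ)) (hA : ∀ f ∈ A, f.1 ∈ D) (e : V × ℕ) (he : e.1 ∈ D)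
    (y y' : V × ℕ → ℝ) (hy : ∀ f, y f ∈ Set.Icc (0 : ℝ) 1) (hy' : ∀ f, y' f ∈ Set.Icc (0 : ℝ) 1) :
    |(isys G hT h0 h1 hκ hκ1 D hD).post A y e - (isys G hT h0 h1 hκ hκ1 D hD).post A y' e|
      ≤ ∑ f ∈ A, (2 * κ / (1 - κ ^ 2)) * θ ^ (G.dist e.1 f.1) * |y f - y' f| := by
  classical
  rw [isys_post_eq_mag G hT h0 h1 hκ hκ1 D hD A hA e y hy,
    isys_post_eq_mag G hT h0 h1 hκ hκ1 D hD A hA e y' hy']
  refine (mag_lip hT h0 h1 D hD e.1 he _ _).trans ?_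
  rw [← Finset.sum_fiberwise_of_maps_to (g := fun f : V × ℕ => f.1) hA]
  refine Finset.sum_le_sum fun u _ => ?_
  have hs : |fld κ A y u - fld κ A y' u|
      ≤ ∑ f ∈ A.filter (fun f => f.1 = u), (2 * κ / (1 - κ ^ 2)) * |y f - y' f| := by
    unfold fld
    rw [← Finset.sum_sub_distrib]
    refine (Finset.abs_sum_le_sum_abs _ _).trans (Finset.sum_le_sum fun f _ => ?_)
    exact llr_lip hκ hκ1 (hy f) (hy' f)
  refine (mul_le_mul_of_nonneg_left hs (pow_nonneg h0 _)).trans_eq ?_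
  rw [Finset.mul_sum]
  refine Finset.sum_congr rfl fun f hf => ?_
  rw [(Finset.mem_filter.1 hf).2]
  ring

open Classical in
theorem cfg_inter {S D : Finset V} {u : V} (hu : u ∈ D) : cfg (S ∩ D) u = cfg S u := by
  unfold cfg
  simp [hu]

theorem isys_post_eq (G : SimpleGraph V) (hT : G.IsTree) {θ κ : ℝ} (h0 : 0 ≤ θ) (h1 : θ < 1)
    (hκ : 0 ≤ κ) (hκ1 : κ < 1) (D D' : Finset V) (hD : (G.induce (D : Set V)).Connected)
    (hD' : (G.induce (D' : Set V)).Connected) (h : D ⊆ D')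
    (A : Finset (V × ℕ)) (hA : ∀ f ∈ A, f.1 ∈ D) (e : V × ℕ) (he : e.1 ∈ D) (y : V × ℕ → ℝ) :
    (isys G hT h0 h1 hκ hκ1 D' hD').post A y e = (isys G hT h0 h1 hκ hκ1 D hD).post A y e := by
  classical
  have hl : ∀ S : Finset V, (isys G hT h0 h1 hκ hκ1 D' hD').lik A y S
      = (isys G hT h0 h1 hκ hκ1 D hD).lik A y (S ∩ D) := by
    intro S
    unfold Sys.lik
    refine Finset.prod_congr rfl fun f hf => ?_
    show 1 + κ * sg (cfg S f.1) * (2 * y f - 1) = 1 + κ * sg (cfg (S ∩ D) f.1) * (2 * y f - 1)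
    rw [cfg_inter (hA f hf)]
  have e1 : ∑ S ∈ (isys G hT h0 h1 hκ hκ1 D' hD').T, (isys G hT h0 h1 hκ hκ1 D' hD').μ S
        * (isys G hT h0 h1 hκ hκ1 D' hD').x S e * (isys G hT h0 h1 hκ hκ1 D' hD').lik A y S
      = ∑ S ∈ (isys G hT h0 h1 hκ hκ1 D hD).T, (isys G hT h0 h1 hκ hκ1 D hD).μ S
        * (isys G hT h0 h1 hκ hκ1 D hD).x S e * (isys G hT h0 h1 hκ hκ1 D hD).lik A y S := by
    have := isw_marginal G hT θ D D' hD hD' h (fun S => sg (cfg S e.1)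
      * (isys G hT h0 h1 hκ hκ1 D hD).lik A y S)
    have e3 : ∑ S ∈ (isys G hT h0 h1 hκ hκ1 D hD).T, (isys G hT h0 h1 hκ hκ1 D hD).μ S
        * (isys G hT h0 h1 hκ hκ1 D hD).x S e * (isys G hT h0 h1 hκ hκ1 D hD).lik A y S
        = ∑ S ∈ D.powerset, isw G θ D S * (sg (cfg S e.1)
          * (isys G hT h0 h1 hκ hκ1 D hD).lik A y S) :=
      Finset.sum_congr rfl fun S _ => mul_assoc _ _ _
    rw [e3, ← this]
    refine Finset.sum_congr rfl fun S _ => ?_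
    rw [hl, cfg_inter he]
    exact mul_assoc _ _ _
  have e2 : (isys G hT h0 h1 hκ hκ1 D' hD').den A y = (isys G hT h0 h1 hκ hκ1 D hD).den A y := by
    have := isw_marginal G hT θ D D' hD hD' h
      (fun S => (isys G hT h0 h1 hκ hκ1 D hD).lik A y S)
    unfold Sys.den
    refine Eq.trans ?_ this
    exact Finset.sum_congr rfl fun S _ => by rw [hl]; rfl
  unfold Sys.post
  rw [e1, e2]

end P161
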