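import Vale.Agent.P161.SysDefs

/-!
# P161: the noise space `V → ℕ → [0,1]` and its law
-/

namespace P161

open MeasureTheory ProbabilityTheory
open scoped ENNReal

variable {V : Type*}

/-- the noise space: one sequence of uniform variables per vertex. -/
noncomputable def noiseV (V : Type*) : Measure (V → ℕ → unitInterval) :=
  Measure.infinitePi (fun _ : V => noise ℕ)

instance instProbNoiseV (V : Type*) : IsProbabilityMeasure (noiseV V) := by
  unfold noiseV; infer_instance

/-- order keys -/
def key (ω : V → ℕ → unitInterval) : V → ℝ := fun v => (ω v 0 : ℝ)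

/-- noise of the events -/
def evn (ω : V → ℕ → unitInterval) : V × ℕ → unitInterval := fun e => ω e.1 (e.2 + 1)

theorem measurable_evn : Measurable (evn : (V → ℕ → unitInterval) → V × ℕ → unitInterval) := by
  unfold evn
  rw [measurable_pi_iff]
  intro e
  exact (measurable_pi_apply (e.2 + 1)).comp (measurable_pi_apply e.1)

theorem measurable_keyU : Measurable (fun (ω : V → ℕ → unitInterval) (v : V) => ω v 0) := by
  rw [measurable_pi_iff]
  intro v
  exact (measurable_pi_apply 0).comp (measurable_pi_apply v)

theorem measurable_key : Measurable (key : (V → ℕ → unitInterval) → V → ℝ) := by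
  unfold key
  rw [measurable_pi_iff]
  intro v
  exact measurable_subtype_coe.comp ((measurable_pi_apply 0).comp (measurable_pi_apply v))

section law
variable {ι κ X : Type*} [MeasurableSpace X]

lemma infinitePi_map_comp_injective (ν : Measure X) [IsProbabilityMeasure ν] (f : κ → ι)
    (hf : Function.Injective f) :
    (Measure.infinitePi (fun _ : ι => ν)).map (fun x k => x (f k))
      = Measure.infinitePi (fun _ : κ => ν) := by
  classical
  apply Measure.eq_infinitePi
  intro s t ht
  rw [Measure.map_apply (by fun_prop) (.pi s.countable_toSet fun _ _ => ht _)]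
  have hpre : (fun (x : ι → X) k => x (f k)) ⁻¹' ((s : Set κ).pi t)
      = ((s.image f : Finset ι) : Set ι).pi (fun i => if h : ∃ k, f k = i then t h.choose else Set.univ) := by
    ext x
    simp only [Set.mem_preimage, Set.mem_pi, Finset.coe_image, Set.mem_image, Finset.mem_coe,
      forall_exists_index, and_imp, forall_apply_eq_imp_iff₂]
    refine forall₂_congr fun k hk => ?_
    have h : ∃ k', f k' = f k := ⟨k, rfl⟩
    rw [dif_pos h, hf h.choose_spec]
  rw [hpre, Measure.infinitePi_pi]
  · rw [Finset.prod_image (fun a _ b _ h => hf h)]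
    refine Finset.prod_congr rfl fun k hk => ?_
    have h : ∃ k', f k' = f k := ⟨k, rfl⟩
    rw [dif_pos h, hf h.choose_spec]
  · intro i hi
    split_ifs with h
    · exact ht _
    · exact .univ

lemma infinitePi_map_sumElim (ν : Measure X) [IsProbabilityMeasure ν] :
    ((Measure.infinitePi (fun _ : ι => ν)).prod (Measure.infinitePi (fun _ : κ => ν))).map
      (fun p => (Sum.elim p.1 p.2 : ι ⊕ κ → X)) = Measure.infinitePi (fun _ : ι ⊕ κ => ν) := by
  classical
  have hmeas : Measurable (fun p : (ι → X) × (κ → X) => (Sum.elim p.1 p.2 : ι ⊕ κ → X)) := by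
    rw [measurable_pi_iff]
    rintro (i | k)
    · exact (measurable_pi_apply i).comp measurable_fst
    · exact (measurable_pi_apply k).comp measurable_snd
  apply Measure.eq_infinitePi
  intro s t ht
  rw [Measure.map_apply hmeas (.pi s.countable_toSet fun _ _ => ht _)]
  have hpre : (fun p : (ι → X) × (κ → X) => (Sum.elim p.1 p.2 : ι ⊕ κ → X)) ⁻¹' ((s : Set (ι ⊕ κ)).pi t)
      = ((s.toLeft : Set ι).pi (fun i => t (Sum.inl i))) ×ˢ
        ((s.toRight : Set κ).pi (fun k => t (Sum.inr k))) := by
    ext p
    simp only [Set.mem_preimage, Set.mem_pi, Finset.mem_coe, Set.mem_prod, Finset.mem_toLeft,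
      Finset.mem_toRight]
    constructor
    · intro h
      exact ⟨fun i hi => h (Sum.inl i) hi, fun k hk => h (Sum.inr k) hk⟩
    · rintro ⟨h1, h2⟩ (i | k) hi
      · exact h1 i hi
      · exact h2 k hi
  rw [hpre, Measure.prod_prod, Measure.infinitePi_pi _ (fun i _ => ht _),
    Measure.infinitePi_pi _ (fun i _ => ht _)]
  rw [← Finset.toLeft_disjSum_toRight (u := s), Finset.prod_disjSum]
  simp

lemma infinitePi_prod_curry (V : Type*) (ν : Measure X) [IsProbabilityMeasure ν] :
    ((Measure.infinitePi (fun _ : V => ν)).prod (Measure.infinitePi (fun _ : V × ℕ => ν))).map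
      (fun p => (fun v n => Nat.casesOn n (p.1 v) (fun j => p.2 (v, j)) : V → ℕ → X))
      = Measure.infinitePi (fun _ : V => Measure.infinitePi (fun _ : ℕ => ν)) := by
  let f : V × ℕ → V ⊕ (V × ℕ) := fun q => Nat.casesOn q.2 (Sum.inl q.1) (fun j => Sum.inr (q.1, j))
  have hf : Function.Injective f := by
    rintro ⟨v, n⟩ ⟨v', n'⟩ h
    cases n with
    | zero =>
      cases n' with
      | zero =>
        have h' : (Sum.inl v : V ⊕ (V × ℕ)) = Sum.inl v' := h
        rw [Sum.inl.inj h']
      | succ j' => simp [f] at h
    | succ j =>
      cases n' with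
      | zero => simp [f] at h
      | succ j' =>
        have h' : (Sum.inr (v, j) : V ⊕ (V × ℕ)) = Sum.inr (v', j') := h
        have h2 := Sum.inr.inj h'
        rw [Prod.mk.injEq] at h2
        rw [h2.1, h2.2]
  have hmeas : Measurable (fun p : (V → X) × (V × ℕ → X) =>
      (Sum.elim p.1 p.2 : V ⊕ (V × ℕ) → X)) := by
    rw [measurable_pi_iff]
    rintro (i | k)
    · exact (measurable_pi_apply i).comp measurable_fst
    · exact (measurable_pi_apply k).comp measurable_snd
  have h1 := Measure.infinitePi_map_curry (ι := V) (κ := ℕ) (fun _ _ => ν)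
  rw [← infinitePi_map_comp_injective ν f hf, ← infinitePi_map_sumElim ν,
    Measure.map_map (by fun_prop) hmeas,
    Measure.map_map (by fun_prop) (by fun_prop)] at h1
  rw [← h1]
  congr 1
  funext p v n
  cases n with
  | zero => rfl
  | succ j => rfl

end law

/-- joint law of the order keys and the event noise -/
theorem map_key_evn : (noiseV V).map (fun ω => ((fun v => ω v 0 : V → unitInterval), evn ω))
    = (noise V).prod (noise (V × ℕ)) := by
  have h := infinitePi_prod_curry V (volume : Measure unitInterval)
  have hm2 : Measurable (fun p : (V → unitInterval) × (V × ℕ → unitInterval) =>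
      (fun v n => Nat.casesOn n (p.1 v) (fun j => p.2 (v, j)) : V → ℕ → unitInterval)) := by
    rw [measurable_pi_iff]; intro v
    rw [measurable_pi_iff]; intro n
    cases n with
    | zero => exact (measurable_pi_apply v).comp measurable_fst
    | succ j => exact (measurable_pi_apply (v, j)).comp measurable_snd
  have hm1 : Measurable (fun ω : V → ℕ → unitInterval =>
      ((fun v => ω v 0 : V → unitInterval), evn ω)) :=
    measurable_keyU.prodMk measurable_evn
  unfold noiseV noise
  rw [← h, Measure.map_map hm1 hm2]
  have : ((fun ω : V → ℕ → unitInterval => ((fun v => ω v 0 : V → unitInterval), evn ω)) ∘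
      (fun p : (V → unitInterval) × (V × ℕ → unitInterval) =>
      (fun v n => Nat.casesOn n (p.1 v) (fun j => p.2 (v, j)) : V → ℕ → unitInterval))) = id := by
    funext p
    rfl
  rw [this, Measure.map_id]

/-- expectations over the noise space, keys first -/
theorem integral_noiseV (H : (V → unitInterval) → (V × ℕ → unitInterval) → ℝ)
    (hH : Measurable (fun p : (V → unitInterval) × (V × ℕ → unitInterval) => H p.1 p.2))
    (hb : ∃ C, ∀ L W, |H L W| ≤ C) :
    ∫ ω, H (fun v => ω v 0) (evn ω) ∂(noiseV V)
      = ∫ L, ∫ W, H L W ∂(noise (V × ℕ)) ∂(noise V) := by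
  have hm1 : Measurable (fun ω : V → ℕ → unitInterval =>
      ((fun v => ω v 0 : V → unitInterval), evn ω)) :=
    measurable_keyU.prodMk measurable_evn
  obtain ⟨C, hC⟩ := hb
  have h1 : ∫ p, H p.1 p.2 ∂((noise V).prod (noise (V × ℕ)))
      = ∫ ω, H (fun v => ω v 0) (evn ω) ∂(noiseV V) := by
    rw [← map_key_evn, integral_map hm1.aemeasurable hH.aestronglyMeasurable]
  rw [← h1, integral_prod]
  exact Integrable.of_bound hH.aestronglyMeasurable C (Filter.Eventually.of_forall fun p => by
    rw [Real.norm_eq_abs]; exact hC _ _)

/-- relabelling the vertices preserves the noise law -/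
theorem measurePreserving_relabel (σ : V ≃ V) :
    MeasurePreserving (fun (ω : V → ℕ → unitInterval) (v : V) => ω (σ v)) (noiseV V) (noiseV V) := by
  refine ⟨?_, ?_⟩
  · rw [measurable_pi_iff]; intro v; exact measurable_pi_apply _
  · exact infinitePi_map_comp_injective (noise ℕ) σ σ.injective

/-- almost surely the order keys are distinct -/
theorem ae_key_injective [Countable V] :
    ∀ᵐ L ∂(noise V), Function.Injective (fun v => ((L v : unitInterval) : ℝ)) := by
  have h1 : ∀ a b : V, a ≠ b → ∀ᵐ L ∂(noise V), L a ≠ L b := by
    intro a b hab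
    let f : Unit ⊕ Unit → V := Sum.elim (fun _ => a) (fun _ => b)
    have hf : Function.Injective f := by
      rintro (i | i) (j | j) h
      · rfl
      · exact absurd h hab
      · exact absurd h hab.symm
      · rfl
    set ν : Measure unitInterval := volume with hν
    have h2 : (noise V).map (fun L => (L a, L b)) = ν.prod ν := by
      have h3 := infinitePi_map_comp_injective ν f hf
      have h4 := infinitePi_map_sumElim (ι := Unit) (κ := Unit) ν
      have hmeas : Measurable (fun p : (Unit → unitInterval) × (Unit → unitInterval) =>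
          (Sum.elim p.1 p.2 : Unit ⊕ Unit → unitInterval)) := by
        rw [measurable_pi_iff]
        rintro (i | k)
        · exact (measurable_pi_apply i).comp measurable_fst
        · exact (measurable_pi_apply k).comp measurable_snd
      have hm2 : Measurable (fun y : Unit ⊕ Unit → unitInterval =>
          (y (Sum.inl ()), y (Sum.inr ()))) := by
        fun_prop
      have h5 := congrArg (Measure.map (fun y : Unit ⊕ Unit → unitInterval =>
        (y (Sum.inl ()), y (Sum.inr ())))) (h3.trans h4.symm)
      rw [Measure.map_map hm2 (by fun_prop), Measure.map_map hm2 hmeas] at h5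
      have h6 : (noise V).map (fun L => (L a, L b))
          = ((Measure.infinitePi (fun _ : Unit => ν)).prod
              (Measure.infinitePi (fun _ : Unit => ν))).map
              (Prod.map (fun y => y ()) (fun y => y ())) := h5
      rw [h6, ← Measure.map_prod_map _ _ (by fun_prop) (by fun_prop),
        Measure.infinitePi_map_eval]
    have hd : MeasurableSet {p : unitInterval × unitInterval | p.1 = p.2} :=
      measurableSet_eq_fun measurable_fst measurable_snd
    have h7 : (ν.prod ν) {p : unitInterval × unitInterval | p.1 = p.2} = 0 := by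
      rw [Measure.measure_prod_null hd]
      refine Filter.Eventually.of_forall fun y => ?_
      have h8 : Prod.mk y ⁻¹' {p : unitInterval × unitInterval | p.1 = p.2} = {y} := by
        ext z; simp [eq_comm]
      show ν (Prod.mk y ⁻¹' {p : unitInterval × unitInterval | p.1 = p.2}) = 0
      rw [h8]
      simp [hν]
    rw [← h2, Measure.map_apply (by fun_prop) hd] at h7
    rw [ae_iff]
    simpa using h7
  have h8 : ∀ᵐ L ∂(noise V), ∀ a b : V, a ≠ b → L a ≠ L b := by
    rw [ae_all_iff]; intro a
    rw [ae_all_iff]; intro b
    by_cases hab : a = b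
    · exact Filter.Eventually.of_forall fun L h => absurd hab h
    · filter_upwards [h1 a b hab] with L hL _ using hL
  filter_upwards [h8] with L hL a b hab
  by_contra hne
  exact hL a b hne (Subtype.ext hab)

end P161
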