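import Mathlib

/-!
# P161, module M1: metric facts and kernel sums on trees of bounded degree
-/

open SimpleGraph Finset

namespace P161

variable {V : Type*} {G : SimpleGraph V}

/-- If `u` is on the side of `v` and `w` is on the side of `v'` of the edge `v v'`, the distances
add up. -/
theorem dist_split (hT : G.IsTree) {v v' : V} (hvv : G.Adj v v') {u w : V}
    (hu : G.dist u v' = G.dist u v + 1) (hw : G.dist v w = G.dist v' w + 1) :
    G.dist u w = G.dist u v + 1 + G.dist v' w := by
  classical
  have hc := hT.connected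
  obtain ⟨p, hp, hpl⟩ := hc.exists_path_of_dist u v
  obtain ⟨q, hq, hql⟩ := hc.exists_path_of_dist v' w
  have hps : ∀ x ∈ p.support, G.dist x v' = G.dist x v + 1 := by
    intro x hx
    have h1 : (p.takeUntil x hx).length + (p.dropUntil x hx).length = p.length := by
      rw [← SimpleGraph.Walk.length_append, SimpleGraph.Walk.take_spec]
    have h2 : G.dist u x ≤ (p.takeUntil x hx).length := dist_le _
    have h3 : G.dist x v ≤ (p.dropUntil x hx).length := dist_le _
    have h4 : G.dist u v' ≤ G.dist u x + G.dist x v' := hc.dist_triangle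
    have h5 : G.dist x v' ≤ G.dist x v + G.dist v v' := hc.dist_triangle
    have h6 : G.dist v v' = 1 := dist_eq_one_iff_adj.mpr hvv
    omega
  have hqs : ∀ x ∈ q.support, G.dist v x = G.dist v' x + 1 := by
    intro x hx
    have h1 : (q.takeUntil x hx).length + (q.dropUntil x hx).length = q.length := by
      rw [← SimpleGraph.Walk.length_append, SimpleGraph.Walk.take_spec]
    have h2 : G.dist v' x ≤ (q.takeUntil x hx).length := dist_le _
    have h3 : G.dist x w ≤ (q.dropUntil x hx).length := dist_le _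
    have h4 : G.dist v w ≤ G.dist v x + G.dist x w := hc.dist_triangle
    have h5 : G.dist v x ≤ G.dist v v' + G.dist v' x := hc.dist_triangle
    have h6 : G.dist v v' = 1 := dist_eq_one_iff_adj.mpr hvv
    omega
  have hr : (p.append (Walk.cons hvv q)).IsPath := by
    rw [Walk.isPath_def, Walk.support_append, Walk.support_cons, List.tail_cons, List.nodup_append]
    refine ⟨(Walk.isPath_def p).mp hp, (Walk.isPath_def q).mp hq, ?_⟩
    intro x hx y hy hxy
    subst hxy
    have h1 := hps x hx
    have h2 := hqs x hy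
    rw [dist_comm (u := v), dist_comm (u := v')] at h2
    omega
  obtain ⟨s, hs, hsl⟩ := hc.exists_path_of_dist u w
  have heq : (⟨p.append (Walk.cons hvv q), hr⟩ : G.Path u w) = ⟨s, hs⟩ :=
    hT.isAcyclic.path_unique _ _
  have heq' : p.append (Walk.cons hvv q) = s := congrArg Subtype.val heq
  rw [← hsl, ← heq', Walk.length_append, Walk.length_cons, hpl, hql]
  ring

/-- a neighbour of `v` that is closer to `w` -/
theorem exists_closer (hT : G.IsTree) {v w : V} (hvw : v ≠ w) :
    ∃ v', G.Adj v v' ∧ G.dist v w = G.dist v' w + 1 := by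
  have hc := hT.connected
  obtain ⟨p, hp, hpl⟩ := hc.exists_path_of_dist v w
  cases p with
  | nil => exact absurd rfl hvw
  | @cons _ v' _ h q =>
    refine ⟨v', h, ?_⟩
    rw [Walk.length_cons] at hpl
    have h1 : G.dist v' w ≤ q.length := dist_le _
    have h2 : G.dist v w ≤ G.dist v v' + G.dist v' w := hc.dist_triangle
    have h3 : G.dist v v' = 1 := dist_eq_one_iff_adj.mpr h
    omega

/-- the neighbour closer to `w` is unique -/
theorem closer_unique' (hT : G.IsTree) {v w a b : V} (ha : G.Adj v a) (hb : G.Adj v b)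
    (hda : G.dist v w = G.dist a w + 1) (hdb : G.dist v w = G.dist b w + 1) : a = b := by
  by_contra hab
  -- `b` is on the side of `v` of the edge `v a`
  rcases hT.dist_eq_dist_add_one_of_adj b ha with h | h
  · -- dist b v = dist b a + 1 : then dist b a = 0
    have h1 : G.dist b v = 1 := dist_eq_one_iff_adj.mpr hb.symm
    have h2 : G.dist b a = 0 := by omega
    have := hT.connected.dist_eq_zero_iff.mp h2
    exact hab this.symm
  · have h1 := dist_split hT ha (u := b) (w := w) h hda
    have h2 : G.dist b v = 1 := dist_eq_one_iff_adj.mpr hb.symm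
    omega

section sphere

variable (hT : G.IsTree) (hfin : ∀ v, (G.neighborSet v).Finite)

include hT hfin in
theorem sphere_finite (v : V) (n : ℕ) : {w | G.dist v w = n}.Finite := by
  induction n with
  | zero =>
    refine (Set.finite_singleton v).subset ?_
    intro w hw
    exact (hT.connected.dist_eq_zero_iff.mp hw).symm
  | succ n ih =>
    refine (ih.biUnion fun u _ => hfin u).subset ?_
    intro w hw
    have hne : w ≠ v := by
      rintro rfl
      rw [Set.mem_ofPred_eq, dist_self] at hw
      omega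
    obtain ⟨u, huw, hd⟩ := exists_closer hT hne
    rw [Set.mem_ofPred_eq, dist_comm] at hw
    simp only [Set.mem_iUnion]
    refine ⟨u, ?_, huw.symm⟩
    rw [Set.mem_ofPred_eq, dist_comm]
    omega

include hT hfin in
theorem ball_finite (v : V) (n : ℕ) : {w | G.dist v w ≤ n}.Finite := by
  have : {w | G.dist v w ≤ n} ⊆ ⋃ k ∈ Set.Iic n, {w | G.dist v w = k} := by
    intro w hw
    simp only [Set.mem_iUnion]
    exact ⟨G.dist v w, hw, rfl⟩
  exact ((Set.finite_Iic n).biUnion fun k _ => sphere_finite hT hfin v k).subset this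

/-- closed balls as finsets -/
noncomputable def cball (hT : G.IsTree) (hfin : ∀ v, (G.neighborSet v).Finite) (v : V) (n : ℕ) :
    Finset V := (ball_finite hT hfin v n).toFinset

theorem mem_cball {v w : V} {n : ℕ} : w ∈ cball hT hfin v n ↔ G.dist v w ≤ n := by
  rw [cball, Set.Finite.mem_toFinset]
  rfl

theorem cball_mono {v : V} {m n : ℕ} (h : m ≤ n) : cball hT hfin v m ⊆ cball hT hfin v n := by
  intro w hw
  rw [mem_cball] at hw ⊢
  omega

theorem cball_exhaust (v : V) (F : Finset V) : ∃ n, F ⊆ cball hT hfin v n := by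
  refine ⟨F.sup fun w => G.dist v w, ?_⟩
  intro w hw
  rw [mem_cball]
  exact Finset.le_sup (f := fun w => G.dist v w) hw

theorem cball_connected (v : V) (n : ℕ) :
    (G.induce ((cball hT hfin v n : Finset V) : Set V)).Connected := by
  classical
  have hv : v ∈ ((cball hT hfin v n : Finset V) : Set V) := by
    rw [Finset.mem_coe, mem_cball, dist_self]; omega
  rw [connected_iff_exists_forall_reachable]
  refine ⟨⟨v, hv⟩, ?_⟩
  rintro ⟨w, hw⟩
  obtain ⟨p, hp, hpl⟩ := hT.connected.exists_path_of_dist v w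
  have hsupp : ∀ x ∈ p.support, x ∈ ((cball hT hfin v n : Finset V) : Set V) := by
    intro x hx
    rw [Finset.mem_coe, mem_cball]
    rw [Finset.mem_coe, mem_cball] at hw
    have h1 : (p.takeUntil x hx).length + (p.dropUntil x hx).length = p.length := by
      rw [← SimpleGraph.Walk.length_append, SimpleGraph.Walk.take_spec]
    have h2 : G.dist v x ≤ (p.takeUntil x hx).length := dist_le _
    omega
  exact ⟨p.induce _ hsupp⟩

include hT hfin in
theorem sphere_card (d : ℕ) (hd : ∀ v, (G.neighborSet v).ncard ≤ d) (hd2 : 2 ≤ d) (v : V)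
    (n : ℕ) (S : Finset V) (hS : ∀ w ∈ S, G.dist v w = n) : S.card ≤ d * (d - 1) ^ n ∧
      (1 ≤ n → S.card ≤ d * (d - 1) ^ (n - 1)) := by
  classical
  induction n generalizing S with
  | zero =>
    have h1 : S ⊆ {v} := by
      intro w hw
      rw [Finset.mem_singleton]
      exact (hT.connected.dist_eq_zero_iff.mp (hS w hw)).symm
    have h2 := Finset.card_le_card h1
    rw [Finset.card_singleton] at h2
    refine ⟨?_, fun h => absurd h (by omega)⟩
    rw [pow_zero, mul_one]
    omega
  | succ n ih =>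
    -- parents
    have hpar : ∀ w : V, ∃ u, G.dist v w = n + 1 → G.Adj u w ∧ G.dist v u = n := by
      intro w
      by_cases hw : G.dist v w = n + 1
      · have hne : w ≠ v := by
          rintro rfl
          rw [dist_self] at hw
          omega
        obtain ⟨u, huw, hdu⟩ := exists_closer hT hne
        rw [dist_comm (u := w), dist_comm (u := u)] at hdu
        exact ⟨u, fun _ => ⟨huw.symm, by omega⟩⟩
      · exact ⟨w, fun h => absurd h hw⟩
    choose par hpar using hpar
    set P := S.image par with hP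
    have hPd : ∀ u ∈ P, G.dist v u = n := by
      intro u hu
      rw [hP, Finset.mem_image] at hu
      obtain ⟨w, hw, rfl⟩ := hu
      exact (hpar w (hS w hw)).2
    -- fibres
    have hfib : ∀ u ∈ P, (S.filter fun w => par w = u).card ≤ (if n = 0 then d else d - 1) := by
      intro u hu
      have hfinu : (G.neighborSet u).Finite := hfin u
      have hsub : ((S.filter fun w => par w = u : Finset V) : Set V) ⊆ G.neighborSet u := by
        intro w hw
        rw [Finset.mem_coe, Finset.mem_filter] at hw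
        have := (hpar w (hS w hw.1)).1
        rw [hw.2] at this
        exact this
      split_ifs with hn
      · rw [← Set.ncard_coe_finset]
        exact (Set.ncard_le_ncard hsub hfinu).trans (hd u)
      · -- remove the parent of u
        have hne : u ≠ v := by
          rintro rfl
          have := hPd u hu
          rw [dist_self] at this
          exact hn this.symm
        obtain ⟨u', huu', hdu'⟩ := exists_closer hT hne
        have hsub2 : ((S.filter fun w => par w = u : Finset V) : Set V) ⊆ G.neighborSet u \ {u'} := by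
          intro w hw
          refine ⟨hsub hw, ?_⟩
          intro hw'
          rw [Set.mem_singleton_iff] at hw'
          rw [Finset.mem_coe, Finset.mem_filter] at hw
          have h1 := hS w hw.1
          have h2 := hPd u hu
          rw [hw', dist_comm] at h1
          rw [dist_comm] at h2
          omega
        rw [← Set.ncard_coe_finset]
        have h3 := Set.ncard_le_ncard hsub2 (hfinu.sdiff)
        have h4 := Set.ncard_sdiff_singleton_add_one (show u' ∈ G.neighborSet u from huu') hfinu
        have h5 := hd u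
        omega
    have hcard : S.card ≤ P.card * (if n = 0 then d else d - 1) := by
      rw [mul_comm]
      exact Finset.card_le_mul_card_image_of_maps_to
        (fun w hw => Finset.mem_image_of_mem par hw) _ hfib
    obtain ⟨ih1, ih2⟩ := ih P hPd
    have key : S.card ≤ d * (d - 1) ^ n := by
      by_cases hn : n = 0
      · subst hn
        have h1 : P ⊆ {v} := by
          intro w hw
          rw [Finset.mem_singleton]
          exact (hT.connected.dist_eq_zero_iff.mp (hPd w hw)).symm
        have h2 := Finset.card_le_card h1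
        rw [Finset.card_singleton] at h2
        rw [if_pos rfl] at hcard
        calc S.card ≤ P.card * d := hcard
          _ ≤ 1 * d := Nat.mul_le_mul_right _ h2
          _ = d * (d - 1) ^ 0 := by ring
      · rw [if_neg hn] at hcard
        have h1 := ih2 (by omega)
        calc S.card ≤ P.card * (d - 1) := hcard
          _ ≤ d * (d - 1) ^ (n - 1) * (d - 1) := Nat.mul_le_mul_right _ h1
          _ = d * (d - 1) ^ (n - 1 + 1) := by rw [pow_succ]; ring
          _ = d * (d - 1) ^ n := by rw [Nat.sub_add_cancel (by omega)]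
    refine ⟨key.trans ?_, fun _ => by simpa using key⟩
    apply Nat.mul_le_mul_left
    exact Nat.pow_le_pow_right (by omega) (by omega)

include hT hfin in
/-- (a) sphere sums -/
theorem sum_dist_le (d : ℕ) (hd : ∀ v, (G.neighborSet v).ncard ≤ d) (hd2 : 2 ≤ d) {x : ℝ}
    (hx0 : 0 ≤ x) (hx1 : ((d : ℝ) - 1) * x < 1) (v : V) (D : Finset V) :
    ∑ w ∈ D, x ^ G.dist v w ≤ d / (1 - ((d : ℝ) - 1) * x) := by
  classical
  set y : ℝ := ((d : ℝ) - 1) * x with hy
  have hd1 : (1 : ℝ) ≤ (d : ℝ) - 1 := by
    have : (2 : ℝ) ≤ d := by exact_mod_cast hd2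
    linarith
  have hy0 : 0 ≤ y := mul_nonneg (by linarith) hx0
  set N := D.sup fun w => G.dist v w with hN
  have hmaps : ∀ w ∈ D, G.dist v w ∈ Finset.range (N + 1) := by
    intro w hw
    rw [Finset.mem_range]
    have := Finset.le_sup (f := fun w => G.dist v w) hw
    omega
  rw [← Finset.sum_fiberwise_of_maps_to hmaps]
  have h1 : ∀ n ∈ Finset.range (N + 1),
      (∑ w ∈ D.filter (fun w => G.dist v w = n), x ^ G.dist v w) ≤ d * y ^ n := by
    intro n _
    have h2 : ∀ w ∈ D.filter (fun w => G.dist v w = n), x ^ G.dist v w = x ^ n := by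
      intro w hw
      rw [(Finset.mem_filter.mp hw).2]
    rw [Finset.sum_congr rfl h2, Finset.sum_const, nsmul_eq_mul]
    have h3 := (sphere_card hT hfin d hd hd2 v n (D.filter (fun w => G.dist v w = n))
      (fun w hw => (Finset.mem_filter.mp hw).2)).1
    have h4 : ((D.filter (fun w => G.dist v w = n)).card : ℝ) ≤ d * ((d : ℝ) - 1) ^ n := by
      have h5 : (((D.filter (fun w => G.dist v w = n)).card : ℕ) : ℝ) ≤
          ((d * (d - 1) ^ n : ℕ) : ℝ) := by exact_mod_cast h3
      rw [Nat.cast_mul, Nat.cast_pow, Nat.cast_sub (by omega), Nat.cast_one] at h5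
      exact h5
    calc ((D.filter (fun w => G.dist v w = n)).card : ℝ) * x ^ n
        ≤ (d * ((d : ℝ) - 1) ^ n) * x ^ n := mul_le_mul_of_nonneg_right h4 (pow_nonneg hx0 n)
      _ = d * y ^ n := by rw [hy, mul_pow]; ring
  refine (Finset.sum_le_sum h1).trans ?_
  rw [← Finset.mul_sum, div_eq_mul_inv]
  apply mul_le_mul_of_nonneg_left _ (Nat.cast_nonneg d)
  have h6 : Summable fun n : ℕ => y ^ n := summable_geometric_of_lt_one hy0 hx1
  calc ∑ n ∈ Finset.range (N + 1), y ^ n ≤ ∑' n : ℕ, y ^ n :=
        h6.sum_le_tsum _ fun n _ => pow_nonneg hy0 n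
    _ = (1 - y)⁻¹ := tsum_geometric_of_lt_one hy0 hx1

include hT hfin in
/-- (a') tails of sphere sums -/
theorem sum_dist_tail_le (d : ℕ) (hd : ∀ v, (G.neighborSet v).ncard ≤ d) (hd2 : 2 ≤ d) {x : ℝ}
    (hx0 : 0 ≤ x) (hx1 : ((d : ℝ) - 1) * x < 1) (v : V) (R : ℕ) (D : Finset V)
    (hD : ∀ w ∈ D, R ≤ G.dist v w) :
    ∑ w ∈ D, x ^ G.dist v w ≤ d / (1 - ((d : ℝ) - 1) * x) * (((d : ℝ) - 1) * x) ^ R := by
  classical
  set y : ℝ := ((d : ℝ) - 1) * x with hy
  have hd1 : (1 : ℝ) ≤ (d : ℝ) - 1 := by
    have : (2 : ℝ) ≤ d := by exact_mod_cast hd2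
    linarith
  have hy0 : 0 ≤ y := mul_nonneg (by linarith) hx0
  set N := D.sup fun w => G.dist v w with hN
  have hmaps : ∀ w ∈ D, G.dist v w - R ∈ Finset.range (N + 1) := by
    intro w hw
    rw [Finset.mem_range]
    have := Finset.le_sup (f := fun w => G.dist v w) hw
    omega
  rw [← Finset.sum_fiberwise_of_maps_to hmaps]
  have h1 : ∀ n ∈ Finset.range (N + 1),
      (∑ w ∈ D.filter (fun w => G.dist v w - R = n), x ^ G.dist v w) ≤ d * y ^ R * y ^ n := by
    intro n _
    have h0 : ∀ w ∈ D.filter (fun w => G.dist v w - R = n), G.dist v w = R + n := by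
      intro w hw
      have h1 := (Finset.mem_filter.mp hw).2
      have h2 := hD w (Finset.mem_filter.mp hw).1
      omega
    have h2 : ∀ w ∈ D.filter (fun w => G.dist v w - R = n), x ^ G.dist v w = x ^ (R + n) := by
      intro w hw
      rw [h0 w hw]
    rw [Finset.sum_congr rfl h2, Finset.sum_const, nsmul_eq_mul]
    have h3 := (sphere_card hT hfin d hd hd2 v (R + n) (D.filter (fun w => G.dist v w - R = n))
      h0).1
    have h4 : ((D.filter (fun w => G.dist v w - R = n)).card : ℝ) ≤
        d * ((d : ℝ) - 1) ^ (R + n) := by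
      have h5 : (((D.filter (fun w => G.dist v w - R = n)).card : ℕ) : ℝ) ≤
          ((d * (d - 1) ^ (R + n) : ℕ) : ℝ) := by exact_mod_cast h3
      rw [Nat.cast_mul, Nat.cast_pow, Nat.cast_sub (by omega), Nat.cast_one] at h5
      exact h5
    calc ((D.filter (fun w => G.dist v w - R = n)).card : ℝ) * x ^ (R + n)
        ≤ (d * ((d : ℝ) - 1) ^ (R + n)) * x ^ (R + n) :=
          mul_le_mul_of_nonneg_right h4 (pow_nonneg hx0 _)
      _ = d * y ^ R * y ^ n := by rw [hy, mul_pow, mul_pow]; ring
  refine (Finset.sum_le_sum h1).trans ?_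
  rw [← Finset.mul_sum]
  have h6 : Summable fun n : ℕ => y ^ n := summable_geometric_of_lt_one hy0 hx1
  have h7 : ∑ n ∈ Finset.range (N + 1), y ^ n ≤ (1 - y)⁻¹ := by
    rw [← tsum_geometric_of_lt_one hy0 hx1]
    exact h6.sum_le_tsum _ fun n _ => pow_nonneg hy0 n
  calc d * y ^ R * ∑ n ∈ Finset.range (N + 1), y ^ n ≤ d * y ^ R * (1 - y)⁻¹ :=
        mul_le_mul_of_nonneg_left h7 (mul_nonneg (Nat.cast_nonneg d) (pow_nonneg hy0 R))
    _ = d / (1 - y) * y ^ R := by rw [div_eq_mul_inv]; ring

include hT hfin in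
/-- (b) kernel inequality -/
theorem sum_kernel_le (d : ℕ) (hd : ∀ v, (G.neighborSet v).ncard ≤ d) (hd2 : 2 ≤ d) {θ ρ : ℝ}
    (hθ : 0 ≤ θ) (hθρ : θ < ρ) (hρ : ((d : ℝ) - 1) * (θ * ρ) < 1) (v w : V) (D : Finset V) :
    ∑ u ∈ D, θ ^ G.dist v u * ρ ^ G.dist u w ≤
      (d / (1 - ((d : ℝ) - 1) * (θ * ρ))) / (1 - θ / ρ) * ρ ^ G.dist v w := by
  classical
  have hρ0 : 0 < ρ := hθ.trans_lt hθρ
  set Ca : ℝ := d / (1 - ((d : ℝ) - 1) * (θ * ρ)) with hCa
  have hCa0 : 0 ≤ Ca := div_nonneg (Nat.cast_nonneg d) (by linarith)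
  have hr : θ / ρ < 1 := (div_lt_one hρ0).mpr hθρ
  have hr0 : 0 ≤ θ / ρ := div_nonneg hθ hρ0.le
  set C1 : ℝ := Ca / (1 - θ / ρ) with hC1
  have hC1eq : C1 * (1 - θ / ρ) = Ca := by
    rw [hC1]; exact div_mul_cancel₀ _ (by linarith)
  have hC1ge : Ca ≤ C1 := by
    rw [hC1, le_div_iff₀ (by linarith)]
    nlinarith
  have hsum : ∀ (v : V) (D : Finset V), ∑ w ∈ D, (θ * ρ) ^ G.dist v w ≤ Ca := fun v D =>
    sum_dist_le hT hfin d hd hd2 (mul_nonneg hθ hρ0.le) hρ v D
  have key : ∀ n : ℕ, ∀ v : V, G.dist v w = n →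
      ∑ u ∈ D, θ ^ G.dist v u * ρ ^ G.dist u w ≤ C1 * ρ ^ n := by
    intro n
    induction n with
    | zero =>
      intro v hv
      have hvw : v = w := hT.connected.dist_eq_zero_iff.mp hv
      subst hvw
      have h1 : ∀ u ∈ D, θ ^ G.dist v u * ρ ^ G.dist u v = (θ * ρ) ^ G.dist v u := by
        intro u _
        rw [dist_comm (u := u), mul_pow]
      rw [Finset.sum_congr rfl h1, pow_zero, mul_one]
      exact (hsum v D).trans hC1ge
    | succ n ih =>
      intro v hv
      have hvw : v ≠ w := by
        rintro rfl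
        rw [dist_self] at hv
        omega
      obtain ⟨v', hvv', hd'⟩ := exists_closer hT hvw
      have hv'n : G.dist v' w = n := by omega
      rw [← Finset.sum_filter_add_sum_filter_not D (fun u => G.dist u v' = G.dist u v + 1)]
      have h1 : ∑ u ∈ D.filter (fun u => G.dist u v' = G.dist u v + 1),
          θ ^ G.dist v u * ρ ^ G.dist u w ≤ Ca * ρ ^ (n + 1) := by
        have h2 : ∀ u ∈ D.filter (fun u => G.dist u v' = G.dist u v + 1),
            θ ^ G.dist v u * ρ ^ G.dist u w = (θ * ρ) ^ G.dist v u * ρ ^ (n + 1) := by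
          intro u hu
          have h3 := dist_split hT hvv' (Finset.mem_filter.mp hu).2 hd'
          rw [h3, dist_comm (u := u) (v := v), mul_pow, mul_assoc, ← pow_add, hv'n]
          ring_nf
        rw [Finset.sum_congr rfl h2, ← Finset.sum_mul]
        exact mul_le_mul_of_nonneg_right (hsum v _) (pow_nonneg hρ0.le _)
      have h2 : ∑ u ∈ D.filter (fun u => ¬ G.dist u v' = G.dist u v + 1),
          θ ^ G.dist v u * ρ ^ G.dist u w ≤ θ * (C1 * ρ ^ n) := by
        have h3 : ∀ u ∈ D.filter (fun u => ¬ G.dist u v' = G.dist u v + 1),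
            θ ^ G.dist v u * ρ ^ G.dist u w = θ * (θ ^ G.dist v' u * ρ ^ G.dist u w) := by
          intro u hu
          have h4 := (Finset.mem_filter.mp hu).2
          rcases hT.dist_eq_dist_add_one_of_adj u hvv' with h5 | h5
          · rw [dist_comm (u := v), dist_comm (u := v'), h5, pow_succ]
            ring
          · exact absurd h5 h4
        rw [Finset.sum_congr rfl h3, ← Finset.mul_sum]
        apply mul_le_mul_of_nonneg_left _ hθ
        refine le_trans ?_ (ih v' hv'n)
        apply Finset.sum_le_sum_of_subset_of_nonneg (Finset.filter_subset _ _)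
        intro u _ _
        exact mul_nonneg (pow_nonneg hθ _) (pow_nonneg hρ0.le _)
      refine (add_le_add h1 h2).trans ?_
      have h5 : θ * (C1 * ρ ^ n) = C1 * (θ / ρ) * ρ ^ (n + 1) := by
        rw [pow_succ]
        field_simp
      rw [h5, ← add_mul]
      apply mul_le_mul_of_nonneg_right _ (pow_nonneg hρ0.le _)
      linarith
  exact key _ v rfl

end sphere


/-! ### the statements in the form used by the other modules -/

theorem kernel (G : SimpleGraph V) (hT : G.IsTree) (d : ℕ)
    (hfin : ∀ v, (G.neighborSet v).Finite) (hd : ∀ v, (G.neighborSet v).ncard ≤ d) (hd2 : 2 ≤ d)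
    {θ ρ : ℝ} (h0 : 0 ≤ θ) (h1 : θ < ρ) (h2 : ρ ^ 2 * (d - 1) < 1) :
    ∃ C : ℝ, 0 ≤ C ∧ ∀ (v w : V) (D : Finset V),
      ∑ u ∈ D, θ ^ (G.dist v u) * ρ ^ (G.dist u w) ≤ C * ρ ^ (G.dist v w) := by
  have hρ0 : 0 < ρ := h0.trans_lt h1
  have hd1 : (1 : ℝ) ≤ (d : ℝ) - 1 := by
    have : (2 : ℝ) ≤ d := by exact_mod_cast hd2
    linarith
  have hρ : ((d : ℝ) - 1) * (θ * ρ) < 1 := by
    have h3 : θ * ρ ≤ ρ ^ 2 := by nlinarith
    nlinarith
  refine ⟨(d / (1 - ((d : ℝ) - 1) * (θ * ρ))) / (1 - θ / ρ), ?_, fun v w D =>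
    sum_kernel_le hT hfin d hd hd2 h0 h1 hρ v w D⟩
  apply div_nonneg
  · exact div_nonneg (Nat.cast_nonneg d) (by linarith)
  · have : θ / ρ < 1 := (div_lt_one hρ0).mpr h1
    linarith

theorem sq_summable (G : SimpleGraph V) (hT : G.IsTree) (d : ℕ)
    (hfin : ∀ v, (G.neighborSet v).Finite) (hd : ∀ v, (G.neighborSet v).ncard ≤ d) (hd2 : 2 ≤ d)
    {ρ : ℝ} (h2 : ρ ^ 2 * (d - 1) < 1) (v : V) :
    Summable (fun w : V => (ρ ^ 2) ^ (G.dist v w)) := by
  refine summable_of_sum_le (c := d / (1 - ((d : ℝ) - 1) * ρ ^ 2)) (fun w => ?_) (fun D => ?_)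
  · exact pow_nonneg (sq_nonneg ρ) _
  · exact sum_dist_le hT hfin d hd hd2 (sq_nonneg ρ) (by linarith) v D

theorem exists_conn (G : SimpleGraph V) (hT : G.IsTree) (S : Finset V) :
    ∃ D : Finset V, S ⊆ D ∧ (G.induce (D : Set V)).Connected := by
  classical
  obtain ⟨v⟩ := hT.connected.nonempty
  have hpath : ∀ w : V, ∃ p : G.Walk v w, True := fun w =>
    ⟨(hT.connected.preconnected v w).some, trivial⟩
  choose p _ using hpath
  set D : Finset V := insert v (S.biUnion fun w => (p w).support.toFinset) with hD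
  refine ⟨D, ?_, ?_⟩
  · intro w hw
    rw [hD, Finset.mem_insert]
    right
    rw [Finset.mem_biUnion]
    exact ⟨w, hw, List.mem_toFinset.mpr (Walk.end_mem_support _)⟩
  · have hv : v ∈ (D : Set V) := by
      rw [Finset.mem_coe, hD]; exact Finset.mem_insert_self _ _
    rw [connected_iff_exists_forall_reachable]
    refine ⟨⟨v, hv⟩, ?_⟩
    rintro ⟨x, hx⟩
    rw [Finset.mem_coe, hD, Finset.mem_insert] at hx
    rcases hx with rfl | hx
    · exact Reachable.refl _
    · rw [Finset.mem_biUnion] at hx
      obtain ⟨w, hw, hxw⟩ := hx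
      rw [List.mem_toFinset] at hxw
      have hsupp : ∀ y ∈ ((p w).takeUntil x hxw).support, y ∈ (D : Set V) := by
        intro y hy
        rw [Finset.mem_coe, hD, Finset.mem_insert]
        right
        rw [Finset.mem_biUnion]
        exact ⟨w, hw, List.mem_toFinset.mpr (Walk.support_takeUntil_subset_support _ _ hy)⟩
      exact ⟨((p w).takeUntil x hxw).induce _ hsupp⟩

end P161
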