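import Vale.Agent.P161.ISys
import Vale.Agent.P161.NoiseV

/-!
# P161: finite-volume sampling on the noise space: definitions
-/

namespace P161

open MeasureTheory ProbabilityTheory Filter Topology

variable {V : Type*}

/-! ### elementary facts about ranks and event sets -/

theorem rk_lt_iff (L : V → ℝ) (e f : V × ℕ) :
    rk L e < rk L f ↔ e.2 < f.2 ∨ (e.2 = f.2 ∧ L e.1 < L f.1) := by
  unfold rk
  rw [Prod.Lex.toLex_lt_toLex]

theorem rk_injective {L : V → ℝ} (hL : Function.Injective L) : Function.Injective (rk L) := by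
  intro e f h
  have h1 : (e.2, L e.1) = (f.2, L f.1) := toLex.injective h
  rw [Prod.mk.injEq] at h1
  exact Prod.ext (hL h1.2) h1.1

theorem mem_evs {D : Finset V} {N : ℕ} {e : V × ℕ} : e ∈ evs D N ↔ e.1 ∈ D ∧ e.2 < N := by
  unfold evs
  rw [Finset.mem_product, Finset.mem_range]

theorem evs_mono {D D' : Finset V} {N N' : ℕ} (h : D ⊆ D') (hN : N ≤ N') :
    evs D N ⊆ evs D' N' := by
  intro e he
  rw [mem_evs] at he ⊢
  exact ⟨h he.1, he.2.trans_le hN⟩

section
variable (G : SimpleGraph V) (hT : G.IsTree) {θ κ : ℝ} (h0 : 0 ≤ θ) (h1 : θ < 1)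
    (hκ : 0 ≤ κ) (hκ1 : κ < 1)

/-- observations computed in the finite subtree `D` during `N` rounds -/
noncomputable def YD (D : Finset V) (hD : (G.induce (D : Set V)).Connected)
    (N : ℕ) (ω : V → ℕ → unitInterval) (e : V × ℕ) : ℝ :=
  (isys G hT h0 h1 hκ hκ1 D hD).F (rk (key ω)) (evs D N) (cw (evn ω)) e

/-- the same with separated order keys and noise -/
noncomputable def YL (D : Finset V) (hD : (G.induce (D : Set V)).Connected)
    (N : ℕ) (L : V → unitInterval) (W : V × ℕ → unitInterval) (e : V × ℕ) : ℝ :=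
  (isys G hT h0 h1 hκ hκ1 D hD).F (rk (fun v => ((L v : unitInterval) : ℝ))) (evs D N) (cw W) e

theorem YD_eq (D : Finset V) (hD : (G.induce (D : Set V)).Connected)
    (N : ℕ) (ω : V → ℕ → unitInterval) (e : V × ℕ) :
    YD G hT h0 h1 hκ hκ1 D hD N ω e = YL G hT h0 h1 hκ hκ1 D hD N (fun v => ω v 0) (evn ω) e := rfl

/-- the posterior mean seen by the event `f` in the sampling inside `D` -/
noncomputable def PL (D : Finset V) (hD : (G.induce (D : Set V)).Connected)
    (N : ℕ) (L : V → unitInterval) (W : V × ℕ → unitInterval) (f : V × ℕ) : ℝ :=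
  (isys G hT h0 h1 hκ hκ1 D hD).post
    (Sys.past (rk (fun v => ((L v : unitInterval) : ℝ))) (evs D N) f)
    ((isys G hT h0 h1 hκ hκ1 D hD).F (rk (fun v => ((L v : unitInterval) : ℝ))) (evs D N) (cw W)) f

end

theorem measurableSet_rk_lt (e f : V × ℕ) :
    MeasurableSet {p : (V → unitInterval) × (V × ℕ → unitInterval) |
      rk (fun v => ((p.1 v : unitInterval) : ℝ)) e < rk (fun v => ((p.1 v : unitInterval) : ℝ)) f} := by
  have : {p : (V → unitInterval) × (V × ℕ → unitInterval) |
      rk (fun v => ((p.1 v : unitInterval) : ℝ)) e < rk (fun v => ((p.1 v : unitInterval) : ℝ)) f}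
      = {p | e.2 < f.2 ∨ (e.2 = f.2 ∧ ((p.1 e.1 : unitInterval) : ℝ) < (p.1 f.1 : unitInterval))} := by
    ext p
    exact rk_lt_iff _ _ _
  rw [this]
  refine MeasurableSet.union (MeasurableSet.const _) (MeasurableSet.inter (MeasurableSet.const _) ?_)
  have hm : ∀ v : V, Measurable (fun p : (V → unitInterval) × (V × ℕ → unitInterval) =>
      ((p.1 v : unitInterval) : ℝ)) := fun v =>
    measurable_subtype_coe.comp ((measurable_pi_apply v).comp measurable_fst)
  exact measurableSet_lt (hm e.1) (hm f.1)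

theorem measurable_cw' {E : Type*} : Measurable (cw : (E → unitInterval) → E → ℝ) := by
  unfold cw
  rw [measurable_pi_iff]
  intro e
  exact measurable_subtype_coe.comp (measurable_pi_apply e)

end P161
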