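import Vale.Agent.P161.SignLaw
import Vale.Agent.P161.IsingMarg
import Vale.Agent.P161.ISys
import Vale.Agent.P161.NoiseV
import Vale.Agent.P161.YDef
import Vale.Agent.P161.Tree
import Vale.Agent.P161.SolveMeas
import Vale.Agent.P161.Pyth
import Vale.Agent.P161.Solve
import Vale.Agent.P161.Innov

/-! The law of the limit of the finite-volume observations. -/

open MeasureTheory ProbabilityTheory Filter Topology
open scoped ENNReal unitInterval

namespace P161

/-- Passing to an `L²` limit in integrals of bounded continuous functions. -/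
theorem eq_of_L2 {Ω ι : Type*} [MeasurableSpace Ω] [Fintype ι] (P : Measure Ω)
    [IsProbabilityMeasure P] (Yn : ℕ → Ω → ι → ℝ) (y : Ω → ι → ℝ)
    (hYm : ∀ n i, Measurable fun ω => Yn n ω i) (hym : ∀ i, Measurable fun ω => y ω i)
    (hY : ∀ n ω i, Yn n ω i ∈ Set.Icc (0 : ℝ) 1) (hy : ∀ ω i, y ω i ∈ Set.Icc (0 : ℝ) 1)
    (hL : ∀ i, Tendsto (fun n => ∫ ω, (Yn n ω i - y ω i) ^ 2 ∂P) atTop (𝓝 0))
    (f : (ι → ℝ) → ℝ) (hf : Continuous f) (C : ℝ) (hC : ∀ z, |f z| ≤ C) (c : ℝ)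
    (hc : ∀ᶠ n in atTop, ∫ ω, f (Yn n ω) ∂P = c) : ∫ ω, f (y ω) ∂P = c := by
  set R : ℕ → Ω → ℝ := fun n ω => ∑ i, (Yn n ω i - y ω i) ^ 2 with hR
  have hRm : ∀ n, Measurable (R n) := fun n =>
    Finset.measurable_fun_sum _ fun i _ => ((hYm n i).sub (hym i)).pow_const 2
  have hR0 : ∀ n ω, 0 ≤ R n ω := fun n ω => Finset.sum_nonneg fun i _ => sq_nonneg _
  have hint : ∀ n i, Integrable (fun ω => (Yn n ω i - y ω i) ^ 2) P := by
    intro n i
    refine Integrable.of_bound (C := 1)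
      (((hYm n i).sub (hym i)).pow_const 2).aestronglyMeasurable (ae_of_all _ fun ω => ?_)
    rw [Real.norm_eq_abs, abs_of_nonneg (sq_nonneg _)]
    have h1 := hY n ω i
    have h2 := hy ω i
    have h3 : |Yn n ω i - y ω i| ≤ 1 := by
      rw [abs_le]; constructor <;> linarith [h1.1, h1.2, h2.1, h2.2]
    rw [← sq_abs]
    nlinarith [abs_nonneg (Yn n ω i - y ω i)]
  have hRint : ∀ n, Integrable (R n) P := fun n => integrable_finsetSum _ fun i _ => hint n i
  have hRt : Tendsto (fun n => ∫ ω, R n ω ∂P) atTop (𝓝 0) := by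
    have h1 : ∀ n, ∫ ω, R n ω ∂P = ∑ i, ∫ ω, (Yn n ω i - y ω i) ^ 2 ∂P := fun n =>
      integral_finsetSum _ fun i _ => hint n i
    simp_rw [h1]
    have h2 := tendsto_finsetSum (Finset.univ : Finset ι) fun i _ => hL i
    simpa using h2
  have hmeas : TendstoInMeasure P R atTop (fun _ => 0) := by
    refine tendstoInMeasure_of_tendsto_eLpNorm (p := 1) one_ne_zero
      (fun n => (hRm n).aestronglyMeasurable) aestronglyMeasurable_const ?_
    have h1 : ∀ n, eLpNorm (R n - fun _ => 0) 1 P = ENNReal.ofReal (∫ ω, R n ω ∂P) := by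
      intro n
      rw [eLpNorm_one_eq_lintegral_enorm,
        ofReal_integral_eq_lintegral_ofReal (hRint n) (ae_of_all _ (hR0 n))]
      refine lintegral_congr fun ω => ?_
      simp only [Pi.sub_apply, sub_zero]
      rw [Real.enorm_eq_ofReal (hR0 n ω)]
    simp_rw [h1]
    have := (ENNReal.continuous_ofReal.tendsto 0).comp hRt
    rw [ENNReal.ofReal_zero] at this
    exact this
  obtain ⟨ns, hns, hae⟩ := hmeas.exists_seq_tendsto_ae
  have hlim : Tendsto (fun j => ∫ ω, f (Yn (ns j) ω) ∂P) atTop (𝓝 (∫ ω, f (y ω) ∂P)) := by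
    refine tendsto_integral_of_dominated_convergence (fun _ => C) (fun n => ?_)
      (integrable_const _) (fun n => ae_of_all _ fun ω => hC _) ?_
    · exact (hf.measurable.comp (measurable_pi_iff.2 fun i => hYm _ i)).aestronglyMeasurable
    · filter_upwards [hae] with ω hω
      refine (hf.tendsto _).comp (tendsto_pi_nhds.2 fun i => ?_)
      rw [tendsto_iff_norm_sub_tendsto_zero]
      have h1 : Tendsto (fun j => Real.sqrt (R (ns j) ω)) atTop (𝓝 0) := by
        have := (Real.continuous_sqrt.tendsto 0).comp hω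
        rw [Real.sqrt_zero] at this
        exact this
      refine squeeze_zero (fun _ => norm_nonneg _) (fun j => ?_) h1
      rw [Real.norm_eq_abs]
      refine Real.le_sqrt_of_sq_le ?_
      rw [sq_abs]
      exact Finset.single_le_sum (f := fun i => (Yn (ns j) ω i - y ω i) ^ 2)
        (fun i _ => sq_nonneg _) (Finset.mem_univ i)
  have hc' : Tendsto (fun j => ∫ ω, f (Yn (ns j) ω) ∂P) atTop (𝓝 c) :=
    tendsto_const_nhds.congr' (by
      filter_upwards [hns.tendsto_atTop.eventually hc] with j hj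
      exact hj.symm)
  exact tendsto_nhds_unique hlim hc'

section

variable {V : Type*}

/-- consistency of the densities in the volume -/
theorem den_consistency (G : SimpleGraph V) (hT : G.IsTree) (θ : ℝ) (D D' : Finset V)
    (hD : (G.induce (D : Set V)).Connected) (hD' : (G.induce (D' : Set V)).Connected)
    (hDD : D ⊆ D') (M M' : Sys (Finset V) (V × ℕ)) (hM : M.T = D.powerset)
    (hM' : M'.T = D'.powerset) (hμ : M.μ = isw G θ D) (hμ' : M'.μ = isw G θ D')
    (hκ : M'.κ = M.κ) (hx : ∀ S e, M.x S e = sg (cfg S e.1))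
    (hx' : ∀ S e, M'.x S e = sg (cfg S e.1)) (A : Finset (V × ℕ)) (hA : ∀ e ∈ A, e.1 ∈ D)
    (y : V × ℕ → ℝ) : M'.den A y = M.den A y := by
  classical
  unfold Sys.den Sys.lik
  rw [hM, hM', hμ, hμ', hκ]
  simp only [hx, hx']
  rw [← isw_marginal G hT θ D D' hD hD' hDD
    (fun S => ∏ e ∈ A, (1 + M.κ * sg (cfg S e.1) * (2 * y e - 1)))]
  refine Finset.sum_congr rfl fun S _ => ?_
  congr 1
  refine Finset.prod_congr rfl fun e he => ?_
  have : cfg (S ∩ D) e.1 = cfg S e.1 := by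
    simp [cfg, hA e he]
  rw [this]

/-- law of the finite-volume observations for fixed keys -/
theorem F_law [Countable V] {R : Type*} [LinearOrder R] (G : SimpleGraph V) (hT : G.IsTree)
    {θ κ : ℝ} (h0 : 0 ≤ θ) (h1 : θ < 1)
    (hκ : 0 ≤ κ) (hκ1 : κ < 1) (D D' : Finset V) (hD : (G.induce (D : Set V)).Connected)
    (hD' : (G.induce (D' : Set V)).Connected) (hDD : D ⊆ D') (N : ℕ) (r : V × ℕ → R)
    (hr : Set.InjOn r (evs D' N)) (f : (D × Fin N → ℝ) → ℝ) (hf : Measurable f)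
    (hb : ∃ C, ∀ z, |f z| ≤ C) :
    ∫ w, f (rs D N ((isys G hT h0 h1 hκ hκ1 D' hD').F r (evs D' N) (cw w))) ∂(noise (V × ℕ)) =
      ∫ z, f (rs D N (cw z)) * (isys G hT h0 h1 hκ hκ1 D hD).den (evs D N) (cw z)
        ∂(noise (V × ℕ)) := by
  obtain ⟨C, hC⟩ := hb
  have hrs : Measurable (rs D N : (V × ℕ → ℝ) → D × Fin N → ℝ) := by
    unfold rs
    exact measurable_pi_iff.2 fun i => measurable_pi_apply _
  have hloc : ∀ y y' : V × ℕ → ℝ, (∀ e ∈ evs D N, y e = y' e) →
      f (rs D N y) = f (rs D N y') := by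
    intro y y' h
    congr 1
    funext i
    refine h _ ?_
    unfold evs
    exact Finset.mem_product.2 ⟨i.1.2, Finset.mem_range.2 i.2.2⟩
  have hsub : evs D N ⊆ evs D' N := by
    unfold evs
    exact Finset.product_subset_product_left hDD
  rw [law_F (isys G hT h0 h1 hκ hκ1 D' hD') r (evs D' N) hr (fun z => f (rs D N z))
    (hf.comp hrs) ⟨C, fun _ => hC _⟩ (fun y y' h => hloc y y' fun e he => h e (hsub he))]
  rw [den_marginal (isys G hT h0 h1 hκ hκ1 D' hD') (evs D N) (evs D' N) hsub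
    (fun z => f (rs D N z)) (hf.comp hrs) ⟨C, fun _ => hC _⟩ hloc]
  refine integral_congr_ae (ae_of_all _ fun z => ?_)
  simp only
  rw [den_consistency G hT θ D D' hD hD' hDD (isys G hT h0 h1 hκ hκ1 D hD)
    (isys G hT h0 h1 hκ hκ1 D' hD') rfl rfl rfl rfl rfl (fun _ _ => rfl) (fun _ _ => rfl)
    (evs D N) (fun e he => (Finset.mem_product.1 he).1)]

theorem rk_injOn {L : V → ℝ} (hL : Function.Injective L) (A : Finset (V × ℕ)) :
    Set.InjOn (rk L) A := by
  intro e _ e' _ h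
  unfold rk at h
  have h1 : (e.2, L e.1) = (e'.2, L e'.1) := toLex.injective h
  have h2 := congrArg Prod.fst h1
  have h3 := congrArg Prod.snd h1
  exact Prod.ext (hL h3) h2

theorem meas_rk_gen {Ω : Type*} [MeasurableSpace Ω] (k : Ω → V → ℝ)
    (hk : ∀ v, Measurable fun ω => k ω v) (e f : V × ℕ) :
    MeasurableSet {ω | @LT.lt (ℕ ×ₗ ℝ) (Preorder.toLT) (rk (k ω) e) (rk (k ω) f)} := by
  have : {ω | @LT.lt (ℕ ×ₗ ℝ) (Preorder.toLT) (rk (k ω) e) (rk (k ω) f)} =
      {ω | e.2 < f.2 ∨ (e.2 = f.2 ∧ k ω e.1 < k ω f.1)} := by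
    ext ω
    simp only [rk, Prod.Lex.toLex_lt_toLex, Set.mem_ofPred_eq]
  rw [this]
  by_cases h1 : e.2 < f.2
  · simp [h1]
  · by_cases h2 : e.2 = f.2
    · simp only [h2, true_and, false_or, lt_irrefl]
      exact measurableSet_lt (hk _) (hk _)
    · simp [h1, h2]

theorem measF_gen {Ω : Type*} [MeasurableSpace Ω] [Countable V] (M : Sys (Finset V) (V × ℕ))
    (k : Ω → V → ℝ) (hk : ∀ v, Measurable fun ω => k ω v) (A : Finset (V × ℕ))
    (w : Ω → V × ℕ → ℝ) (hw : Measurable w) :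
    Measurable (fun ω => M.F (rk (k ω)) A (w ω)) :=
  measurable_F M (fun ω => rk (k ω)) (fun e f => meas_rk_gen k hk e f) A w hw

/-- keys as real numbers -/
def kkL (p : (V → unitInterval) × (V × ℕ → unitInterval)) (v : V) : ℝ := (p.1 v : ℝ)

/-- the noise as real numbers -/
def wwL (p : (V → unitInterval) × (V × ℕ → unitInterval)) : V × ℕ → ℝ := cw p.2

theorem measurable_FL [Countable V] (M : Sys (Finset V) (V × ℕ)) (A : Finset (V × ℕ)) :
    Measurable (fun p : (V → unitInterval) × (V × ℕ → unitInterval) =>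
      M.F (rk (kkL p)) A (wwL p)) := by
  have hk : ∀ v : V, Measurable (fun p : (V → unitInterval) × (V × ℕ → unitInterval) =>
      kkL p v) :=
    fun v => measurable_subtype_coe.comp ((measurable_pi_apply v).comp measurable_fst)
  have hw : Measurable (wwL : (V → unitInterval) × (V × ℕ → unitInterval) → V × ℕ → ℝ) :=
    measurable_cw'.comp measurable_snd
  exact measF_gen M kkL hk A wwL hw

theorem measurable_rs (D : Finset V) (N : ℕ) :
    Measurable (rs D N : (V × ℕ → ℝ) → D × Fin N → ℝ) := by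
  unfold rs
  exact measurable_pi_iff.2 fun i => measurable_pi_apply _

/-- averaging over the keys -/
theorem key_avg [Countable V] (M : Sys (Finset V) (V × ℕ)) (A : Finset (V × ℕ))
    (g : (V × ℕ → ℝ) → ℝ) (hg : Measurable g) (C : ℝ) (hC : ∀ z, |g z| ≤ C) (c : ℝ)
    (h : ∀ L : V → ℝ, Function.Injective L → ∫ W, g (M.F (rk L) A (cw W)) ∂(noise (V × ℕ)) = c) :
    ∫ ω, g (M.F (rk (key ω)) A (cw (evn ω))) ∂(noiseV V) = c := by
  have h3 := integral_noiseV (V := V) (fun L W => g (M.F (rk (kkL (L, W))) A (wwL (L, W))))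
    (hg.comp (measurable_FL M A)) ⟨C, fun _ _ => hC _⟩
  have h4 : ∀ᵐ L ∂(noise V),
      ∫ W, g (M.F (rk (kkL (L, W))) A (wwL (L, W))) ∂(noise (V × ℕ)) = c := by
    filter_upwards [ae_key_injective (V := V)] with L hL
    exact h (fun v => ((L v : unitInterval) : ℝ)) hL
  rw [integral_congr_ae h4, integral_const] at h3
  simp only [probReal_univ, smul_eq_mul, one_mul] at h3
  exact h3

/-- law of the finite-volume observations -/
theorem YD_law [Countable V] (G : SimpleGraph V) (hT : G.IsTree)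
    {θ κ : ℝ} (h0 : 0 ≤ θ) (h1 : θ < 1)
    (hκ : 0 ≤ κ) (hκ1 : κ < 1) (D D' : Finset V) (hD : (G.induce (D : Set V)).Connected)
    (hD' : (G.induce (D' : Set V)).Connected) (hDD : D ⊆ D') (N : ℕ)
    (f : (D × Fin N → ℝ) → ℝ) (hf : Measurable f) (C : ℝ) (hC : ∀ z, |f z| ≤ C) :
    ∫ ω, f (rs D N ((isys G hT h0 h1 hκ hκ1 D' hD').F (rk (key ω)) (evs D' N) (cw (evn ω))))
      ∂(noiseV V) =
      ∫ z, f (rs D N (cw z)) * (isys G hT h0 h1 hκ hκ1 D hD).den (evs D N) (cw z)
        ∂(noise (V × ℕ)) :=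
  key_avg (isys G hT h0 h1 hκ hκ1 D' hD') (evs D' N) (fun z => f (rs D N z))
    (hf.comp (measurable_rs D N)) C (fun _ => hC _) _ fun L hL =>
    F_law G hT h0 h1 hκ hκ1 D D' hD hD' hDD N (rk L) (rk_injOn hL _) f hf ⟨C, hC⟩

/-- the cylinder formula for the recovered spins of the limit field -/
theorem cyl_of_limit [Countable V] (G : SimpleGraph V) (hT : G.IsTree)
    (hfin : ∀ v, (G.neighborSet v).Finite) {θ κ : ℝ} (h0 : 0 ≤ θ) (h1 : θ < 1)
    (hκ : 0 ≤ κ) (hκ1 : κ < 1) (hκ0 : 0 < κ)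
    (y : V × ℕ → (V → ℕ → unitInterval) → ℝ) (hy : ∀ e, Measurable (y e))
    (hyI : ∀ e ω, y e ω ∈ Set.Icc (0 : ℝ) 1)
    (hlim : ∀ e : V × ℕ, ∀ ε > 0, ∃ D0 : Finset V, e.1 ∈ D0 ∧ ∀ (D : Finset V)
        (hD : (G.induce (D : Set V)).Connected), D0 ⊆ D → ∀ N, e.2 < N →
        ∫ ω, ((isys G hT h0 h1 hκ hκ1 D hD).F (rk (key ω)) (evs D N) (cw (evn ω)) e
          - y e ω) ^ 2 ∂(noiseV V) ≤ ε)
    (D : Finset V) (hD : (G.induce (D : Set V)).Connected) (η : V → Bool) :
    (noiseV V).real {ω | ∀ v ∈ D, recov (fun k => y (v, k) ω) = η v} =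
      1 / 2 * ∏ e ∈ edgesIn G D, ew θ η e := by
  classical
  have hmain := sign_law (noiseV V) (isys G hT h0 h1 hκ hκ1 D hD) D rfl (fun _ _ => rfl) hκ0 y hy
    ?_ η
  · rw [hmain]
    change isw G θ D (D.filter fun v => η v = true) = _
    unfold isw
    congr 1
    refine Finset.prod_congr rfl fun e he => ?_
    have heD := (Finset.mem_filter.1 he).1
    induction e using Sym2.ind with
    | _ u v =>
      have hu : u ∈ D := (Finset.mk_mem_sym2_iff.1 heD).1
      have hv : v ∈ D := (Finset.mk_mem_sym2_iff.1 heD).2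
      have e1 : cfg (D.filter fun v => η v = true) u = η u := by
        simp only [cfg, Finset.mem_filter, hu, true_and]
        cases η u <;> simp
      have e2 : cfg (D.filter fun v => η v = true) v = η v := by
        simp only [cfg, Finset.mem_filter, hv, true_and]
        cases η v <;> simp
      simp only [ew, Sym2.lift_mk, e1, e2]
  · intro N f hf hb
    obtain ⟨C, hC⟩ := hb
    obtain ⟨v0⟩ : Nonempty V := by
      obtain ⟨v⟩ := hD.nonempty
      exact ⟨v.1⟩
    have hconn : ∀ F : Finset V, ∃ D' : Finset V, F ⊆ D' ∧ (G.induce (D' : Set V)).Connected := by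
      intro F
      obtain ⟨n, hn⟩ := cball_exhaust hT hfin v0 F
      exact ⟨_, hn, cball_connected hT hfin v0 n⟩
    have hch : ∀ n : ℕ, ∃ D' : Finset V, D ⊆ D' ∧ ∃ hD' : (G.induce (D' : Set V)).Connected,
        ∀ i : D × Fin N, ∫ ω, ((isys G hT h0 h1 hκ hκ1 D' hD').F (rk (key ω)) (evs D' N)
          (cw (evn ω)) ((i.1 : V), (i.2 : ℕ)) - y ((i.1 : V), (i.2 : ℕ)) ω) ^ 2 ∂(noiseV V) ≤
          1 / ((n : ℝ) + 1) := by
      intro n
      have h2 : ∀ i : D × Fin N, ∃ D0 : Finset V, ∀ (D' : Finset V)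
          (hD' : (G.induce (D' : Set V)).Connected), D0 ⊆ D' → 
          ∫ ω, ((isys G hT h0 h1 hκ hκ1 D' hD').F (rk (key ω)) (evs D' N)
          (cw (evn ω)) ((i.1 : V), (i.2 : ℕ)) - y ((i.1 : V), (i.2 : ℕ)) ω) ^ 2 ∂(noiseV V) ≤
          1 / ((n : ℝ) + 1) := by
        intro i
        obtain ⟨D0, -, hD0⟩ := hlim ((i.1 : V), (i.2 : ℕ)) (1 / ((n : ℝ) + 1)) (by positivity)
        exact ⟨D0, fun D' hD' hsub => hD0 D' hD' hsub N i.2.2⟩
      choose D0 hD0 using h2
      obtain ⟨D', hD'1, hD'2⟩ := hconn (D ∪ Finset.univ.biUnion D0)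
      refine ⟨D', Finset.union_subset_left hD'1, hD'2, fun i => hD0 i D' hD'2 ?_⟩
      exact (Finset.subset_biUnion_of_mem D0 (Finset.mem_univ i)).trans
        (Finset.union_subset_right hD'1)
    choose Dn hDn hDnc hDn2 using hch
    have hmF : ∀ n, Measurable (fun ω : V → ℕ → unitInterval =>
        (isys G hT h0 h1 hκ hκ1 (Dn n) (hDnc n)).F (rk (key ω)) (evs (Dn n) N) (cw (evn ω))) :=
      fun n => measF_gen _ key (fun v => (measurable_pi_apply v).comp measurable_key) _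
        (fun ω => cw (evn ω)) (measurable_cw'.comp measurable_evn)
    exact eq_of_L2 (noiseV V) (fun n ω => rs D N
      ((isys G hT h0 h1 hκ hκ1 (Dn n) (hDnc n)).F (rk (key ω)) (evs (Dn n) N) (cw (evn ω))))
      (fun ω i => y (i.1, i.2) ω)
      (fun n i => (measurable_pi_apply _).comp (hmF n)) (fun i => hy _)
      (fun n ω i => F_mem _ _ _ _ _) (fun ω i => hyI _ _)
      (fun i => squeeze_zero (fun n => integral_nonneg fun ω => sq_nonneg _)
        (fun n => hDn2 n i) tendsto_one_div_add_atTop_nhds_zero_nat) f hf C hC _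
      (Eventually.of_forall fun n => YD_law G hT h0 h1 hκ hκ1 D (Dn n) hD (hDnc n) (hDn n) N f
        hf.measurable C hC)

/-- the cylinder formula for the recovered spins of the limit field, in terms of `YD` -/
theorem sign_final [Countable V] (G : SimpleGraph V) (hT : G.IsTree)
    (hfin : ∀ v, (G.neighborSet v).Finite) {θ κ : ℝ} (h0 : 0 ≤ θ) (h1 : θ < 1)
    (hκ : 0 ≤ κ) (hκ1 : κ < 1) (hκ0 : 0 < κ)
    (y : V × ℕ → (V → ℕ → unitInterval) → ℝ) (hy : ∀ e, Measurable (y e))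
    (hyI : ∀ e ω, y e ω ∈ Set.Icc (0 : ℝ) 1)
    (hlim : ∀ e : V × ℕ, ∀ ε > 0, ∃ D0 : Finset V, e.1 ∈ D0 ∧ ∀ (D : Finset V)
        (hD : (G.induce (D : Set V)).Connected), D0 ⊆ D → ∀ N, e.2 < N →
        ∫ ω, (YD G hT h0 h1 hκ hκ1 D hD N ω e - y e ω) ^ 2 ∂(noiseV V) ≤ ε)
    (D : Finset V) (hD : (G.induce (D : Set V)).Connected) (η : V → Bool) :
    (noiseV V).real {ω | ∀ v ∈ D, recov (fun k => y (v, k) ω) = η v} =
      1 / 2 * ∏ e ∈ edgesIn G D, ew θ η e :=
  cyl_of_limit G hT hfin h0 h1 hκ hκ1 hκ0 y hy hyI hlim D hD η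

end

end P161
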