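import Vale.Agent.P161.Defs

/-!
# P161: the free Ising measure is unique
-/

open MeasureTheory

namespace P161

variable {V : Type*} {G : SimpleGraph V} {θ : ℝ} {μ ν : Measure (V → Bool)}

theorem IsFreeIsing.map_restrict_connected (h1 : IsFreeIsing G θ μ) (h2 : IsFreeIsing G θ ν)
    {D : Finset V} (hD : (G.induce (D : Set V)).Connected) :
    μ.map D.restrict = ν.map (D.restrict (π := fun _ : V => Bool)) := by
  classical
  have := h1.prob
  have := h2.prob
  have hm : Measurable (D.restrict (π := fun _ : V => Bool)) :=
    measurable_pi_lambda _ (fun _ => measurable_pi_apply _)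
  refine Measure.ext_of_singleton fun η => ?_
  rw [Measure.map_apply hm (measurableSet_singleton η),
    Measure.map_apply hm (measurableSet_singleton η)]
  have he : (D.restrict (π := fun _ : V => Bool)) ⁻¹' {η}
      = {ω : V → Bool | ∀ v ∈ D, ω v = (fun v => if h : v ∈ D then η ⟨v, h⟩ else false) v} := by
    ext ω
    rw [Set.mem_preimage, Set.mem_singleton_iff, Set.mem_ofPred_eq, funext_iff]
    constructor
    · intro h v hv
      have := h ⟨v, hv⟩
      simp only [Finset.restrict] at this
      simp only [hv, dif_pos]
      exact this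
    · rintro h ⟨v, hv⟩
      have := h v hv
      simp only [hv, dif_pos] at this
      exact this
  rw [he]
  have e1 := h1.cyl D hD (fun v => if h : v ∈ D then η ⟨v, h⟩ else false)
  have e2 := h2.cyl D hD (fun v => if h : v ∈ D then η ⟨v, h⟩ else false)
  rw [← e2] at e1
  exact (measureReal_eq_measureReal_iff (measure_ne_top _ _) (measure_ne_top _ _)).1 e1

theorem IsFreeIsing.unique (hG : G.Connected) (h1 : IsFreeIsing G θ μ)
    (h2 : IsFreeIsing G θ ν) : μ = ν := by
  classical
  have := h1.prob
  have := h2.prob
  obtain ⟨v⟩ := hG.nonempty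
  have key : ∀ I : Finset V, ν.map (I.restrict (π := fun _ : V => Bool))
      = μ.map (I.restrict (π := fun _ : V => Bool)) := by
    intro I
    obtain ⟨D, hID, hD⟩ := SimpleGraph.extend_finset_to_connected hG.preconnected
      (t := insert v I) ⟨v, Finset.mem_insert_self v I⟩
    have hID' : I ⊆ D := fun x hx => hID (Finset.mem_insert_of_mem hx)
    have hm : Measurable (D.restrict (π := fun _ : V => Bool)) :=
      measurable_pi_lambda _ (fun _ => measurable_pi_apply _)
    have hm2 : Measurable (Finset.restrict₂ (π := fun _ : V => Bool) hID') :=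
      measurable_pi_lambda _ (fun _ => measurable_pi_apply _)
    have hc : (I.restrict (π := fun _ : V => Bool))
        = Finset.restrict₂ (π := fun _ : V => Bool) hID' ∘ D.restrict := rfl
    rw [hc, ← Measure.map_map hm2 hm, ← Measure.map_map hm2 hm,
      h1.map_restrict_connected h2 hD]
  have hP : IsProjectiveLimit μ (fun I => μ.map (I.restrict (π := fun _ : V => Bool))) :=
    fun I => rfl
  have hP' : IsProjectiveLimit ν (fun I => μ.map (I.restrict (π := fun _ : V => Bool))) :=
    fun I => key I
  exact hP.unique hP'

end P161
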