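import Vale.Agent.P161.Limit
import Vale.Agent.P161.FEquiv
import Vale.Agent.P161.Unique
import Vale.Agent.P161.SignLimit

/-!
# P161: the free Ising measure is a factor of IID
-/

namespace P161

open MeasureTheory ProbabilityTheory Filter Topology

variable {V : Type*} {G : SimpleGraph V}

/-- almost sure equivariance of the infinite volume observations -/
theorem limit_equivariant [Countable V] (hT : G.IsTree) {θ κ : ℝ} (h0 : 0 ≤ θ) (h1 : θ < 1)
    (hκ : 0 ≤ κ) (hκ1 : κ < 1)
    (y : V × ℕ → (V → ℕ → unitInterval) → ℝ) (hy : ∀ e, Measurable (y e))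
    (hy01 : ∀ e ω, y e ω ∈ Set.Icc (0:ℝ) 1)
    (hlim : ∀ e : V × ℕ, ∀ ε > 0, ∃ D0 : Finset V, e.1 ∈ D0 ∧ ∀ (D : Finset V)
      (hD : (G.induce (D : Set V)).Connected), D0 ⊆ D → ∀ N, e.2 < N →
      ∫ ω, (YD G hT h0 h1 hκ hκ1 D hD N ω e - y e ω)^2 ∂(noiseV V) ≤ ε)
    (g : G ≃g G) (e : V × ℕ) :
    ∀ᵐ ω ∂(noiseV V), y (g e.1, e.2) (fun v => ω (g.symm v)) = y e ω := by
  classical
  have hmp : MeasurePreserving (fun (ω : V → ℕ → unitInterval) (v : V) => ω (g.symm v))
      (noiseV V) (noiseV V) := measurePreserving_relabel g.symm.toEquiv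
  have hmy : Measurable (fun ω : V → ℕ → unitInterval =>
      y (g e.1, e.2) (fun v => ω (g.symm v))) := (hy _).comp hmp.measurable
  have hle : ∀ ε > 0, ∫ ω, (y (g e.1, e.2) (fun v => ω (g.symm v)) - y e ω) ^ 2 ∂(noiseV V)
      ≤ ε := by
    intro ε hε
    obtain ⟨D1, hD1, hD1'⟩ := hlim e (ε / 4) (by positivity)
    obtain ⟨D2, hD2, hD2'⟩ := hlim (g e.1, e.2) (ε / 4) (by positivity)
    obtain ⟨D, hDs, hD⟩ := exists_conn G hT (D1 ∪ D2.map (gem g.symm))
    have hD' := connected_gem g hD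
    have hsub : D2 ⊆ D.map (gem g) := by
      intro v hv
      have h2 : g.symm v ∈ D := hDs (Finset.mem_union_right _ (by
        have := Finset.mem_map_of_mem (gem g.symm) hv
        rwa [gem_apply] at this))
      have h3 := Finset.mem_map_of_mem (gem g) h2
      rw [gem_apply] at h3
      have h4 : g (g.symm v) = v := g.apply_symm_apply v
      rwa [h4] at h3
    have e1 := hD1' D hD (Finset.subset_union_left.trans hDs) (e.2 + 1) (by omega)
    have e2 := hD2' (D.map (gem g)) hD' hsub (e.2 + 1) (by simp)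
    have he : e ∈ evs D (e.2 + 1) :=
      mem_evs.2 ⟨hDs (Finset.mem_union_left _ hD1), by omega⟩
    have hY : ∀ ω : V → ℕ → unitInterval,
        YD G hT h0 h1 hκ hκ1 (D.map (gem g)) hD' (e.2 + 1) (fun v => ω (g.symm v)) (g e.1, e.2)
          = YD G hT h0 h1 hκ hκ1 D hD (e.2 + 1) ω e := fun ω =>
      isys_F_gem hT h0 h1 hκ hκ1 D hD g hD' (e.2 + 1) ω e he
    -- transport the second estimate
    have e3 : ∫ ω, (y (g e.1, e.2) (fun v => ω (g.symm v))
        - YD G hT h0 h1 hκ hκ1 D hD (e.2 + 1) ω e) ^ 2 ∂(noiseV V) ≤ ε / 4 := by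
      have h5 : ∫ ω, (YD G hT h0 h1 hκ hκ1 (D.map (gem g)) hD' (e.2 + 1)
            (fun v => ω (g.symm v)) (g e.1, e.2)
          - y (g e.1, e.2) (fun v => ω (g.symm v))) ^ 2 ∂(noiseV V)
          = ∫ ω, (YD G hT h0 h1 hκ hκ1 (D.map (gem g)) hD' (e.2 + 1) ω (g e.1, e.2)
          - y (g e.1, e.2) ω) ^ 2 ∂(noiseV V) := by
        have hm : Measurable (fun ω => (YD G hT h0 h1 hκ hκ1 (D.map (gem g)) hD' (e.2 + 1) ω
            (g e.1, e.2) - y (g e.1, e.2) ω) ^ 2) :=
          ((measurable_YD G hT h0 h1 hκ hκ1 _ hD' _ _).sub (hy _)).pow_const 2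
        have h6 := integral_map (μ := noiseV V) hmp.measurable.aemeasurable
          (f := fun ω => (YD G hT h0 h1 hκ hκ1 (D.map (gem g)) hD' (e.2 + 1) ω
            (g e.1, e.2) - y (g e.1, e.2) ω) ^ 2) hm.aestronglyMeasurable
        rw [hmp.map_eq] at h6
        exact h6.symm
      rw [← h5] at e2
      refine le_trans (le_of_eq ?_) e2
      refine integral_congr_ae (Eventually.of_forall fun ω => ?_)
      simp only [hY]
      ring
    have e4 : ∫ ω, (y e ω - YD G hT h0 h1 hκ hκ1 D hD (e.2 + 1) ω e) ^ 2 ∂(noiseV V)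
        ≤ ε / 4 := by
      refine le_trans (le_of_eq ?_) e1
      refine integral_congr_ae (Eventually.of_forall fun ω => ?_)
      ring
    have h7 := integral_sq_triangle (P := noiseV V) hmy (hy e)
      (measurable_YD G hT h0 h1 hκ hκ1 D hD (e.2 + 1) e) (fun ω => hy01 _ _)
      (fun ω => hy01 _ _) (fun ω => YD_mem G hT h0 h1 hκ hκ1 D hD _ ω e)
    linarith
  have h0' : ∫ ω, (y (g e.1, e.2) (fun v => ω (g.symm v)) - y e ω) ^ 2 ∂(noiseV V) = 0 :=
    le_antisymm (le_of_forall_pos_le_add fun ε hε => by simpa using hle ε hε)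
      (integral_nonneg fun ω => sq_nonneg _)
  have hint : Integrable (fun ω => (y (g e.1, e.2) (fun v => ω (g.symm v)) - y e ω) ^ 2)
      (noiseV V) :=
    integrable_of_mem ((hmy.sub (hy e)).pow_const 2) (C := 1) fun ω =>
      abs_sq_sub_le (hy01 _ _) (hy01 _ _)
  have h8 := (integral_eq_zero_iff_of_nonneg (fun ω => sq_nonneg _) hint).1 h0'
  filter_upwards [h8] with ω hω
  have h9 : (y (g e.1, e.2) (fun v => ω (g.symm v)) - y e ω) ^ 2 = 0 := hω
  have h10 := pow_eq_zero_iff (two_ne_zero) |>.1 h9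
  linarith

/-- one uniform label produces a sequence of iid uniform labels -/
theorem exists_psi : ∃ ψ : unitInterval → (ℕ → unitInterval), Measurable ψ ∧
    (volume : Measure unitInterval).map ψ = noise ℕ :=
  MeasureTheory.Measure.exists_measurable_map_eq _

theorem map_labels (ψ : unitInterval → (ℕ → unitInterval)) (hψ : Measurable ψ)
    (hlaw : (volume : Measure unitInterval).map ψ = noise ℕ) :
    (iidLabels V).map (fun (U : V → unitInterval) (v : V) => ψ (U v)) = noiseV V := by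
  have h1 := Measure.infinitePi_map_pi (fun _ : V => (volume : Measure unitInterval))
    (f := fun _ => ψ) (fun _ => hψ)
  simp only [hlaw] at h1
  exact h1

theorem countable_of_tree (hT : G.IsTree) (hfin : ∀ v, (G.neighborSet v).Finite) : Countable V := by
  obtain ⟨v⟩ := hT.connected.nonempty
  have h : (Set.univ : Set V) = ⋃ n : ℕ, {w | G.dist v w ≤ n} := by
    ext w
    simp only [Set.mem_univ, Set.mem_iUnion, Set.mem_ofPred_eq, true_iff]
    exact ⟨G.dist v w, le_rfl⟩
  rw [← Set.countable_univ_iff, h]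
  exact Set.countable_iUnion fun n => (ball_finite hT hfin v n).countable

/-- **The free Ising measure on a tree of maximal degree at most `d` is a factor of IID as soon
as `(d-1) θ² < 1`**; in particular such a measure exists. -/
theorem exists_fiid (hT : G.IsTree) (d : ℕ)
    (hfin : ∀ v, (G.neighborSet v).Finite) (hd : ∀ v, (G.neighborSet v).ncard ≤ d) (hd2 : 2 ≤ d)
    {θ : ℝ} (h0 : 0 ≤ θ) (h1 : θ < 1) (h2 : θ ^ 2 * (d - 1) < 1) :
    ∃ μ : Measure (V → Bool), IsFreeIsing G θ μ ∧ IsFactorOfIID G μ := by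
  have : Countable V := countable_of_tree hT hfin
  obtain ⟨κ, hκ, hκ1, hκpos, y, hy, hy01, hlim⟩ := exists_limit G hT d hfin hd hd2 h0 h1 h2
  obtain ⟨ψ, hψ, hψlaw⟩ := exists_psi
  let S : (V → ℕ → unitInterval) → (V → Bool) := fun ω v => recov (fun k => y (v, k) ω)
  have hS : Measurable S := by
    rw [measurable_pi_iff]
    intro v
    refine measurable_recov.comp ?_
    rw [measurable_pi_iff]
    intro k
    exact hy (v, k)
  let Λ : (V → unitInterval) → (V → ℕ → unitInterval) := fun U v => ψ (U v)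
  have hΛ : Measurable Λ := by
    rw [measurable_pi_iff]
    intro v
    exact hψ.comp (measurable_pi_apply v)
  have hΛmap : (iidLabels V).map Λ = noiseV V := map_labels ψ hψ hψlaw
  refine ⟨(noiseV V).map S, ⟨?_, ?_⟩, ⟨fun U => S (Λ U), hS.comp hΛ, ?_, ?_⟩⟩
  · exact Measure.isProbabilityMeasure_map hS.aemeasurable
  · intro D hD η
    have hset : MeasurableSet {ω : V → Bool | ∀ v ∈ D, ω v = η v} := by
      have : {ω : V → Bool | ∀ v ∈ D, ω v = η v} = ⋂ v ∈ D, {ω : V → Bool | ω v = η v} := by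
        ext ω; simp
      rw [this]
      exact Finset.measurableSet_biInter _ fun v _ =>
        measurableSet_eq_fun (measurable_pi_apply v) measurable_const
    rw [measureReal_def, Measure.map_apply hS hset]
    exact sign_final G hT hfin h0 h1 hκ hκ1 hκpos y hy hy01 hlim D hD η
  · intro g
    have hae : ∀ᵐ ω ∂(noiseV V), ∀ e : V × ℕ,
        y (g e.1, e.2) (fun v => ω (g.symm v)) = y e ω :=
      ae_all_iff.2 fun e => limit_equivariant hT h0 h1 hκ hκ1 y hy hy01 hlim g e
    rw [← hΛmap] at hae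
    have hae2 := ae_of_ae_map hΛ.aemeasurable hae
    filter_upwards [hae2] with U hU
    funext v
    show recov (fun k => y (v, k) (Λ (fun v => U (g.symm v))))
      = recov (fun k => y (g.symm v, k) (Λ U))
    congr 1
    funext k
    have h3 := hU (g.symm v, k)
    have h4 : g (g.symm v) = v := g.apply_symm_apply v
    simp only [h4] at h3
    exact h3
  · rw [← hΛmap, Measure.map_map hS hΛ]
    rfl

theorem tanh_nonneg' {β : ℝ} (hβ : 0 ≤ β) : 0 ≤ Real.tanh β := by
  rw [Real.tanh_eq_sinh_div_cosh]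
  exact div_nonneg (Real.sinh_nonneg_iff.2 hβ) (Real.cosh_pos β).le

theorem final (G : SimpleGraph V) (hT : G.IsTree) (d : ℕ) (hd3 : 3 ≤ d)
    (hdeg : ∀ v, (G.neighborSet v).ncard = d) (β : ℝ) (hβ : 0 ≤ β)
    (hKS : ((d : ℝ) - 1) * Real.tanh β ^ 2 < 1) :
    (∃! μ : Measure (V → Bool), IsFreeIsing G (Real.tanh β) μ) ∧
      ∀ μ : Measure (V → Bool), IsFreeIsing G (Real.tanh β) μ → IsFactorOfIID G μ := by
  have hfin : ∀ v, (G.neighborSet v).Finite := fun v =>
    Set.finite_of_ncard_ne_zero (by rw [hdeg v]; omega)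
  obtain ⟨μ, hμ, hF⟩ := exists_fiid hT d hfin (fun v => (hdeg v).le) (by omega)
    (tanh_nonneg' hβ) (Real.tanh_lt_one β) (by rw [mul_comm]; exact hKS)
  refine ⟨⟨μ, hμ, fun ν hν => IsFreeIsing.unique hT.connected hν hμ⟩, fun ν hν => ?_⟩
  rw [IsFreeIsing.unique hT.connected hν hμ]
  exact hF

end P161
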