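import Vale.Agent.P161.Channel
import Vale.Agent.P161.Solve

/-! # P161: influences of the noise variables -/

namespace P161

/-- influences -/
theorem F_lip {S E R : Type*} [LinearOrder R] (M : Sys S E) (r : E → R) (A : Finset E)
    (k a : E → E → ℝ)
    (ha : ∀ e f, 0 ≤ a e f) (hk : ∀ e f, 0 ≤ k e f)
    (hpost : ∀ e ∈ A, ∀ B ⊆ A, ∀ y y' : E → ℝ, (∀ f, y f ∈ Set.Icc (0 : ℝ) 1) →
      (∀ f, y' f ∈ Set.Icc (0 : ℝ) 1) →
      |M.post B y e - M.post B y' e| ≤ ∑ f ∈ B, k e f * |y f - y' f|)
    (hrec : ∀ e ∈ A, ∀ f ∈ A,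
      M.κ / (4 * (1 - M.κ)) * ∑ g ∈ Sys.past r A e, k e g * a g f ≤ a e f / 2)
    (hdiag : ∀ e ∈ A, 1 / (1 - M.κ) ≤ a e e / 2) :
    ∀ e ∈ A, ∀ w w' : E → unitInterval,
      |M.F r A (cw w) e - M.F r A (cw w') e| ≤ ∑ f ∈ A, a e f * |(w f : ℝ) - w' f| := by
  have hκ := M.κ_nonneg
  have hκ1 := M.κ_lt
  have h1κ : 0 < 1 - M.κ := by linarith
  have key : ∀ n : ℕ, ∀ e ∈ A, (Sys.past r A e).card = n → ∀ w w' : E → unitInterval,
      |M.F r A (cw w) e - M.F r A (cw w') e| ≤ ∑ f ∈ A, a e f * |(w f : ℝ) - w' f| := by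
    intro n
    induction n using Nat.strong_induction_on with
    | _ n ih =>
      intro e he hn w w'
      have hpast : Sys.past r A e ⊆ A := Finset.filter_subset _ _
      -- bound for the past
      have hg : ∀ g ∈ Sys.past r A e,
          |M.F r A (cw w) g - M.F r A (cw w') g| ≤ ∑ f ∈ A, a g f * |(w f : ℝ) - w' f| := by
        intro g hgp
        have hgA : g ∈ A := hpast hgp
        have hlt : r g < r e := (Finset.mem_filter.mp hgp).2
        have hss : Sys.past r A g ⊂ Sys.past r A e := by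
          refine Finset.ssubset_iff_subset_ne.mpr ⟨fun f hf => ?_, fun heq => ?_⟩
          · exact Finset.mem_filter.mpr ⟨(Finset.mem_filter.mp hf).1,
              ((Finset.mem_filter.mp hf).2).trans hlt⟩
          · have : g ∈ Sys.past r A g := heq ▸ hgp
            exact lt_irrefl _ (Finset.mem_filter.mp this).2
        exact ih _ (by rw [← hn]; exact Finset.card_lt_card hss) g hgA rfl w w'
      have hm1 := post_abs M (Sys.past r A e) (M.F r A (cw w)) (fun f => F_mem M r A w f) e
      have hm2 := post_abs M (Sys.past r A e) (M.F r A (cw w')) (fun f => F_mem M r A w' f) e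
      have hpl := hpost e he (Sys.past r A e) hpast (M.F r A (cw w)) (M.F r A (cw w'))
        (fun f => F_mem M r A w f) (fun f => F_mem M r A w' f)
      have hdiff : |M.post (Sys.past r A e) (M.F r A (cw w)) e
          - M.post (Sys.past r A e) (M.F r A (cw w')) e|
          ≤ ∑ f ∈ A, (∑ g ∈ Sys.past r A e, k e g * a g f) * |(w f : ℝ) - w' f| := by
        refine hpl.trans ?_
        calc ∑ g ∈ Sys.past r A e, k e g * |M.F r A (cw w) g - M.F r A (cw w') g|
            ≤ ∑ g ∈ Sys.past r A e, k e g * ∑ f ∈ A, a g f * |(w f : ℝ) - w' f| :=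
              Finset.sum_le_sum fun g hgp => mul_le_mul_of_nonneg_left (hg g hgp) (hk e g)
          _ = ∑ f ∈ A, (∑ g ∈ Sys.past r A e, k e g * a g f) * |(w f : ℝ) - w' f| := by
              simp only [Finset.mul_sum, Finset.sum_mul]
              rw [Finset.sum_comm]
              refine Finset.sum_congr rfl fun f _ => Finset.sum_congr rfl fun g _ => ?_
              ring
      have hQ := Qf_lip hκ hκ1 hm1 hm2 (w e).2 (w' e).2
      have e1 := F_eq M r A (cw w) e
      have e2 := F_eq M r A (cw w') e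
      have hcw : cw w e = (w e : ℝ) := rfl
      have hcw' : cw w' e = (w' e : ℝ) := rfl
      rw [e1, e2, hcw, hcw']
      refine hQ.trans ?_
      have h3 : (|(w e : ℝ) - w' e| + M.κ / 4 * |M.post (Sys.past r A e) (M.F r A (cw w)) e
          - M.post (Sys.past r A e) (M.F r A (cw w')) e|) / (1 - M.κ)
          ≤ 1 / (1 - M.κ) * |(w e : ℝ) - w' e| + ∑ f ∈ A, (M.κ / (4 * (1 - M.κ))
            * ∑ g ∈ Sys.past r A e, k e g * a g f) * |(w f : ℝ) - w' f| := by
        have h4 : M.κ / 4 * |M.post (Sys.past r A e) (M.F r A (cw w)) e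
          - M.post (Sys.past r A e) (M.F r A (cw w')) e| ≤ M.κ / 4 *
          ∑ f ∈ A, (∑ g ∈ Sys.past r A e, k e g * a g f) * |(w f : ℝ) - w' f| :=
          mul_le_mul_of_nonneg_left hdiff (by positivity)
        calc _ ≤ (|(w e : ℝ) - w' e| + M.κ / 4 *
          ∑ f ∈ A, (∑ g ∈ Sys.past r A e, k e g * a g f) * |(w f : ℝ) - w' f|) / (1 - M.κ) := by
              gcongr
          _ = _ := by
              rw [add_div, Finset.mul_sum, Finset.sum_div]
              congr 1
              · ring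
              · refine Finset.sum_congr rfl fun f _ => ?_
                field_simp
      refine h3.trans ?_
      have h5 : 1 / (1 - M.κ) * |(w e : ℝ) - w' e| ≤ ∑ f ∈ A, a e f / 2 * |(w f : ℝ) - w' f| := by
        refine (mul_le_mul_of_nonneg_right (hdiag e he) (abs_nonneg _)).trans ?_
        exact Finset.single_le_sum (f := fun f => a e f / 2 * |(w f : ℝ) - w' f|)
          (fun f _ => mul_nonneg (by linarith [ha e f]) (abs_nonneg _)) he
      have h6 : ∑ f ∈ A, (M.κ / (4 * (1 - M.κ))
            * ∑ g ∈ Sys.past r A e, k e g * a g f) * |(w f : ℝ) - w' f|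
            ≤ ∑ f ∈ A, a e f / 2 * |(w f : ℝ) - w' f| :=
        Finset.sum_le_sum fun f hf => mul_le_mul_of_nonneg_right (hrec e he f hf) (abs_nonneg _)
      calc _ ≤ ∑ f ∈ A, a e f / 2 * |(w f : ℝ) - w' f|
            + ∑ f ∈ A, a e f / 2 * |(w f : ℝ) - w' f| := add_le_add h5 h6
        _ = ∑ f ∈ A, a e f * |(w f : ℝ) - w' f| := by
            rw [← Finset.sum_add_distrib]
            exact Finset.sum_congr rfl fun f _ => by ring
  intro e he
  exact key _ e he rfl

end P161
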