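import Vale.Agent.P161.ISys
import Vale.Agent.P161.Tree
import Vale.Agent.P161.SolveLip

/-!
# P161, module M7c: influences of the noise in the Ising system
-/

open SimpleGraph Finset

namespace P161

variable {V : Type*}

theorem past_snd_le {L : V → ℝ} {A : Finset (V × ℕ)} {e g : V × ℕ}
    (hg : g ∈ Sys.past (rk L) A e) : g.2 ≤ e.2 := by
  unfold Sys.past at hg
  rw [Finset.mem_filter] at hg
  have h := hg.2
  unfold rk at h
  rw [Prod.Lex.toLex_lt_toLex] at h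
  rcases h with h | h
  · exact h.le
  · exact h.1.le

theorem sum_two_pow_le (n : ℕ) : ∑ j ∈ Finset.range (n + 1), (2 : ℝ) ^ j ≤ 2 * 2 ^ n := by
  induction n with
  | zero => simp
  | succ n ih =>
    rw [Finset.sum_range_succ, pow_succ]
    linarith [show (0 : ℝ) < 2 ^ n by positivity]

/-- summation over the events of the past -/
theorem sum_past_le (G : SimpleGraph V) {θ ρ C : ℝ} (h0 : 0 ≤ θ) (hρ0 : 0 ≤ ρ)
    (D : Finset V) (L : V → ℝ) (N : ℕ) (e f : V × ℕ)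
    (hC : ∑ u ∈ D, θ ^ (G.dist e.1 u) * ρ ^ (G.dist u f.1) ≤ C * ρ ^ (G.dist e.1 f.1)) :
    ∑ g ∈ Sys.past (rk L) (evs D N) e,
      θ ^ (G.dist e.1 g.1) * (2 ^ g.2 * ρ ^ (G.dist g.1 f.1)) ≤
      2 * 2 ^ e.2 * (C * ρ ^ (G.dist e.1 f.1)) := by
  classical
  have hsub : Sys.past (rk L) (evs D N) e ⊆ D ×ˢ Finset.range (e.2 + 1) := by
    intro g hg
    have h1 := past_snd_le hg
    unfold Sys.past evs at hg
    rw [Finset.mem_filter, Finset.mem_product] at hg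
    rw [Finset.mem_product, Finset.mem_range]
    exact ⟨hg.1.1, by omega⟩
  have hnn : ∀ g : V × ℕ, 0 ≤ θ ^ (G.dist e.1 g.1) * (2 ^ g.2 * ρ ^ (G.dist g.1 f.1)) := by
    intro g
    exact mul_nonneg (pow_nonneg h0 _) (mul_nonneg (by positivity) (pow_nonneg hρ0 _))
  refine (Finset.sum_le_sum_of_subset_of_nonneg hsub fun g _ _ => hnn g).trans ?_
  rw [Finset.sum_product_right]
  have h1 : ∀ j ∈ Finset.range (e.2 + 1),
      (∑ u ∈ D, θ ^ (G.dist e.1 (u, j).1) * (2 ^ (u, j).2 * ρ ^ (G.dist (u, j).1 f.1))) ≤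
        2 ^ j * (C * ρ ^ (G.dist e.1 f.1)) := by
    intro j _
    have h2 : (∑ u ∈ D, θ ^ (G.dist e.1 (u, j).1) * (2 ^ (u, j).2 * ρ ^ (G.dist (u, j).1 f.1)))
        = 2 ^ j * ∑ u ∈ D, θ ^ (G.dist e.1 u) * ρ ^ (G.dist u f.1) := by
      rw [Finset.mul_sum]
      refine Finset.sum_congr rfl fun u _ => ?_
      dsimp only
      ring
    rw [h2]
    exact mul_le_mul_of_nonneg_left hC (by positivity)
  refine (Finset.sum_le_sum h1).trans ?_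
  rw [← Finset.sum_mul]
  have hCnn : 0 ≤ C * ρ ^ (G.dist e.1 f.1) :=
    (Finset.sum_nonneg fun u _ => mul_nonneg (pow_nonneg h0 _) (pow_nonneg hρ0 _)).trans hC
  exact mul_le_mul_of_nonneg_right (sum_two_pow_le e.2) hCnn

theorem isys_F_lip (G : SimpleGraph V) (hT : G.IsTree) (d : ℕ)
    (hfin : ∀ v, (G.neighborSet v).Finite) (hd : ∀ v, (G.neighborSet v).ncard ≤ d) (hd2 : 2 ≤ d)
    {θ ρ : ℝ} (h0 : 0 ≤ θ) (h1 : θ < 1) (hθρ : θ < ρ) (hρ : ρ ^ 2 * (d - 1) < 1) :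
    ∃ κ0 : ℝ, 0 < κ0 ∧ ∀ (κ : ℝ) (hκ : 0 ≤ κ) (hκ1 : κ < 1), κ ≤ κ0 →
      ∀ (D : Finset V) (hD : (G.induce (D : Set V)).Connected) (L : V → ℝ) (N : ℕ),
      ∀ e ∈ evs D N, ∀ w w' : V × ℕ → unitInterval,
      |(isys G hT h0 h1 hκ hκ1 D hD).F (rk L) (evs D N) (cw w) e
        - (isys G hT h0 h1 hκ hκ1 D hD).F (rk L) (evs D N) (cw w') e|
      ≤ ∑ f ∈ evs D N, (2 / (1 - κ) * 2 ^ e.2 * ρ ^ (G.dist e.1 f.1)) * |(w f : ℝ) - w' f| := by
  classical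
  obtain ⟨C, hC0, hC⟩ := kernel G hT d hfin hd hd2 h0 hθρ hρ
  have hρ0 : 0 < ρ := h0.trans_lt hθρ
  refine ⟨min (1 / 2) (3 / (16 * (C + 1))), ?_, ?_⟩
  · apply lt_min (by norm_num)
    positivity
  intro κ hκ hκ1 hκ0 D hD L N e he w w'
  have hκ2 : κ ≤ 1 / 2 := hκ0.trans (min_le_left _ _)
  have hκC : κ * (16 * (C + 1)) ≤ 3 := by
    have h3 : κ ≤ 3 / (16 * (C + 1)) := hκ0.trans (min_le_right _ _)
    rwa [le_div_iff₀ (by positivity)] at h3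
  have h1κ : 0 < 1 - κ := by linarith
  have h1κ2 : 0 < 1 - κ ^ 2 := by nlinarith
  refine F_lip (isys G hT h0 h1 hκ hκ1 D hD) (rk L) (evs D N)
    (fun e f => (2 * κ / (1 - κ ^ 2)) * θ ^ (G.dist e.1 f.1))
    (fun e f => 2 / (1 - κ) * 2 ^ e.2 * ρ ^ (G.dist e.1 f.1)) ?_ ?_ ?_ ?_ ?_ e he w w'
  · intro e f
    exact mul_nonneg (mul_nonneg (by positivity) (by positivity)) (pow_nonneg hρ0.le _)
  · intro e f
    exact mul_nonneg (div_nonneg (by positivity) h1κ2.le) (pow_nonneg h0 _)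
  · intro e he B hB y y' hy hy'
    have hmem : ∀ g ∈ evs D N, g.1 ∈ D := by
      intro g hg
      unfold evs at hg
      exact (Finset.mem_product.mp hg).1
    exact isys_post_lip G hT h0 h1 hκ hκ1 D hD B (fun f hf => hmem f (hB hf)) e (hmem e he)
      y y' hy hy'
  · intro e _ f _
    have h4 := sum_past_le G h0 hρ0.le D L N e f (hC e.1 f.1 D)
    show κ / (4 * (1 - κ)) * ∑ g ∈ Sys.past (rk L) (evs D N) e,
      (2 * κ / (1 - κ ^ 2)) * θ ^ (G.dist e.1 g.1) * (2 / (1 - κ) * 2 ^ g.2 * ρ ^ (G.dist g.1 f.1))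
      ≤ 2 / (1 - κ) * 2 ^ e.2 * ρ ^ (G.dist e.1 f.1) / 2
    have h5 : ∑ g ∈ Sys.past (rk L) (evs D N) e,
        (2 * κ / (1 - κ ^ 2)) * θ ^ (G.dist e.1 g.1) *
          (2 / (1 - κ) * 2 ^ g.2 * ρ ^ (G.dist g.1 f.1))
        = (2 * κ / (1 - κ ^ 2)) * (2 / (1 - κ)) * ∑ g ∈ Sys.past (rk L) (evs D N) e,
          θ ^ (G.dist e.1 g.1) * (2 ^ g.2 * ρ ^ (G.dist g.1 f.1)) := by
      rw [Finset.mul_sum]
      refine Finset.sum_congr rfl fun g _ => ?_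
      ring
    rw [h5]
    set P : ℝ := ρ ^ (G.dist e.1 f.1) with hP
    have hP0 : 0 ≤ P := pow_nonneg hρ0.le _
    have h6 : κ / (4 * (1 - κ)) * ((2 * κ / (1 - κ ^ 2)) * (2 / (1 - κ)) *
        ∑ g ∈ Sys.past (rk L) (evs D N) e, θ ^ (G.dist e.1 g.1) * (2 ^ g.2 * ρ ^ (G.dist g.1 f.1)))
        ≤ κ / (4 * (1 - κ)) * ((2 * κ / (1 - κ ^ 2)) * (2 / (1 - κ)) * (2 * 2 ^ e.2 * (C * P))) := by
      apply mul_le_mul_of_nonneg_left _ (by positivity)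
      apply mul_le_mul_of_nonneg_left h4
      exact mul_nonneg (div_nonneg (by positivity) h1κ2.le) (by positivity)
    refine h6.trans ?_
    have h7 : κ / (4 * (1 - κ)) * ((2 * κ / (1 - κ ^ 2)) * (2 / (1 - κ)) * (2 * 2 ^ e.2 * (C * P)))
        = (2 * κ ^ 2 * C / ((1 - κ) * (1 - κ ^ 2))) * (1 / (1 - κ) * 2 ^ e.2 * P) := by
      field_simp
      ring
    have h8 : 2 / (1 - κ) * 2 ^ e.2 * P / 2 = 1 / (1 - κ) * 2 ^ e.2 * P := by ring
    rw [h7, h8]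
    apply mul_le_of_le_one_left (by positivity)
    rw [div_le_one (mul_pos h1κ h1κ2)]
    have h9 : (3 : ℝ) / 8 ≤ (1 - κ) * (1 - κ ^ 2) := by
      have h10 : (1 : ℝ) / 2 ≤ 1 - κ := by linarith
      have h11 : (3 : ℝ) / 4 ≤ 1 - κ ^ 2 := by nlinarith
      nlinarith
    have h12 : 2 * κ ^ 2 * C ≤ 3 / 16 := by
      have h13 : κ * C ≤ 3 / 16 := by nlinarith
      have h14 : 2 * κ ^ 2 * C = (2 * κ) * (κ * C) := by ring
      rw [h14]
      have h15 : 0 ≤ κ * C := mul_nonneg hκ hC0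
      nlinarith
    linarith
  · intro e _
    show 1 / (1 - κ) ≤ 2 / (1 - κ) * 2 ^ e.2 * ρ ^ (G.dist e.1 e.1) / 2
    rw [dist_self, pow_zero, mul_one]
    have h16 : (1 : ℝ) ≤ 2 ^ e.2 := one_le_pow₀ (by norm_num)
    have h17 : 2 / (1 - κ) * 2 ^ e.2 / 2 = 1 / (1 - κ) * 2 ^ e.2 := by ring
    rw [h17]
    exact le_mul_of_one_le_right (by positivity) h16

end P161
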