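import Mathlib

/-!
# P161: limits in `L²` along the net of finite sets satisfying a directed property
-/

namespace P161

open MeasureTheory ProbabilityTheory Filter Topology
open scoped ENNReal

variable {Ω V : Type*} [MeasurableSpace Ω]

theorem sq_sub_le_two {a b c : ℝ} : (a - b) ^ 2 ≤ 2 * (a - c) ^ 2 + 2 * (b - c) ^ 2 := by
  nlinarith [sq_nonneg (a + b - 2 * c)]

theorem integrable_of_mem {P : Measure Ω} [IsProbabilityMeasure P] {f : Ω → ℝ}
    (hf : Measurable f) {C : ℝ} (hb : ∀ ω, |f ω| ≤ C) : Integrable f P :=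
  Integrable.of_bound hf.aestronglyMeasurable C (Eventually.of_forall fun ω => by
    rw [Real.norm_eq_abs]; exact hb ω)

theorem abs_sq_sub_le {a b : ℝ} (ha : a ∈ Set.Icc (0 : ℝ) 1) (hb : b ∈ Set.Icc (0 : ℝ) 1) :
    |(a - b) ^ 2| ≤ 1 := by
  rw [abs_of_nonneg (sq_nonneg _)]
  have h1 : |a - b| ≤ 1 := by
    rw [abs_le]; constructor <;> linarith [ha.1, ha.2, hb.1, hb.2]
  calc (a - b) ^ 2 = |a - b| ^ 2 := (sq_abs _).symm
    _ ≤ 1 := by
      have := abs_nonneg (a - b)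
      nlinarith

theorem integral_sq_triangle {P : Measure Ω} [IsProbabilityMeasure P] {f g h : Ω → ℝ}
    (hf : Measurable f) (hg : Measurable g) (hh : Measurable h)
    (bf : ∀ ω, f ω ∈ Set.Icc (0 : ℝ) 1) (bg : ∀ ω, g ω ∈ Set.Icc (0 : ℝ) 1)
    (bh : ∀ ω, h ω ∈ Set.Icc (0 : ℝ) 1) :
    ∫ ω, (f ω - g ω) ^ 2 ∂P ≤ 2 * ∫ ω, (f ω - h ω) ^ 2 ∂P + 2 * ∫ ω, (g ω - h ω) ^ 2 ∂P := by
  have i1 : Integrable (fun ω => (f ω - h ω) ^ 2) P :=
    integrable_of_mem ((hf.sub hh).pow_const 2) (C := 1) fun ω => abs_sq_sub_le (bf ω) (bh ω)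
  have i2 : Integrable (fun ω => (g ω - h ω) ^ 2) P :=
    integrable_of_mem ((hg.sub hh).pow_const 2) (C := 1) fun ω => abs_sq_sub_le (bg ω) (bh ω)
  have i3 : Integrable (fun ω => (f ω - g ω) ^ 2) P :=
    integrable_of_mem ((hf.sub hg).pow_const 2) (C := 1) fun ω => abs_sq_sub_le (bf ω) (bg ω)
  rw [← integral_const_mul, ← integral_const_mul, ← integral_add (i1.const_mul 2) (i2.const_mul 2)]
  exact integral_mono i3 ((i1.const_mul 2).add (i2.const_mul 2)) fun ω => sq_sub_le_two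

/-- a sequence with summable `L²` increments converges almost surely and in `L²`. -/
theorem seq_limit {P : Measure Ω} [IsProbabilityMeasure P] (f : ℕ → Ω → ℝ)
    (hm : ∀ n, Measurable (f n)) (hb : ∀ n ω, f n ω ∈ Set.Icc (0 : ℝ) 1)
    (hc : ∀ N n m, N ≤ n → N ≤ m → ∫ ω, (f n ω - f m ω) ^ 2 ∂P ≤ (1 / 16 : ℝ) ^ N) :
    ∃ y : Ω → ℝ, Measurable y ∧ (∀ ω, y ω ∈ Set.Icc (0 : ℝ) 1) ∧
      ∀ᵐ ω ∂P, Tendsto (fun n => f n ω) atTop (𝓝 (y ω)) := by
  have hcau : ∀ N n m : ℕ, N ≤ n → N ≤ m →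
      eLpNorm (f n - f m) 2 P < ENNReal.ofReal (2 * (1 / 4 : ℝ) ^ N) := by
    intro N n m hn hm'
    have h1 : MemLp (f n - f m) 2 P := by
      refine MemLp.of_bound ((hm n).sub (hm m)).aestronglyMeasurable 1
        (Eventually.of_forall fun ω => ?_)
      rw [Real.norm_eq_abs, Pi.sub_apply, abs_le]
      constructor <;> linarith [(hb n ω).1, (hb n ω).2, (hb m ω).1, (hb m ω).2]
    rw [h1.eLpNorm_eq_integral_rpow_norm (by norm_num) (by norm_num)]
    rw [ENNReal.ofReal_lt_ofReal_iff (by positivity)]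
    have h2 : ∫ a, ‖(f n - f m) a‖ ^ (2 : ℝ≥0∞).toReal ∂P = ∫ ω, (f n ω - f m ω) ^ 2 ∂P := by
      refine integral_congr_ae (Eventually.of_forall fun ω => ?_)
      simp only [Pi.sub_apply, Real.norm_eq_abs, ENNReal.toReal_ofNat, Real.rpow_ofNat, sq_abs]
    rw [h2]
    have h3 := hc N n m hn hm'
    have h4 : (∫ ω, (f n ω - f m ω) ^ 2 ∂P) ^ ((2 : ℝ≥0∞).toReal)⁻¹ ≤ (1 / 4 : ℝ) ^ N := by
      have h5 : (∫ ω, (f n ω - f m ω) ^ 2 ∂P) ^ ((2 : ℝ≥0∞).toReal)⁻¹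
          ≤ ((1 / 16 : ℝ) ^ N) ^ ((2 : ℝ≥0∞).toReal)⁻¹ :=
        Real.rpow_le_rpow (integral_nonneg fun ω => sq_nonneg _) h3 (by positivity)
      refine h5.trans (le_of_eq ?_)
      have h6 : ((1 / 16 : ℝ) ^ N) = ((1 / 4 : ℝ) ^ N) ^ 2 := by
        rw [← pow_mul, mul_comm, pow_mul]; norm_num
      rw [h6, ENNReal.toReal_ofNat]
      rw [← Real.rpow_natCast, ← Real.rpow_mul (by positivity)]
      norm_num
    have h7 : (0 : ℝ) < (1 / 4 : ℝ) ^ N := by positivity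
    linarith
  have hsum : ∑' i : ℕ, ENNReal.ofReal (2 * (1 / 4 : ℝ) ^ i) ≠ ∞ := by
    have hs : Summable (fun i : ℕ => 2 * (1 / 4 : ℝ) ^ i) :=
      (summable_geometric_of_lt_one (by norm_num) (by norm_num)).mul_left 2
    rw [← ENNReal.ofReal_tsum_of_nonneg (fun n => by positivity) hs]
    exact ENNReal.ofReal_ne_top
  have hae := Lp.ae_tendsto_of_cauchy_eLpNorm (μ := P) (p := 2) (f := f)
    (fun n => (hm n).aestronglyMeasurable) (by norm_num) hsum hcau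
  refine ⟨fun ω => max 0 (min 1 (limsup (fun n => f n ω) atTop)), ?_, ?_, ?_⟩
  · exact measurable_const.max (measurable_const.min (Measurable.limsup hm))
  · intro ω
    refine ⟨le_max_left _ _, ?_⟩
    exact max_le zero_le_one (min_le_left _ _)
  · filter_upwards [hae] with ω hω
    obtain ⟨l, hl⟩ := hω
    have h1 : l ∈ Set.Icc (0 : ℝ) 1 :=
      isClosed_Icc.mem_of_tendsto hl (Eventually.of_forall fun n => hb n ω)
    rw [hl.limsup_eq, min_eq_right h1.2, max_eq_right h1.1]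
    exact hl

/-- completeness along the net -/
theorem net_limit {P : Measure Ω} [IsProbabilityMeasure P] (C : Finset V → Prop)
    (hdir : ∀ S : Finset V, ∃ D, S ⊆ D ∧ C D) (f : (D : Finset V) → C D → Ω → ℝ)
    (hm : ∀ D hD, Measurable (f D hD)) (hb : ∀ D hD ω, f D hD ω ∈ Set.Icc (0 : ℝ) 1)
    (hc : ∀ ε > 0, ∃ S : Finset V, ∀ D D' (hD : C D) (hD' : C D'), S ⊆ D → D ⊆ D' →
      ∫ ω, (f D hD ω - f D' hD' ω) ^ 2 ∂P ≤ ε) :
    ∃ y : Ω → ℝ, Measurable y ∧ (∀ ω, y ω ∈ Set.Icc (0 : ℝ) 1) ∧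
      ∀ ε > 0, ∃ S : Finset V, ∀ D (hD : C D), S ⊆ D → ∫ ω, (f D hD ω - y ω) ^ 2 ∂P ≤ ε := by
  classical
  -- symmetric Cauchy property
  have hc2 : ∀ ε > 0, ∃ S : Finset V, ∀ D D' (hD : C D) (hD' : C D'), S ⊆ D → S ⊆ D' →
      ∫ ω, (f D hD ω - f D' hD' ω) ^ 2 ∂P ≤ ε := by
    intro ε hε
    obtain ⟨S, hS⟩ := hc (ε / 4) (by positivity)
    refine ⟨S, fun D D' hD hD' h1 h2 => ?_⟩
    obtain ⟨D'', h3, hD''⟩ := hdir (D ∪ D')
    have h4 := integral_sq_triangle (P := P) (hm D hD) (hm D' hD') (hm D'' hD'') (hb D hD)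
      (hb D' hD') (hb D'' hD'')
    have h5 := hS D D'' hD hD'' h1 (Finset.subset_union_left.trans h3)
    have h6 := hS D' D'' hD' hD'' h2 (Finset.subset_union_right.trans h3)
    linarith
  choose! S hS using hc2
  let S' : ℕ → Finset V := fun n => (Finset.range (n + 1)).biUnion fun k => S ((1 / 16 : ℝ) ^ k)
  have hS'mono : ∀ N n, N ≤ n → S ((1 / 16 : ℝ) ^ N) ⊆ S' n := by
    intro N n hn
    exact Finset.subset_biUnion_of_mem (fun k => S ((1 / 16 : ℝ) ^ k))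
      (Finset.mem_range.2 (by omega))
  choose D hD1 hD2 using fun n => hdir (S' n)
  obtain ⟨y, hy1, hy2, hy3⟩ := seq_limit (P := P) (fun n => f (D n) (hD2 n)) (fun n => hm _ _)
    (fun n => hb _ _) (fun N n m hn hm' => hS _ (by positivity) _ _ _ _
      ((hS'mono N n hn).trans (hD1 n)) ((hS'mono N m hm').trans (hD1 m)))
  refine ⟨y, hy1, hy2, fun ε hε => ⟨S (ε / 2), fun A hA hSA => ?_⟩⟩
  have hε2 : 0 < ε / 2 := by positivity
  have hlim : Tendsto (fun n => ∫ ω, (f A hA ω - f (D n) (hD2 n) ω) ^ 2 ∂P) atTop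
      (𝓝 (∫ ω, (f A hA ω - y ω) ^ 2 ∂P)) := by
    refine tendsto_integral_of_dominated_convergence (fun _ => (1 : ℝ)) (fun n => ?_)
      (integrable_const _) (fun n => Eventually.of_forall fun ω => ?_) ?_
    · exact (((hm A hA).sub (hm _ _)).pow_const 2).aestronglyMeasurable
    · rw [Real.norm_eq_abs]; exact abs_sq_sub_le (hb _ _ _) (hb _ _ _)
    · filter_upwards [hy3] with ω hω
      exact (tendsto_const_nhds.sub hω).pow 2
  have hb2 : ∀ n, ∫ ω, (f A hA ω - f (D n) (hD2 n) ω) ^ 2 ∂P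
      ≤ 2 * (ε / 2) + 2 * (1 / 16 : ℝ) ^ n := by
    intro n
    obtain ⟨B, hB1, hB2⟩ := hdir (A ∪ D n)
    have h4 := integral_sq_triangle (P := P) (hm A hA) (hm (D n) (hD2 n)) (hm B hB2) (hb _ _)
      (hb _ _) (hb _ _)
    have h5 := hS (ε / 2) hε2 A B hA hB2 hSA (hSA.trans (Finset.subset_union_left.trans hB1))
    have h6 := hS ((1 / 16 : ℝ) ^ n) (by positivity) (D n) B (hD2 n) hB2
      ((hS'mono n n le_rfl).trans (hD1 n))
      ((hS'mono n n le_rfl).trans ((hD1 n).trans (Finset.subset_union_right.trans hB1)))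
    linarith
  have hlim2 : Tendsto (fun n : ℕ => 2 * (ε / 2) + 2 * (1 / 16 : ℝ) ^ n) atTop
      (𝓝 (2 * (ε / 2) + 2 * 0)) :=
    tendsto_const_nhds.add ((tendsto_pow_atTop_nhds_zero_of_lt_one (by norm_num)
      (by norm_num)).const_mul 2)
  have := le_of_tendsto_of_tendsto' hlim hlim2 hb2
  linarith

end P161
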