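import Vale.Agent.P161.Cauchy
import Vale.Agent.P161.NetLimit
import Vale.Agent.P161.FCongr
import Vale.Agent.P161.Influence
import Vale.Agent.P161.Tree
import Vale.Agent.P161.YDef

/-!
# P161: the infinite volume limit of the sequential sampling
-/

namespace P161

open MeasureTheory ProbabilityTheory Filter Topology

/-! ### general systems: measurability and monotonicity of the second moment -/

section general
variable {S E R : Type*} [LinearOrder R] (M : Sys S E)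

theorem lim_measurable_past {Ω : Type*} [MeasurableSpace Ω] [Countable E] (r : Ω → E → R)
    (hr : ∀ e f, MeasurableSet {ω | r ω e < r ω f}) (A : Finset E) (e : E) (B : Finset E) :
    MeasurableSet {ω | Sys.past (r ω) A e = B} := by
  classical
  have h3 : {ω | Sys.past (r ω) A e = B}
      = ⋂ f : E, {ω | (f ∈ A ∧ r ω f < r ω e) ↔ f ∈ B} := by
    ext ω
    simp only [Set.mem_iInter, Set.mem_ofPred_eq, Finset.ext_iff, Sys.past, Finset.mem_filter]
  rw [h3]
  refine MeasurableSet.iInter fun f => ?_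
  by_cases hA : f ∈ A
  · by_cases hB : f ∈ B
    · simp only [hA, hB, true_and, iff_true]; exact hr f e
    · simp only [hA, hB, true_and, iff_false]; exact (hr f e).compl
  · by_cases hB : f ∈ B
    · simp only [hA, hB, false_and, iff_true]; exact MeasurableSet.const _
    · simp only [hA, hB, false_and]; exact MeasurableSet.const _

theorem lim_measurable_post_past {Ω : Type*} [MeasurableSpace Ω] [Countable E] (r : Ω → E → R)
    (hr : ∀ e f, MeasurableSet {ω | r ω e < r ω f}) (A : Finset E) (e : E) (y : Ω → E → ℝ)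
    (hy : Measurable y) : Measurable (fun ω => M.post (Sys.past (r ω) A e) (y ω) e) := by
  classical
  let mF : MeasurableSpace (Finset E) := ⊤
  have hF : DiscreteMeasurableSpace (Finset E) := ⟨fun _ => trivial⟩
  have h1 : Measurable (fun p : Finset E × (E → ℝ) => M.post p.1 p.2 e) :=
    measurable_from_prod_countable_right fun B => M.meas_post B e
  have h2 : Measurable (fun ω => Sys.past (r ω) A e) :=
    measurable_to_countable' fun B => lim_measurable_past r hr A e B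
  have h3 : (fun ω => M.post (Sys.past (r ω) A e) (y ω) e)
    = (fun p : Finset E × (E → ℝ) => M.post p.1 p.2 e) ∘ (fun ω => (Sys.past (r ω) A e, y ω)) := rfl
  rw [h3]
  exact h1.comp (h2.prodMk hy)

/-- clamping to the unit interval -/
noncomputable def limClamp (y : E → ℝ) : E → ℝ := fun e => max 0 (min 1 (y e))

theorem lim_clamp_mem (y : E → ℝ) (e : E) : limClamp y e ∈ Set.Icc (0 : ℝ) 1 :=
  ⟨le_max_left _ _, max_le zero_le_one (min_le_left _ _)⟩

theorem lim_clamp_eq {y : E → ℝ} (hy : ∀ e, y e ∈ Set.Icc (0 : ℝ) 1) : limClamp y = y := by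
  funext e
  unfold limClamp
  rw [min_eq_right (hy e).2, max_eq_right (hy e).1]

theorem lim_measurable_clamp : Measurable (limClamp : (E → ℝ) → E → ℝ) := by
  unfold limClamp
  rw [measurable_pi_iff]
  intro e
  exact measurable_const.max (measurable_const.min (measurable_pi_apply e))

theorem lim_second_moment [Countable E] (r : E → R) (A B : Finset E) (hAB : A ⊆ B)
    (hr : Set.InjOn r A) (f : E) :
    ∫ w, (M.post (Sys.past r A f) (M.F r A (cw w)) f) ^ 2 ∂(noise E)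
      = ∫ y, (M.post (Sys.past r A f) (cw y) f) ^ 2 * M.den B (cw y) ∂(noise E) := by
  have hΦ : Measurable (fun z : E → ℝ => (M.post (Sys.past r A f) (limClamp z) f) ^ 2) :=
    ((M.meas_post _ f).comp lim_measurable_clamp).pow_const 2
  have hb : ∃ C, ∀ z : E → ℝ, |(M.post (Sys.past r A f) (limClamp z) f) ^ 2| ≤ C := by
    refine ⟨1, fun z => ?_⟩
    rw [abs_pow]
    exact pow_le_one₀ (abs_nonneg _) (M.post_abs' _ (lim_clamp_mem z) f)
  have hloc : ∀ z z' : E → ℝ, (∀ e ∈ A, z e = z' e) →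
      (M.post (Sys.past r A f) (limClamp z) f) ^ 2 = (M.post (Sys.past r A f) (limClamp z') f) ^ 2 := by
    intro z z' h
    rw [M.post_congr' (y := limClamp z) (y' := limClamp z')]
    intro e he
    unfold Sys.past at he
    unfold limClamp
    rw [h e (Finset.mem_filter.1 he).1]
  have e1 := law_F M r A hr (fun z => (M.post (Sys.past r A f) (limClamp z) f) ^ 2) hΦ hb hloc
  have e2 := den_marginal M A B hAB (fun z => (M.post (Sys.past r A f) (limClamp z) f) ^ 2) hΦ hb hloc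
  have e3 : ∀ w : E → unitInterval, limClamp (M.F r A (cw w)) = M.F r A (cw w) := fun w =>
    lim_clamp_eq (F_mem M r A w)
  have e4 : ∀ w : E → unitInterval, limClamp (cw w) = cw w := fun w => lim_clamp_eq (cw_mem_Icc w)
  simp only [e3, e4] at e1 e2
  rw [e1, e2]

theorem lim_past_mono (r : E → R) {A B : Finset E} (hAB : A ⊆ B) (f : E) :
    Sys.past r A f ⊆ Sys.past r B f := by
  unfold Sys.past
  exact Finset.filter_subset_filter _ hAB

theorem lim_past_subset (r : E → R) (A : Finset E) (f : E) : Sys.past r A f ⊆ A :=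
  Finset.filter_subset _ _

/-- larger windows see more -/
theorem lim_second_moment_mono [Countable E] (r : E → R) (A B : Finset E) (hAB : A ⊆ B)
    (hr : Set.InjOn r B) (f : E) :
    ∫ w, (M.post (Sys.past r A f) (M.F r A (cw w)) f) ^ 2 ∂(noise E)
      ≤ ∫ w, (M.post (Sys.past r B f) (M.F r B (cw w)) f) ^ 2 ∂(noise E) := by
  rw [lim_second_moment M r A B hAB (hr.mono (by exact_mod_cast hAB)) f,
    lim_second_moment M r B B subset_rfl hr f]
  have h := post_pyth M (Sys.past r A f) (Sys.past r B f) B (lim_past_mono r hAB f)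
    (lim_past_subset r B f) f
  have h2 : 0 ≤ ∫ y, (M.post (Sys.past r B f) (cw y) f - M.post (Sys.past r A f) (cw y) f) ^ 2
      * M.den B (cw y) ∂(noise E) :=
    integral_nonneg fun y => mul_nonneg (sq_nonneg _) (M.den_pos' B (cw_mem_Icc y)).le
  linarith

end general

variable {V : Type*}

section
variable (G : SimpleGraph V) (hT : G.IsTree) {θ κ : ℝ} (h0 : 0 ≤ θ) (h1 : θ < 1)
    (hκ : 0 ≤ κ) (hκ1 : κ < 1)

theorem measurable_YL_all [Countable V] (D : Finset V) (hD : (G.induce (D : Set V)).Connected)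
    (N : ℕ) : Measurable (fun p : (V → unitInterval) × (V × ℕ → unitInterval) =>
      (isys G hT h0 h1 hκ hκ1 D hD).F (rk (fun v => ((p.1 v : unitInterval) : ℝ))) (evs D N)
        (cw p.2)) :=
  measurable_F (isys G hT h0 h1 hκ hκ1 D hD)
    (fun p : (V → unitInterval) × (V × ℕ → unitInterval) =>
      rk (fun v => ((p.1 v : unitInterval) : ℝ)))
    (fun e f => measurableSet_rk_lt e f) (evs D N) (fun p => cw p.2)
    (measurable_cw'.comp measurable_snd)

theorem measurable_YL [Countable V] (D : Finset V) (hD : (G.induce (D : Set V)).Connected)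
    (N : ℕ) (e : V × ℕ) : Measurable (fun p : (V → unitInterval) × (V × ℕ → unitInterval) =>
      YL G hT h0 h1 hκ hκ1 D hD N p.1 p.2 e) := by
  have h := measurable_pi_iff.1 (measurable_YL_all G hT h0 h1 hκ hκ1 D hD N) e
  exact h

theorem YL_mem (D : Finset V) (hD : (G.induce (D : Set V)).Connected)
    (N : ℕ) (L : V → unitInterval) (W : V × ℕ → unitInterval) (e : V × ℕ) :
    YL G hT h0 h1 hκ hκ1 D hD N L W e ∈ Set.Icc (0 : ℝ) 1 :=
  F_mem (isys G hT h0 h1 hκ hκ1 D hD) (rk (fun v => ((L v : unitInterval) : ℝ))) (evs D N) W e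

theorem measurable_YD [Countable V] (D : Finset V) (hD : (G.induce (D : Set V)).Connected)
    (N : ℕ) (e : V × ℕ) : Measurable (fun ω => YD G hT h0 h1 hκ hκ1 D hD N ω e) := by
  have h : (fun ω => YD G hT h0 h1 hκ hκ1 D hD N ω e)
      = (fun p : (V → unitInterval) × (V × ℕ → unitInterval) =>
          YL G hT h0 h1 hκ hκ1 D hD N p.1 p.2 e) ∘
        (fun ω : V → ℕ → unitInterval => ((fun v => ω v 0 : V → unitInterval), evn ω)) := by
    funext ω
    rw [YD_eq]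
    rfl
  rw [h]
  exact (measurable_YL G hT h0 h1 hκ hκ1 D hD N e).comp (measurable_keyU.prodMk measurable_evn)

theorem YD_mem (D : Finset V) (hD : (G.induce (D : Set V)).Connected)
    (N : ℕ) (ω : V → ℕ → unitInterval) (e : V × ℕ) :
    YD G hT h0 h1 hκ hκ1 D hD N ω e ∈ Set.Icc (0 : ℝ) 1 :=
  F_mem (isys G hT h0 h1 hκ hκ1 D hD) (rk (key ω)) (evs D N) (evn ω) e

/-- the number of rounds does not matter -/
theorem YD_rounds (D : Finset V) (hD : (G.induce (D : Set V)).Connected) {N N' : ℕ}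
    (hN : N ≤ N') (ω : V → ℕ → unitInterval) (e : V × ℕ) (he : e.1 ∈ D) (heN : e.2 < N) :
    YD G hT h0 h1 hκ hκ1 D hD N ω e = YD G hT h0 h1 hκ hκ1 D hD N' ω e := by
  unfold YD
  refine F_initial (isys G hT h0 h1 hκ hκ1 D hD) (rk (key ω)) (evs D N) (evs D N')
    (evs_mono subset_rfl hN) ?_ (cw (evn ω)) e (mem_evs.2 ⟨he, heN⟩)
  intro f hf e' he' hlt
  rw [rk_lt_iff] at hlt
  rw [mem_evs] at hf he' ⊢
  refine ⟨hf.1, ?_⟩
  rcases hlt with h | h
  · omega
  · omega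

/-- the sampling inside `D` computed with the system of `D' ⊇ D` -/
theorem F_sys_eq {D D' : Finset V} (hD : (G.induce (D : Set V)).Connected)
    (hD' : (G.induce (D' : Set V)).Connected) (h : D ⊆ D') (N : ℕ) (L : V → ℝ)
    (w : V × ℕ → ℝ) (e : V × ℕ) (he : e ∈ evs D N) :
    (isys G hT h0 h1 hκ hκ1 D' hD').F (rk L) (evs D N) w e
      = (isys G hT h0 h1 hκ hκ1 D hD).F (rk L) (evs D N) w e := by
  refine F_congr (isys G hT h0 h1 hκ hκ1 D hD) (isys G hT h0 h1 hκ hκ1 D' hD') rfl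
    (Equiv.refl _) (rk L) (rk L) (evs D N) (evs D N) (fun e => Iff.rfl) (fun _ _ _ _ => Iff.rfl)
    ?_ w e he
  intro e he B hB y
  have h2 : B.map (Equiv.refl (V × ℕ)).toEmbedding = B := by
    ext x; simp
  rw [h2]
  exact isys_post_eq G hT h0 h1 hκ hκ1 D D' hD hD' h B
    (fun f hf => (mem_evs.1 (hB hf)).1) e (mem_evs.1 he).1 y


/-! ### the second moments `Q` -/

theorem measurable_PL [Countable V] (D : Finset V) (hD : (G.induce (D : Set V)).Connected)
    (N : ℕ) (f : V × ℕ) : Measurable (fun p : (V → unitInterval) × (V × ℕ → unitInterval) =>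
      PL G hT h0 h1 hκ hκ1 D hD N p.1 p.2 f) := by
  have h := lim_measurable_post_past (isys G hT h0 h1 hκ hκ1 D hD)
    (fun p : (V → unitInterval) × (V × ℕ → unitInterval) =>
      rk (fun v => ((p.1 v : unitInterval) : ℝ)))
    (fun e f => measurableSet_rk_lt e f) (evs D N) f _
    (measurable_YL_all G hT h0 h1 hκ hκ1 D hD N)
  exact h

theorem PL_abs (D : Finset V) (hD : (G.induce (D : Set V)).Connected)
    (N : ℕ) (L : V → unitInterval) (W : V × ℕ → unitInterval) (f : V × ℕ) :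
    |PL G hT h0 h1 hκ hκ1 D hD N L W f| ≤ 1 :=
  (isys G hT h0 h1 hκ hκ1 D hD).post_abs' _
    (F_mem (isys G hT h0 h1 hκ hκ1 D hD) (rk (fun v => ((L v : unitInterval) : ℝ))) (evs D N) W) f

theorem PL_sq_abs (D : Finset V) (hD : (G.induce (D : Set V)).Connected)
    (N : ℕ) (L : V → unitInterval) (W : V × ℕ → unitInterval) (f : V × ℕ) :
    |(PL G hT h0 h1 hκ hκ1 D hD N L W f) ^ 2| ≤ 1 := by
  rw [abs_pow]
  exact pow_le_one₀ (abs_nonneg _) (PL_abs G hT h0 h1 hκ hκ1 D hD N L W f)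

/-- second moment of the posterior mean for fixed keys -/
noncomputable def qL (D : Finset V) (hD : (G.induce (D : Set V)).Connected)
    (N : ℕ) (L : V → unitInterval) (f : V × ℕ) : ℝ :=
  ∫ W, (PL G hT h0 h1 hκ hκ1 D hD N L W f) ^ 2 ∂(noise (V × ℕ))

/-- second moment of the posterior mean -/
noncomputable def QQ (D : Finset V) (hD : (G.induce (D : Set V)).Connected)
    (N : ℕ) (f : V × ℕ) : ℝ :=
  ∫ L, qL G hT h0 h1 hκ hκ1 D hD N L f ∂(noise V)

theorem qL_abs (D : Finset V) (hD : (G.induce (D : Set V)).Connected)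
    (N : ℕ) (L : V → unitInterval) (f : V × ℕ) : |qL G hT h0 h1 hκ hκ1 D hD N L f| ≤ 1 := by
  unfold qL
  have h := norm_integral_le_of_norm_le_const (μ := noise (V × ℕ))
    (f := fun W => (PL G hT h0 h1 hκ hκ1 D hD N L W f) ^ 2) (C := 1)
    (Eventually.of_forall fun W => by
      rw [Real.norm_eq_abs]; exact PL_sq_abs G hT h0 h1 hκ hκ1 D hD N L W f)
  simpa using h

theorem stronglyMeasurable_qL [Countable V] (D : Finset V)
    (hD : (G.induce (D : Set V)).Connected) (N : ℕ) (f : V × ℕ) :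
    StronglyMeasurable (fun L => qL G hT h0 h1 hκ hκ1 D hD N L f) := by
  unfold qL
  exact StronglyMeasurable.integral_prod_right'
    (f := fun p : (V → unitInterval) × (V × ℕ → unitInterval) =>
      (PL G hT h0 h1 hκ hκ1 D hD N p.1 p.2 f) ^ 2)
    ((measurable_PL G hT h0 h1 hκ hκ1 D hD N f).pow_const 2).stronglyMeasurable

theorem integrable_qL [Countable V] (D : Finset V)
    (hD : (G.induce (D : Set V)).Connected) (N : ℕ) (f : V × ℕ) :
    Integrable (fun L => qL G hT h0 h1 hκ hκ1 D hD N L f) (noise V) :=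
  Integrable.of_bound (stronglyMeasurable_qL G hT h0 h1 hκ hκ1 D hD N f).aestronglyMeasurable 1
    (Eventually.of_forall fun L => by
      rw [Real.norm_eq_abs]; exact qL_abs G hT h0 h1 hκ hκ1 D hD N L f)

theorem QQ_le_one [Countable V] (D : Finset V) (hD : (G.induce (D : Set V)).Connected)
    (N : ℕ) (f : V × ℕ) : QQ G hT h0 h1 hκ hκ1 D hD N f ≤ 1 := by
  unfold QQ
  have h := norm_integral_le_of_norm_le_const (μ := noise V)
    (f := fun L => qL G hT h0 h1 hκ hκ1 D hD N L f) (C := 1)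
    (Eventually.of_forall fun L => by
      rw [Real.norm_eq_abs]; exact qL_abs G hT h0 h1 hκ hκ1 D hD N L f)
  have h2 := Real.le_norm_self (∫ L, qL G hT h0 h1 hκ hκ1 D hD N L f ∂(noise V))
  simp only [measureReal_def, measure_univ, ENNReal.toReal_one, mul_one] at h
  linarith

/-- `PL` for `D` written with the system of `D' ⊇ D` -/
theorem PL_sys_eq {D D' : Finset V} (hD : (G.induce (D : Set V)).Connected)
    (hD' : (G.induce (D' : Set V)).Connected) (h : D ⊆ D') (N : ℕ) (L : V → unitInterval)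
    (W : V × ℕ → unitInterval) (f : V × ℕ) (hf : f ∈ evs D N) :
    PL G hT h0 h1 hκ hκ1 D hD N L W f
      = (isys G hT h0 h1 hκ hκ1 D' hD').post
          (Sys.past (rk (fun v => ((L v : unitInterval) : ℝ))) (evs D N) f)
          ((isys G hT h0 h1 hκ hκ1 D' hD').F (rk (fun v => ((L v : unitInterval) : ℝ)))
            (evs D N) (cw W)) f := by
  unfold PL
  rw [isys_post_eq G hT h0 h1 hκ hκ1 D D' hD hD' h
    (Sys.past (rk (fun v => ((L v : unitInterval) : ℝ))) (evs D N) f)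
    (fun g hg => (mem_evs.1 (lim_past_subset _ _ _ hg)).1) f (mem_evs.1 hf).1]
  refine Sys.post_congr' _ (fun e he => ?_) f
  exact (F_sys_eq G hT h0 h1 hκ hκ1 hD hD' h N _ (cw W) e (lim_past_subset _ _ _ he)).symm

theorem qL_mono [Countable V] {D D' : Finset V} (hD : (G.induce (D : Set V)).Connected)
    (hD' : (G.induce (D' : Set V)).Connected) (h : D ⊆ D') (N : ℕ) (L : V → unitInterval)
    (hL : Function.Injective (fun v => ((L v : unitInterval) : ℝ))) (f : V × ℕ)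
    (hf : f ∈ evs D N) :
    qL G hT h0 h1 hκ hκ1 D hD N L f ≤ qL G hT h0 h1 hκ hκ1 D' hD' N L f := by
  have h2 := lim_second_moment_mono (isys G hT h0 h1 hκ hκ1 D' hD')
    (rk (fun v => ((L v : unitInterval) : ℝ))) (evs D N) (evs D' N) (evs_mono h le_rfl)
    (rk_injective hL).injOn f
  have h3 : qL G hT h0 h1 hκ hκ1 D hD N L f = ∫ w, ((isys G hT h0 h1 hκ hκ1 D' hD').post
          (Sys.past (rk (fun v => ((L v : unitInterval) : ℝ))) (evs D N) f)
          ((isys G hT h0 h1 hκ hκ1 D' hD').F (rk (fun v => ((L v : unitInterval) : ℝ)))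
            (evs D N) (cw w)) f) ^ 2 ∂(noise (V × ℕ)) := by
    unfold qL
    refine integral_congr_ae (Eventually.of_forall fun W => ?_)
    simp only
    rw [PL_sys_eq G hT h0 h1 hκ hκ1 hD hD' h N L W f hf]
  rw [h3]
  exact h2

theorem QQ_mono [Countable V] {D D' : Finset V} (hD : (G.induce (D : Set V)).Connected)
    (hD' : (G.induce (D' : Set V)).Connected) (h : D ⊆ D') (N : ℕ) (f : V × ℕ)
    (hf : f ∈ evs D N) :
    QQ G hT h0 h1 hκ hκ1 D hD N f ≤ QQ G hT h0 h1 hκ hκ1 D' hD' N f := by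
  unfold QQ
  refine integral_mono_ae (integrable_qL G hT h0 h1 hκ hκ1 D hD N f)
    (integrable_qL G hT h0 h1 hκ hκ1 D' hD' N f) ?_
  filter_upwards [ae_key_injective (V := V)] with L hL
  exact qL_mono G hT h0 h1 hκ hκ1 hD hD' h N L hL f hf


/-! ### the Cauchy inequality -/

theorem cauchy_L [Countable V] {D D' : Finset V} (hD : (G.induce (D : Set V)).Connected)
    (hD' : (G.induce (D' : Set V)).Connected) (h : D ⊆ D') (N : ℕ) (L : V → unitInterval)
    (hL : Function.Injective (fun v => ((L v : unitInterval) : ℝ))) (W : Finset (V × ℕ))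
    (hW : W ⊆ evs D N) (e : V × ℕ) (he : e ∈ evs D N) (a : V × ℕ → ℝ) (ha : ∀ f, 0 ≤ a f)
    (hlip : ∀ w w' : V × ℕ → unitInterval,
      |YL G hT h0 h1 hκ hκ1 D hD N L w e - YL G hT h0 h1 hκ hκ1 D hD N L w' e|
        ≤ ∑ f ∈ evs D N, a f * |(w f : ℝ) - w' f|) :
    ∫ w, (YL G hT h0 h1 hκ hκ1 D hD N L w e - YL G hT h0 h1 hκ hκ1 D' hD' N L w e) ^ 2
        ∂(noise (V × ℕ))
      ≤ 6 * (∑ f ∈ evs D N, (a f) ^ 2 - ∑ f ∈ W, (a f) ^ 2)
        + 3 * W.card * (κ ^ 2 / 16) * ∑ f ∈ W, (a f) ^ 2 *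
          (qL G hT h0 h1 hκ hκ1 D' hD' N L f - qL G hT h0 h1 hκ hκ1 D hD N L f) := by
  classical
  have hFe : ∀ w : V × ℕ → unitInterval,
      (isys G hT h0 h1 hκ hκ1 D' hD').F (rk (fun v => ((L v : unitInterval) : ℝ))) (evs D N)
        (cw w) e = YL G hT h0 h1 hκ hκ1 D hD N L w e := fun w =>
    F_sys_eq G hT h0 h1 hκ hκ1 hD hD' h N _ (cw w) e he
  have hc := cauchy_abs (isys G hT h0 h1 hκ hκ1 D' hD')
    (rk (fun v => ((L v : unitInterval) : ℝ))) (evs D N) (evs D' N) W (evs_mono h le_rfl) hW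
    (rk_injective hL).injOn e he a ha (by
      intro w w'
      rw [hFe w, hFe w']
      exact hlip w w')
  have hs : ∑ f ∈ evs D N \ W, (a f) ^ 2 = ∑ f ∈ evs D N, (a f) ^ 2 - ∑ f ∈ W, (a f) ^ 2 := by
    rw [← Finset.sum_sdiff hW]; ring
  have hq : ∀ f ∈ W, (∫ w, ((isys G hT h0 h1 hκ hκ1 D' hD').post
      (Sys.past (rk (fun v => ((L v : unitInterval) : ℝ))) (evs D N) f)
      ((isys G hT h0 h1 hκ hκ1 D' hD').F (rk (fun v => ((L v : unitInterval) : ℝ)))
        (evs D N) (cw w)) f) ^ 2 ∂(noise (V × ℕ))) = qL G hT h0 h1 hκ hκ1 D hD N L f := by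
    intro f hf
    unfold qL
    refine integral_congr_ae (Eventually.of_forall fun w => ?_)
    simp only
    rw [PL_sys_eq G hT h0 h1 hκ hκ1 hD hD' h N L w f (hW hf)]
  rw [hs] at hc
  have hk : (isys G hT h0 h1 hκ hκ1 D' hD').κ = κ := rfl
  rw [hk] at hc
  have hsum : ∑ f ∈ W, (a f) ^ 2 *
      ((∫ w, ((isys G hT h0 h1 hκ hκ1 D' hD').post
          (Sys.past (rk (fun v => ((L v : unitInterval) : ℝ))) (evs D' N) f)
          ((isys G hT h0 h1 hκ hκ1 D' hD').F (rk (fun v => ((L v : unitInterval) : ℝ)))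
            (evs D' N) (cw w)) f) ^ 2 ∂(noise (V × ℕ)))
        - ∫ w, ((isys G hT h0 h1 hκ hκ1 D' hD').post
          (Sys.past (rk (fun v => ((L v : unitInterval) : ℝ))) (evs D N) f)
          ((isys G hT h0 h1 hκ hκ1 D' hD').F (rk (fun v => ((L v : unitInterval) : ℝ)))
            (evs D N) (cw w)) f) ^ 2 ∂(noise (V × ℕ)))
      = ∑ f ∈ W, (a f) ^ 2 *
          (qL G hT h0 h1 hκ hκ1 D' hD' N L f - qL G hT h0 h1 hκ hκ1 D hD N L f) := by
    refine Finset.sum_congr rfl fun f hf => ?_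
    rw [hq f hf]
    rfl
  rw [hsum] at hc
  simp only [hFe] at hc
  exact hc

theorem YD_integral [Countable V] {D D' : Finset V} (hD : (G.induce (D : Set V)).Connected)
    (hD' : (G.induce (D' : Set V)).Connected) (N : ℕ) (e : V × ℕ) :
    ∫ ω, (YD G hT h0 h1 hκ hκ1 D hD N ω e - YD G hT h0 h1 hκ hκ1 D' hD' N ω e) ^ 2 ∂(noiseV V)
      = ∫ L, ∫ W, (YL G hT h0 h1 hκ hκ1 D hD N L W e
          - YL G hT h0 h1 hκ hκ1 D' hD' N L W e) ^ 2 ∂(noise (V × ℕ)) ∂(noise V) := by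
  have := integral_noiseV (V := V) (fun L W => (YL G hT h0 h1 hκ hκ1 D hD N L W e
          - YL G hT h0 h1 hκ hκ1 D' hD' N L W e) ^ 2)
    (((measurable_YL G hT h0 h1 hκ hκ1 D hD N e).sub
      (measurable_YL G hT h0 h1 hκ hκ1 D' hD' N e)).pow_const 2)
    ⟨1, fun L W => abs_sq_sub_le (YL_mem G hT h0 h1 hκ hκ1 D hD N L W e)
      (YL_mem G hT h0 h1 hκ hκ1 D' hD' N L W e)⟩
  rw [← this]
  refine integral_congr_ae (Eventually.of_forall fun ω => ?_)
  simp only [YD_eq]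

theorem cauchy_D [Countable V] {D D' : Finset V} (hD : (G.induce (D : Set V)).Connected)
    (hD' : (G.induce (D' : Set V)).Connected) (h : D ⊆ D') (N : ℕ) (W : Finset (V × ℕ))
    (hW : W ⊆ evs D N) (e : V × ℕ) (he : e ∈ evs D N) (a : V × ℕ → ℝ) (ha : ∀ f, 0 ≤ a f)
    (hlip : ∀ (L : V → unitInterval) (w w' : V × ℕ → unitInterval),
      |YL G hT h0 h1 hκ hκ1 D hD N L w e - YL G hT h0 h1 hκ hκ1 D hD N L w' e|
        ≤ ∑ f ∈ evs D N, a f * |(w f : ℝ) - w' f|) :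
    ∫ ω, (YD G hT h0 h1 hκ hκ1 D hD N ω e - YD G hT h0 h1 hκ hκ1 D' hD' N ω e) ^ 2 ∂(noiseV V)
      ≤ 6 * (∑ f ∈ evs D N, (a f) ^ 2 - ∑ f ∈ W, (a f) ^ 2)
        + 3 * W.card * (κ ^ 2 / 16) * ∑ f ∈ W, (a f) ^ 2 *
          (QQ G hT h0 h1 hκ hκ1 D' hD' N f - QQ G hT h0 h1 hκ hκ1 D hD N f) := by
  rw [YD_integral G hT h0 h1 hκ hκ1 hD hD' N e]
  have hi : ∀ f, Integrable (fun L => (a f) ^ 2 *
      (qL G hT h0 h1 hκ hκ1 D' hD' N L f - qL G hT h0 h1 hκ hκ1 D hD N L f)) (noise V) := fun f =>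
    ((integrable_qL G hT h0 h1 hκ hκ1 D' hD' N f).sub
      (integrable_qL G hT h0 h1 hκ hκ1 D hD N f)).const_mul _
  have hrhs : ∫ L, (6 * (∑ f ∈ evs D N, (a f) ^ 2 - ∑ f ∈ W, (a f) ^ 2)
        + 3 * W.card * (κ ^ 2 / 16) * ∑ f ∈ W, (a f) ^ 2 *
          (qL G hT h0 h1 hκ hκ1 D' hD' N L f - qL G hT h0 h1 hκ hκ1 D hD N L f)) ∂(noise V)
      = 6 * (∑ f ∈ evs D N, (a f) ^ 2 - ∑ f ∈ W, (a f) ^ 2)
        + 3 * W.card * (κ ^ 2 / 16) * ∑ f ∈ W, (a f) ^ 2 *
          (QQ G hT h0 h1 hκ hκ1 D' hD' N f - QQ G hT h0 h1 hκ hκ1 D hD N f) := by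
    rw [integral_add (integrable_const _) ((integrable_finsetSum _ fun f _ => hi f).const_mul _),
      integral_const, integral_const_mul, integral_finsetSum _ fun f _ => hi f]
    simp only [measureReal_def, measure_univ, ENNReal.toReal_one, smul_eq_mul, one_mul]
    congr 2
    refine Finset.sum_congr rfl fun f _ => ?_
    rw [integral_const_mul, integral_sub (integrable_qL G hT h0 h1 hκ hκ1 D' hD' N f)
      (integrable_qL G hT h0 h1 hκ hκ1 D hD N f)]
    rfl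
  rw [← hrhs]
  refine integral_mono_ae ?_ ?_ ?_
  · have hsm : StronglyMeasurable (fun L => ∫ W, (YL G hT h0 h1 hκ hκ1 D hD N L W e
          - YL G hT h0 h1 hκ hκ1 D' hD' N L W e) ^ 2 ∂(noise (V × ℕ))) :=
      StronglyMeasurable.integral_prod_right'
        (f := fun p : (V → unitInterval) × (V × ℕ → unitInterval) =>
          (YL G hT h0 h1 hκ hκ1 D hD N p.1 p.2 e - YL G hT h0 h1 hκ hκ1 D' hD' N p.1 p.2 e) ^ 2)
        (((measurable_YL G hT h0 h1 hκ hκ1 D hD N e).sub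
          (measurable_YL G hT h0 h1 hκ hκ1 D' hD' N e)).pow_const 2).stronglyMeasurable
    refine Integrable.of_bound hsm.aestronglyMeasurable 1 (Eventually.of_forall fun L => ?_)
    have h := norm_integral_le_of_norm_le_const (μ := noise (V × ℕ))
      (f := fun W => (YL G hT h0 h1 hκ hκ1 D hD N L W e
          - YL G hT h0 h1 hκ hκ1 D' hD' N L W e) ^ 2) (C := 1)
      (Eventually.of_forall fun W => by
        rw [Real.norm_eq_abs]
        exact abs_sq_sub_le (YL_mem G hT h0 h1 hκ hκ1 D hD N L W e)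
          (YL_mem G hT h0 h1 hκ hκ1 D' hD' N L W e))
    simpa using h
  · exact (integrable_const _).add ((integrable_finsetSum _ fun f _ => hi f).const_mul _)
  · filter_upwards [ae_key_injective (V := V)] with L hL
    exact cauchy_L G hT h0 h1 hκ hκ1 hD hD' h N L hL W hW e he a ha (hlip L)


/-! ### the net limit -/

theorem evs_sq_sum (D : Finset V) (N : ℕ) (x : V → ℝ) (c : ℝ) :
    ∑ f ∈ evs D N, (c * x f.1) ^ 2 = N * c ^ 2 * ∑ u ∈ D, (x u) ^ 2 := by
  unfold evs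
  rw [Finset.sum_product]
  simp only [mul_pow, Finset.sum_const, Finset.card_range, nsmul_eq_mul, Finset.mul_sum]
  refine Finset.sum_congr rfl fun u _ => ?_
  ring

end

theorem lim_mono_cauchy {ι : Type*} (C : Finset V → Prop)
    (hdir : ∀ S : Finset V, ∃ D, S ⊆ D ∧ C D) (Q : ι → (D : Finset V) → C D → ℝ) (S0 : Finset V)
    (J : Finset ι)
    (hmono : ∀ j ∈ J, ∀ D D' (hD : C D) (hD' : C D'), S0 ⊆ D → D ⊆ D' → Q j D hD ≤ Q j D' hD')
    (hb : ∀ j D hD, Q j D hD ≤ 1) (δ : ℝ) (hδ : 0 < δ) :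
    ∃ S : Finset V, S0 ⊆ S ∧ ∀ D D' (hD : C D) (hD' : C D'), S ⊆ D → D ⊆ D' →
      ∀ j ∈ J, Q j D' hD' - Q j D hD ≤ δ := by
  classical
  have hone : ∀ j ∈ J, ∃ S : Finset V, S0 ⊆ S ∧ ∀ D D' (hD : C D) (hD' : C D'), S ⊆ D → D ⊆ D' →
      Q j D' hD' - Q j D hD ≤ δ := by
    intro j hj
    let X : Set ℝ := {x | ∃ D, ∃ hD : C D, S0 ⊆ D ∧ x = Q j D hD}
    have hne : X.Nonempty := by
      obtain ⟨D, h1, h2⟩ := hdir S0
      exact ⟨_, D, h2, h1, rfl⟩
    have hbdd : BddAbove X := ⟨1, by rintro x ⟨D, hD, _, rfl⟩; exact hb j D hD⟩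
    obtain ⟨x, ⟨D1, hD1, hS1, rfl⟩, hx⟩ := exists_lt_of_lt_csSup hne (sub_lt_self (sSup X) hδ)
    refine ⟨D1, hS1, fun D D' hD hD' h1 h2 => ?_⟩
    have h3 : Q j D' hD' ≤ sSup X := le_csSup hbdd ⟨D', hD', hS1.trans (h1.trans h2), rfl⟩
    have h4 : Q j D1 hD1 ≤ Q j D hD := hmono j hj D1 D hD1 hD hS1 h1
    linarith
  choose! S hS0 hS using hone
  refine ⟨S0 ∪ J.biUnion S, Finset.subset_union_left, fun D D' hD hD' h1 h2 j hj => ?_⟩
  refine hS j hj D D' hD hD' ?_ h2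
  exact (Finset.subset_biUnion_of_mem S hj).trans (Finset.subset_union_right.trans h1)

section
variable (G : SimpleGraph V) (hT : G.IsTree) {θ κ : ℝ} (h0 : 0 ≤ θ) (h1 : θ < 1)
    (hκ : 0 ≤ κ) (hκ1 : κ < 1)

/-- the Cauchy property of the finite volume observations along the net of finite subtrees -/
theorem YD_cauchy [Countable V] {ρ : ℝ} (e : V × ℕ)
    (hsum : Summable (fun w : V => (ρ ^ 2) ^ (G.dist e.1 w))) (hρ : 0 ≤ ρ)
    (hlip : ∀ (D : Finset V) (hD : (G.induce (D : Set V)).Connected) (L : V → ℝ) (N : ℕ),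
      ∀ e ∈ evs D N, ∀ w w' : V × ℕ → unitInterval,
      |(isys G hT h0 h1 hκ hκ1 D hD).F (rk L) (evs D N) (cw w) e
        - (isys G hT h0 h1 hκ hκ1 D hD).F (rk L) (evs D N) (cw w') e|
      ≤ ∑ f ∈ evs D N, (2 / (1 - κ) * 2 ^ e.2 * ρ ^ (G.dist e.1 f.1)) * |(w f : ℝ) - w' f|)
    (ε : ℝ) (hε : 0 < ε) :
    ∃ S : Finset V, e.1 ∈ S ∧ ∀ (D D' : Finset V) (hD : (G.induce (D : Set V)).Connected)
      (hD' : (G.induce (D' : Set V)).Connected), S ⊆ D → D ⊆ D' →
      ∫ ω, (YD G hT h0 h1 hκ hκ1 D hD (e.2 + 1) ω e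
        - YD G hT h0 h1 hκ hκ1 D' hD' (e.2 + 1) ω e) ^ 2 ∂(noiseV V) ≤ ε := by
  classical
  set N : ℕ := e.2 + 1 with hN
  set c : ℝ := 2 / (1 - κ) * 2 ^ e.2 with hc
  have hc0 : 0 < c := by
    have : 0 < 1 - κ := by linarith
    positivity
  set x : V → ℝ := fun u => ρ ^ (G.dist e.1 u) with hx
  have hx2 : ∀ u, (x u) ^ 2 = (ρ ^ 2) ^ (G.dist e.1 u) := fun u => by
    simp only [hx, ← pow_mul, mul_comm]
  -- the window
  have hK : 0 < 6 * (N * c ^ 2) := by
    have : (0 : ℝ) < N := by rw [hN]; positivity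
    positivity
  obtain ⟨B, hB⟩ := summable_iff_vanishing_norm.1 hsum (ε / 2 / (6 * (N * c ^ 2)))
    (by positivity)
  set B' : Finset V := insert e.1 B with hB'
  set W : Finset (V × ℕ) := evs B' N with hW
  set K : ℝ := 3 * W.card * (κ ^ 2 / 16) * ∑ f ∈ W, (c * x f.1) ^ 2 with hKdef
  have hK0 : 0 ≤ K := by
    refine mul_nonneg (by positivity) (Finset.sum_nonneg fun f _ => sq_nonneg _)
  obtain ⟨S, hS0, hS⟩ := lim_mono_cauchy (V := V)
    (fun D => (G.induce (D : Set V)).Connected) (fun S => exists_conn G hT S)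
    (fun (f : V × ℕ) D hD => QQ G hT h0 h1 hκ hκ1 D hD N f) B' W
    (by
      intro f hf D D' hD hD' h2 h3
      refine QQ_mono G hT h0 h1 hκ hκ1 hD hD' h3 N f (evs_mono h2 le_rfl hf))
    (fun f D hD => QQ_le_one G hT h0 h1 hκ hκ1 D hD N f) (ε / 2 / (K + 1)) (by positivity)
  refine ⟨S, hS0 (Finset.mem_insert_self _ _), fun D D' hD hD' hSD hDD' => ?_⟩
  have hB'D : B' ⊆ D := hS0.trans hSD
  have he : e ∈ evs D N := mem_evs.2 ⟨hB'D (Finset.mem_insert_self _ _), by omega⟩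
  have hWD : W ⊆ evs D N := evs_mono hB'D le_rfl
  have hmain := cauchy_D G hT h0 h1 hκ hκ1 hD hD' hDD' N W hWD e he (fun f => c * x f.1)
    (fun f => mul_nonneg hc0.le (pow_nonneg hρ _)) (by
      intro L w w'
      exact hlip D hD (fun v => ((L v : unitInterval) : ℝ)) N e he w w')
  refine hmain.trans ?_
  -- first term
  have ht1 : 6 * (∑ f ∈ evs D N, (c * x f.1) ^ 2 - ∑ f ∈ W, (c * x f.1) ^ 2) ≤ ε / 2 := by
    rw [hW, evs_sq_sum, evs_sq_sum]
    have h2 : ∑ u ∈ D, (x u) ^ 2 - ∑ u ∈ B', (x u) ^ 2 = ∑ u ∈ D \ B', (x u) ^ 2 := by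
      rw [← Finset.sum_sdiff hB'D]; ring
    have h3 : ∑ u ∈ D \ B', (x u) ^ 2 ≤ ε / 2 / (6 * (N * c ^ 2)) := by
      have h4 := hB (D \ B') (by
        refine Finset.disjoint_left.2 fun u hu hu2 => ?_
        exact (Finset.mem_sdiff.1 hu).2 (Finset.mem_insert_of_mem hu2))
      simp only [hx2]
      exact (Real.le_norm_self _).trans h4.le
    calc 6 * (N * c ^ 2 * ∑ u ∈ D, (x u) ^ 2 - N * c ^ 2 * ∑ u ∈ B', (x u) ^ 2)
        = 6 * (N * c ^ 2) * ∑ u ∈ D \ B', (x u) ^ 2 := by rw [← h2]; ring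
      _ ≤ 6 * (N * c ^ 2) * (ε / 2 / (6 * (N * c ^ 2))) := mul_le_mul_of_nonneg_left h3 hK.le
      _ = ε / 2 := by
        have hh : ∀ z : ℝ, 0 < z → z * (ε / 2 / z) = ε / 2 := fun z hz => by field_simp
        exact hh _ hK
  -- second term
  have ht2 : 3 * W.card * (κ ^ 2 / 16) * ∑ f ∈ W, (c * x f.1) ^ 2 *
          (QQ G hT h0 h1 hκ hκ1 D' hD' N f - QQ G hT h0 h1 hκ hκ1 D hD N f) ≤ ε / 2 := by
    have h2 : ∑ f ∈ W, (c * x f.1) ^ 2 *
          (QQ G hT h0 h1 hκ hκ1 D' hD' N f - QQ G hT h0 h1 hκ hκ1 D hD N f)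
        ≤ ∑ f ∈ W, (c * x f.1) ^ 2 * (ε / 2 / (K + 1)) :=
      Finset.sum_le_sum fun f hf =>
        mul_le_mul_of_nonneg_left (hS D D' hD hD' hSD hDD' f hf) (sq_nonneg _)
    calc 3 * W.card * (κ ^ 2 / 16) * ∑ f ∈ W, (c * x f.1) ^ 2 *
          (QQ G hT h0 h1 hκ hκ1 D' hD' N f - QQ G hT h0 h1 hκ hκ1 D hD N f)
        ≤ 3 * W.card * (κ ^ 2 / 16) * ∑ f ∈ W, (c * x f.1) ^ 2 * (ε / 2 / (K + 1)) :=
          mul_le_mul_of_nonneg_left h2 (by positivity)
      _ = K * (ε / 2 / (K + 1)) := by rw [← Finset.sum_mul, hKdef]; ring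
      _ ≤ (K + 1) * (ε / 2 / (K + 1)) := by
          refine mul_le_mul_of_nonneg_right (by linarith) (by positivity)
      _ = ε / 2 := by field_simp
  linarith


/-- the infinite volume observations -/
theorem exists_limit [Countable V] (d : ℕ)
    (hfin : ∀ v, (G.neighborSet v).Finite) (hd : ∀ v, (G.neighborSet v).ncard ≤ d) (hd2 : 2 ≤ d)
    {θ : ℝ} (h0 : 0 ≤ θ) (h1 : θ < 1) (h2 : θ ^ 2 * (d - 1) < 1) :
    ∃ (κ : ℝ) (hκ : 0 ≤ κ) (hκ1 : κ < 1), 0 < κ ∧
    ∃ y : V × ℕ → (V → ℕ → unitInterval) → ℝ,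
      (∀ e, Measurable (y e)) ∧ (∀ e ω, y e ω ∈ Set.Icc (0 : ℝ) 1) ∧
      (∀ e : V × ℕ, ∀ ε > 0, ∃ D0 : Finset V, e.1 ∈ D0 ∧ ∀ (D : Finset V)
        (hD : (G.induce (D : Set V)).Connected), D0 ⊆ D → ∀ N, e.2 < N →
        ∫ ω, (YD G hT h0 h1 hκ hκ1 D hD N ω e - y e ω) ^ 2 ∂(noiseV V) ≤ ε) := by
  classical
  -- choose ρ
  have hd1 : (0 : ℝ) < (d : ℝ) - 1 := by
    have : (2 : ℝ) ≤ d := by exact_mod_cast hd2
    linarith
  have hlt : θ < Real.sqrt (1 / (d - 1)) := by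
    apply Real.lt_sqrt_of_sq_lt
    rw [lt_div_iff₀ hd1]
    exact h2
  obtain ⟨ρ, hρ1, hρ2⟩ := exists_between hlt
  have hρ0 : 0 < ρ := h0.trans_lt hρ1
  have hρ3 : ρ ^ 2 * (d - 1) < 1 := by
    have h3 : ρ ^ 2 < 1 / (d - 1) := by
      rw [Real.lt_sqrt hρ0.le] at hρ2
      exact hρ2
    rwa [lt_div_iff₀ hd1] at h3
  obtain ⟨κ0, hκ0, hlip0⟩ := isys_F_lip G hT d hfin hd hd2 h0 h1 hρ1 hρ3
  have hκpos : 0 < min κ0 (1 / 2) := lt_min hκ0 (by norm_num)
  have hκlt : min κ0 (1 / 2) < 1 := lt_of_le_of_lt (min_le_right _ _) (by norm_num)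
  refine ⟨min κ0 (1 / 2), hκpos.le, hκlt, hκpos, ?_⟩
  have hlip := hlip0 (min κ0 (1 / 2)) hκpos.le hκlt (min_le_left _ _)
  have hone : ∀ e : V × ℕ, ∃ y : (V → ℕ → unitInterval) → ℝ, Measurable y ∧
      (∀ ω, y ω ∈ Set.Icc (0 : ℝ) 1) ∧ ∀ ε > 0, ∃ S : Finset V, e.1 ∈ S ∧ ∀ (D : Finset V)
        (hD : (G.induce (D : Set V)).Connected), S ⊆ D → ∀ N, e.2 < N →
        ∫ ω, (YD G hT h0 h1 hκpos.le hκlt D hD N ω e - y ω) ^ 2 ∂(noiseV V) ≤ ε := by
    intro e
    have hsum := sq_summable G hT d hfin hd hd2 hρ3 e.1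
    obtain ⟨y, hy1, hy2, hy3⟩ := net_limit (P := noiseV V)
      (fun D : Finset V => (G.induce (D : Set V)).Connected) (fun S => exists_conn G hT S)
      (fun D hD ω => YD G hT h0 h1 hκpos.le hκlt D hD (e.2 + 1) ω e)
      (fun D hD => measurable_YD G hT h0 h1 hκpos.le hκlt D hD (e.2 + 1) e)
      (fun D hD ω => YD_mem G hT h0 h1 hκpos.le hκlt D hD (e.2 + 1) ω e)
      (fun ε hε => by
        obtain ⟨S, _, hS⟩ := YD_cauchy G hT h0 h1 hκpos.le hκlt e hsum hρ0.le hlip ε hε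
        exact ⟨S, fun D D' hD hD' => hS D D' hD hD'⟩)
    refine ⟨y, hy1, hy2, fun ε hε => ?_⟩
    obtain ⟨S, hS⟩ := hy3 ε hε
    refine ⟨insert e.1 S, Finset.mem_insert_self _ _, fun D hD hSD N hN => ?_⟩
    have h3 := hS D hD ((Finset.subset_insert _ _).trans hSD)
    have h4 : ∀ ω, YD G hT h0 h1 hκpos.le hκlt D hD N ω e
        = YD G hT h0 h1 hκpos.le hκlt D hD (e.2 + 1) ω e := fun ω =>
      (YD_rounds G hT h0 h1 hκpos.le hκlt D hD (by omega) ω e
        (hSD (Finset.mem_insert_self _ _)) (by omega)).symm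
    simp only [h4]
    exact h3
  choose y hy1 hy2 hy3 using hone
  exact ⟨y, hy1, hy2, hy3⟩

end

end P161
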