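import Vale.Agent.P161.Defs

/-! Recovering the spins from infinitely many conditionally independent observations. -/

open MeasureTheory ProbabilityTheory Filter Topology
open scoped ENNReal

namespace P161

/-- The law of one observation of a spin of sign `τ`. -/
noncomputable def chan (κ τ : ℝ) : Measure ℝ :=
  (volume.restrict (Set.Icc (0 : ℝ) 1)).withDensity
    (fun y => ENNReal.ofReal (1 + κ * τ * (2 * y - 1)))

theorem dens_nonneg {κ τ y : ℝ} (hκ : 0 ≤ κ) (hκ1 : κ ≤ 1) (hτ : |τ| ≤ 1)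
    (hy : y ∈ Set.Icc (0 : ℝ) 1) : 0 ≤ 1 + κ * τ * (2 * y - 1) := by
  have h1 : |2 * y - 1| ≤ 1 := by rw [abs_le]; constructor <;> linarith [hy.1, hy.2]
  have h2 : |κ * τ * (2 * y - 1)| ≤ 1 := by
    rw [abs_mul, abs_mul, abs_of_nonneg hκ]
    have h3 : κ * |τ| ≤ 1 := by nlinarith [abs_nonneg τ]
    have h4 : 0 ≤ κ * |τ| := by positivity
    nlinarith [abs_nonneg (2 * y - 1)]
  linarith [(abs_le.1 h2).1]

theorem integral_chan {κ τ : ℝ} (hκ : 0 ≤ κ) (hκ1 : κ ≤ 1) (hτ : |τ| ≤ 1) (f : ℝ → ℝ) :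
    ∫ y, f y ∂(chan κ τ) = ∫ y in (0 : ℝ)..1, (1 + κ * τ * (2 * y - 1)) * f y := by
  unfold chan
  rw [integral_withDensity_eq_integral_toReal_smul (by fun_prop)
    (ae_of_all _ fun _ => ENNReal.ofReal_lt_top)]
  rw [intervalIntegral.integral_of_le zero_le_one, ← integral_Icc_eq_integral_Ioc]
  refine setIntegral_congr_fun measurableSet_Icc fun y hy => ?_
  simp only [smul_eq_mul]
  rw [ENNReal.toReal_ofReal (dens_nonneg hκ hκ1 hτ hy)]

theorem chan_univ {κ τ : ℝ} (hκ : 0 ≤ κ) (hκ1 : κ ≤ 1) (hτ : |τ| ≤ 1) :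
    chan κ τ Set.univ = 1 := by
  unfold chan
  rw [withDensity_apply _ MeasurableSet.univ, Measure.restrict_univ,
    ← ofReal_integral_eq_lintegral_ofReal]
  · rw [integral_Icc_eq_integral_Ioc, ← intervalIntegral.integral_of_le zero_le_one]
    have : ∫ y in (0 : ℝ)..1, (1 + κ * τ * (2 * y - 1)) = 1 := by
      rw [intervalIntegral.integral_add, intervalIntegral.integral_const_mul,
        intervalIntegral.integral_sub, intervalIntegral.integral_const_mul]
      · simp
      all_goals exact (Continuous.intervalIntegrable (by fun_prop) _ _)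
    rw [this, ENNReal.ofReal_one]
  · exact (Continuous.integrableOn_Icc (by fun_prop))
  · exact (ae_restrict_iff' measurableSet_Icc).2
      (ae_of_all _ fun y hy => dens_nonneg hκ hκ1 hτ hy)

theorem isProb_chan {κ τ : ℝ} (hκ : 0 ≤ κ) (hκ1 : κ ≤ 1) (hτ : |τ| ≤ 1) :
    IsProbabilityMeasure (chan κ τ) := ⟨chan_univ hκ hκ1 hτ⟩

theorem chan_ae {κ τ : ℝ} : ∀ᵐ y ∂(chan κ τ), y ∈ Set.Icc (0 : ℝ) 1 := by
  unfold chan
  refine (withDensity_absolutelyContinuous _ _).ae_le ?_
  exact ae_restrict_mem measurableSet_Icc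

theorem chan_mean {κ τ : ℝ} (hκ : 0 ≤ κ) (hκ1 : κ ≤ 1) (hτ : |τ| ≤ 1) :
    ∫ y, (2 * y - 1) ∂(chan κ τ) = κ * τ / 3 := by
  rw [integral_chan hκ hκ1 hτ]
  have h : ∀ y : ℝ, (1 + κ * τ * (2 * y - 1)) * (2 * y - 1) =
      (2 - 4 * κ * τ) * y + 4 * κ * τ * y ^ 2 + (κ * τ - 1) := by intro y; ring
  simp_rw [h]
  rw [intervalIntegral.integral_add, intervalIntegral.integral_add,
    intervalIntegral.integral_const_mul, intervalIntegral.integral_const_mul]
  · simp only [integral_id, integral_pow, intervalIntegral.integral_const, smul_eq_mul]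
    norm_num
    ring
  all_goals exact (Continuous.intervalIntegrable (by fun_prop) _ _)

/-! ### Chebyshev for a family of observations -/

section prod

variable {ι : Type*} [Fintype ι]

/-- The law of a family of observations. -/
noncomputable def obs (κ : ℝ) (τ : ι → ℝ) : Measure (ι → ℝ) := Measure.pi fun i => chan κ (τ i)

theorem isProb_obs {κ : ℝ} (hκ : 0 ≤ κ) (hκ1 : κ ≤ 1) (τ : ι → ℝ) (hτ : ∀ i, |τ i| ≤ 1) :
    IsProbabilityMeasure (obs κ τ) := by
  have : ∀ i, IsProbabilityMeasure (chan κ (τ i)) := fun i => isProb_chan hκ hκ1 (hτ i)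
  unfold obs
  infer_instance

theorem cheb {κ : ℝ} (hκ : 0 < κ) (hκ1 : κ ≤ 1) (τ : ι → ℝ) (hτ : ∀ i, |τ i| ≤ 1)
    (J : Finset ι) (hJ0 : J.Nonempty) (t : ℝ) (ht : t = 1 ∨ t = -1) (hJ : ∀ i ∈ J, τ i = t) :
    (obs κ τ).real {y | ¬ (0 < t * ∑ i ∈ J, (2 * y i - 1))} ≤ 9 / (κ ^ 2 * J.card) := by
  have : ∀ i, IsProbabilityMeasure (chan κ (τ i)) := fun i => isProb_chan hκ.le hκ1 (hτ i)
  have : IsProbabilityMeasure (obs κ τ) := isProb_obs hκ.le hκ1 τ hτ
  have hN : (0 : ℝ) < J.card := by exact_mod_cast hJ0.card_pos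
  set X : ι → (ι → ℝ) → ℝ := fun i y => 2 * y i - 1 with hX
  have hmeas : ∀ i, Measurable (X i) := fun i => by fun_prop
  have hmp : ∀ i, MeasurePreserving (Function.eval i) (obs κ τ) (chan κ (τ i)) := fun i =>
    measurePreserving_eval (fun i => chan κ (τ i)) i
  have hbd : ∀ i, ∀ᵐ y ∂(obs κ τ), X i y ∈ Set.Icc (-1 : ℝ) 1 := by
    intro i
    have h1 : ∀ᵐ y ∂(chan κ (τ i)), y ∈ Set.Icc (0 : ℝ) 1 := chan_ae
    have h2 := (hmp i).quasiMeasurePreserving.ae h1
    filter_upwards [h2] with y hy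
    have h3 : (0 : ℝ) ≤ y i := hy.1
    have h4 : y i ≤ 1 := hy.2
    exact ⟨by simp only [hX]; linarith, by simp only [hX]; linarith⟩
  have hL : ∀ i, MemLp (X i) 2 (obs κ τ) := by
    intro i
    refine MemLp.of_bound (hmeas i).aestronglyMeasurable 1 ?_
    filter_upwards [hbd i] with y hy
    rw [Real.norm_eq_abs, abs_le]
    exact hy
  have hind : iIndepFun X (obs κ τ) :=
    iIndepFun_pi (X := fun _ (y : ℝ) => 2 * y - 1) (fun i => by fun_prop)
  have hvar : variance (∑ i ∈ J, X i) (obs κ τ) ≤ J.card := by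
    rw [IndepFun.variance_sum (fun i _ => hL i) fun i _ j _ hij => hind.indepFun hij]
    calc ∑ i ∈ J, variance (X i) (obs κ τ) ≤ ∑ _i ∈ J, (1 : ℝ) := by
          refine Finset.sum_le_sum fun i _ => ?_
          refine (variance_le_sq_of_bounded (hbd i) (hmeas i).aemeasurable).trans ?_
          norm_num
      _ = J.card := by simp
  have hmean1 : ∀ i, ∫ y, X i y ∂(obs κ τ) = κ * τ i / 3 := by
    intro i
    rw [← chan_mean hκ.le hκ1 (hτ i)]
    have h1 := integral_map (μ := obs κ τ) (φ := Function.eval i)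
      (f := fun y : ℝ => 2 * y - 1) (hmp i).measurable.aemeasurable (by fun_prop)
    rw [(hmp i).map_eq] at h1
    exact h1.symm
  have hmean : ∫ y, (∑ i ∈ J, X i) y ∂(obs κ τ) = J.card * (κ * t / 3) := by
    simp only [Finset.sum_apply]
    rw [integral_finsetSum _ fun i _ => (hL i).integrable one_le_two]
    simp_rw [hmean1]
    rw [Finset.sum_congr rfl fun i hi => by rw [hJ i hi], Finset.sum_const, nsmul_eq_mul]
  have hLs : MemLp (∑ i ∈ J, X i) 2 (obs κ τ) := memLp_finsetSum' _ fun i _ => hL i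
  have hc : 0 < (J.card : ℝ) * κ / 3 := by positivity
  have hch := meas_ge_le_variance_div_sq hLs hc
  have hsub : {y : ι → ℝ | ¬ (0 < t * ∑ i ∈ J, (2 * y i - 1))} ⊆
      {y | (J.card : ℝ) * κ / 3 ≤ |(∑ i ∈ J, X i) y - ∫ y, (∑ i ∈ J, X i) y ∂(obs κ τ)|} := by
    intro y hy
    simp only [Set.mem_ofPred_eq, not_lt] at hy ⊢
    rw [hmean]
    simp only [Finset.sum_apply, hX]
    set Sm := ∑ i ∈ J, (2 * y i - 1) with hSm
    rcases ht with rfl | rfl
    · rw [abs_sub_comm]
      refine le_trans ?_ (le_abs_self _)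
      linarith
    · refine le_trans ?_ (le_abs_self _)
      linarith
  have h1 : (obs κ τ) {y | ¬ (0 < t * ∑ i ∈ J, (2 * y i - 1))} ≤
      ENNReal.ofReal (9 / (κ ^ 2 * J.card)) := by
    refine (measure_mono hsub).trans (hch.trans (ENNReal.ofReal_le_ofReal ?_))
    have h2 : ((J.card : ℝ) * κ / 3) ^ 2 = J.card ^ 2 * κ ^ 2 / 9 := by ring
    rw [h2]
    calc variance (∑ i ∈ J, X i) (obs κ τ) / ((J.card : ℝ) ^ 2 * κ ^ 2 / 9)
        ≤ (J.card : ℝ) / ((J.card : ℝ) ^ 2 * κ ^ 2 / 9) := by gcongr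
      _ = 9 / (κ ^ 2 * J.card) := by field_simp
  rw [measureReal_def]
  exact ENNReal.toReal_le_of_le_ofReal (by positivity) h1

end prod

/-! ### Recovering the sign -/

/-- Partial sums of the observations up to time `j ^ 2`. -/
def psum (y : ℕ → ℝ) (j : ℕ) : ℝ := ∑ k ∈ Finset.range (j ^ 2), (2 * y k - 1)

open scoped Classical in
/-- The spin recovered from a sequence of observations. -/
noncomputable def recov (y : ℕ → ℝ) : Bool := decide (∀ᶠ j : ℕ in atTop, 0 < psum y j)

theorem measurable_psum (j : ℕ) : Measurable (fun y : ℕ → ℝ => psum y j) := by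
  unfold psum; fun_prop

theorem measurableSet_recov : MeasurableSet {y : ℕ → ℝ | ∀ᶠ j : ℕ in atTop, 0 < psum y j} := by
  have : {y : ℕ → ℝ | ∀ᶠ j : ℕ in atTop, 0 < psum y j} =
      ⋃ K : ℕ, ⋂ j : ℕ, ⋂ (_ : K ≤ j), {y | 0 < psum y j} := by
    ext y
    simp [eventually_atTop]
  rw [this]
  exact MeasurableSet.iUnion fun K => MeasurableSet.iInter fun k => MeasurableSet.iInter fun _ =>
    measurableSet_lt measurable_const (measurable_psum _)

theorem measurable_recov : Measurable recov := by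
  refine measurable_to_bool ?_
  have : recov ⁻¹' {true} = {y : ℕ → ℝ | ∀ᶠ j : ℕ in atTop, 0 < psum y j} := by
    ext y; simp [recov]
  rw [this]
  exact measurableSet_recov

theorem ev_const (b : ℕ → Prop) (h : ∀ᶠ j : ℕ in atTop, (b j ↔ b (j + 1))) :
    ∀ᶠ j : ℕ in atTop, (b j ↔ ∀ᶠ i : ℕ in atTop, b i) := by
  obtain ⟨K, hK⟩ := eventually_atTop.1 h
  have hc : ∀ j, K ≤ j → (b j ↔ b K) := by
    intro j hj
    induction j, hj using Nat.le_induction with
    | base => exact Iff.rfl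
    | succ j hj ih => exact (hK j hj).symm.trans ih
  refine eventually_atTop.2 ⟨K, fun j hj => ?_⟩
  constructor
  · intro hb
    exact eventually_atTop.2 ⟨K, fun i hi => (hc i hi).2 ((hc j hj).1 hb)⟩
  · intro hb
    obtain ⟨M, hM⟩ := eventually_atTop.1 hb
    exact (hc j hj).2 ((hc _ (le_max_left K M)).1 (hM _ (le_max_right K M)))

section law

variable {V : Type*} (D : Finset V)

/-- the indices of the first `N` observations of `v` -/
def idx (K N : ℕ) (hN : N ≤ K) (v : D) : Finset (D × Fin K) :=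
  (Finset.univ : Finset (Fin N)).map
    ⟨fun k => (v, Fin.castLE hN k), fun a b h => by
      have := congrArg Prod.snd h
      exact Fin.castLE_injective hN this⟩

theorem idx_card (K N : ℕ) (hN : N ≤ K) (v : D) : (idx D K N hN v).card = N := by
  simp [idx]

theorem idx_sum (K N : ℕ) (hN : N ≤ K) (v : D) (y : D × Fin K → ℝ) :
    ∑ e ∈ idx D K N hN v, (2 * y e - 1) = ∑ k : Fin N, (2 * y (v, Fin.castLE hN k) - 1) := by
  rw [idx, Finset.sum_map]
  rfl

/-- the sign at time `j` computed from finitely many observations is wrong for `S` -/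
theorem obs_wrong {κ : ℝ} (hκ : 0 < κ) (hκ1 : κ ≤ 1) (S : Finset V) (K j : ℕ) (hj : 0 < j)
    (hK : j ^ 2 ≤ K) (v : D) :
    (obs κ (fun e : D × Fin K => sg (cfg S e.1))).real
      {y | ¬ ((0 < ∑ k : Fin (j ^ 2), (2 * y (v, Fin.castLE hK k) - 1)) ↔ cfg S v = true)} ≤
      9 / (κ ^ 2 * (j : ℝ) ^ 2) := by
  have hsg : ∀ b, sg b = 1 ∨ sg b = -1 := fun b => by cases b <;> simp [sg]
  have hsg' : ∀ b, |sg b| ≤ 1 := fun b => by cases b <;> simp [sg]
  have h1 := cheb hκ hκ1 (fun e : D × Fin K => sg (cfg S e.1)) (fun e => hsg' _)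
    (idx D K (j ^ 2) hK v) (by rw [← Finset.card_pos, idx_card]; positivity)
    (sg (cfg S v)) (hsg _) (by
      intro e he
      simp only [idx, Finset.mem_map, Finset.mem_univ, true_and] at he
      obtain ⟨k, rfl⟩ := he
      rfl)
  rw [idx_card] at h1
  push_cast at h1
  have : IsProbabilityMeasure (obs κ (fun e : D × Fin K => sg (cfg S e.1))) :=
    isProb_obs hκ.le hκ1 _ fun e => hsg' _
  refine le_trans (measureReal_mono ?_) h1
  intro y hy
  simp only [Set.mem_ofPred_eq] at hy ⊢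
  rw [idx_sum]
  intro h
  apply hy
  cases hc : cfg S (v : V) with
  | true =>
    rw [hc] at h
    simp only [sg, if_true, one_mul] at h
    exact iff_of_true h rfl
  | false =>
    rw [hc] at h
    simp only [sg, Bool.false_eq_true, if_false] at h
    refine iff_of_false ?_ (by simp)
    intro h2
    linarith

/-- bit number `j` of the vertex `v`, computed from finitely many observations -/
def fbit (K j : ℕ) (hK : j ^ 2 ≤ K) (v : D) (y : D × Fin K → ℝ) : Prop :=
  0 < ∑ k : Fin (j ^ 2), (2 * y (v, Fin.castLE hK k) - 1)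

theorem measurableSet_fbit (K j : ℕ) (hK : j ^ 2 ≤ K) (v : D) :
    MeasurableSet {y | fbit D K j hK v y} := by
  unfold fbit
  exact measurableSet_lt measurable_const (by fun_prop)

theorem fbit_eq {Ω : Type*} (Y : V → ℕ → Ω → ℝ) (K j : ℕ) (hK : j ^ 2 ≤ K) (v : D) (ω : Ω) :
    fbit D K j hK v (fun e : D × Fin K => Y e.1 e.2 ω) ↔ 0 < psum (fun k => Y v k ω) j := by
  unfold fbit psum
  rw [← Fin.sum_univ_eq_sum_range (fun k => 2 * Y v k ω - 1) (j ^ 2)]
  rfl

variable {Ω : Type*} [MeasurableSpace Ω] (P : Measure Ω) [IsProbabilityMeasure P]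
  (Y : V → ℕ → Ω → ℝ) (hY : ∀ v k, Measurable (Y v k)) {κ : ℝ} (hκ : 0 < κ) (hκ1 : κ ≤ 1)
  (q : Finset V → ℝ) (hq : ∀ S ∈ D.powerset, 0 ≤ q S) (hq1 : ∑ S ∈ D.powerset, q S = 1)
  (hlaw : ∀ K, ∀ A : Set (D × Fin K → ℝ), MeasurableSet A →
    P.real {ω | (fun e : D × Fin K => Y e.1 e.2 ω) ∈ A} =
      ∑ S ∈ D.powerset, q S * (obs κ (fun e : D × Fin K => sg (cfg S e.1))).real A)

omit [IsProbabilityMeasure P] in
include hκ hκ1 hq hq1 hlaw in
/-- two consecutive bits differ with small probability -/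
theorem prob_bit_ne (v : D) (j : ℕ) (hj : 0 < j) :
    P.real {ω | ¬ ((0 < psum (fun k => Y v k ω) j) ↔ (0 < psum (fun k => Y v k ω) (j + 1)))} ≤
      18 / (κ ^ 2 * (j : ℝ) ^ 2) := by
  have hK1 : j ^ 2 ≤ (j + 1) ^ 2 := Nat.pow_le_pow_left (Nat.le_succ j) 2
  have hj' : (0 : ℝ) < j := by exact_mod_cast hj
  set A : Set (D × Fin ((j + 1) ^ 2) → ℝ) :=
    {y | ¬ (fbit D _ j hK1 v y ↔ fbit D _ (j + 1) le_rfl v y)} with hA
  have hAm : MeasurableSet A := by
    have h1 := measurableSet_fbit D _ j hK1 v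
    have h2 := measurableSet_fbit D _ (j + 1) le_rfl v
    have : A = ({y | fbit D _ j hK1 v y} \ {y | fbit D _ (j + 1) le_rfl v y}) ∪
        ({y | fbit D _ (j + 1) le_rfl v y} \ {y | fbit D _ j hK1 v y}) := by
      ext y
      simp only [hA, Set.mem_ofPred_eq, Set.mem_union, Set.mem_sdiff]
      tauto
    rw [this]
    exact (h1.diff h2).union (h2.diff h1)
  have h1 := hlaw _ A hAm
  have h2 : {ω | (fun e : D × Fin ((j + 1) ^ 2) => Y e.1 e.2 ω) ∈ A} =
      {ω | ¬ ((0 < psum (fun k => Y v k ω) j) ↔ (0 < psum (fun k => Y v k ω) (j + 1)))} := by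
    ext ω
    simp only [hA, Set.mem_ofPred_eq, fbit_eq]
  rw [← h2, h1]
  have h3 : ∀ S ∈ D.powerset, q S *
      (obs κ (fun e : D × Fin ((j + 1) ^ 2) => sg (cfg S e.1))).real A ≤
      q S * (18 / (κ ^ 2 * (j : ℝ) ^ 2)) := by
    intro S hS
    refine mul_le_mul_of_nonneg_left ?_ (hq S hS)
    have hsg' : ∀ b, |sg b| ≤ 1 := fun b => by cases b <;> simp [sg]
    have : IsProbabilityMeasure (obs κ (fun e : D × Fin ((j + 1) ^ 2) => sg (cfg S e.1))) :=
      isProb_obs hκ.le hκ1 _ fun e => hsg' _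
    have e1 := obs_wrong D hκ hκ1 S _ j hj hK1 v
    have e2 := obs_wrong D hκ hκ1 S _ (j + 1) (Nat.succ_pos j) le_rfl v
    have e3 : 9 / (κ ^ 2 * ((j + 1 : ℕ) : ℝ) ^ 2) ≤ 9 / (κ ^ 2 * (j : ℝ) ^ 2) := by
      push_cast
      gcongr
      linarith
    have e4 : A ⊆ {y | ¬ (fbit D _ j hK1 v y ↔ cfg S v = true)} ∪
        {y | ¬ (fbit D _ (j + 1) le_rfl v y ↔ cfg S v = true)} := by
      intro y hy
      simp only [hA, Set.mem_ofPred_eq, Set.mem_union] at hy ⊢
      tauto
    refine (measureReal_mono e4).trans ((measureReal_union_le _ _).trans ?_)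
    have e5 : 18 / (κ ^ 2 * (j : ℝ) ^ 2) = 9 / (κ ^ 2 * (j : ℝ) ^ 2) + 9 / (κ ^ 2 * (j : ℝ) ^ 2) := by
      ring
    rw [e5]
    exact add_le_add e1 (e2.trans e3)
  refine (Finset.sum_le_sum h3).trans ?_
  rw [← Finset.sum_mul, hq1, one_mul]

include hκ hκ1 hq hq1 hlaw in
theorem ae_bits (v : D) : ∀ᵐ ω ∂P, ∀ᶠ j : ℕ in atTop,
    ((0 < psum (fun k => Y v k ω) j) ↔ recov (fun k => Y v k ω) = true) := by
  have h1 : ∀ᵐ ω ∂P, ∀ᶠ j : ℕ in atTop, ω ∉
      {ω | ¬ ((0 < psum (fun k => Y v k ω) (j + 1)) ↔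
        (0 < psum (fun k => Y v k ω) (j + 1 + 1)))} := by
    refine ae_eventually_notMem ?_
    have hb : ∀ j : ℕ, P {ω | ¬ ((0 < psum (fun k => Y v k ω) (j + 1)) ↔
        (0 < psum (fun k => Y v k ω) (j + 1 + 1)))} ≤
        ENNReal.ofReal (18 / (κ ^ 2 * ((j + 1 : ℕ) : ℝ) ^ 2)) := by
      intro j
      rw [← ofReal_measureReal]
      exact ENNReal.ofReal_le_ofReal
        (prob_bit_ne D P Y hκ hκ1 q hq hq1 hlaw v (j + 1) (Nat.succ_pos j))
    refine ne_top_of_le_ne_top ?_ (ENNReal.tsum_le_tsum hb)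
    have h2 : Summable (fun j : ℕ => 1 / ((j : ℝ)) ^ 2) :=
      Real.summable_one_div_nat_pow.2 (by norm_num)
    have h3 := ((summable_nat_add_iff 1).2 h2).mul_left (18 / κ ^ 2)
    have h4 : Summable (fun j : ℕ => 18 / (κ ^ 2 * ((j + 1 : ℕ) : ℝ) ^ 2)) := by
      refine h3.congr fun j => ?_
      have : ((j + 1 : ℕ) : ℝ) ≠ 0 := by positivity
      field_simp
    exact h4.tsum_ofReal_ne_top
  filter_upwards [h1] with ω hω
  have h2 : ∀ᶠ j : ℕ in atTop, ((0 < psum (fun k => Y v k ω) j) ↔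
      (0 < psum (fun k => Y v k ω) (j + 1))) := by
    rw [← map_add_atTop_eq_nat 1, eventually_map]
    filter_upwards [hω] with j hj
    simpa only [Set.mem_ofPred_eq, not_not] using hj
  filter_upwards [ev_const _ h2] with j hj
  rw [hj]
  simp [recov]

include hY in
theorem measurableSet_bits (j : ℕ) (η : V → Bool) :
    MeasurableSet {ω | ∀ v ∈ D, ((0 < psum (fun k => Y v k ω) j) ↔ η v = true)} := by
  have : {ω | ∀ v ∈ D, ((0 < psum (fun k => Y v k ω) j) ↔ η v = true)} =
      ⋂ v ∈ D, {ω | ((0 < psum (fun k => Y v k ω) j) ↔ η v = true)} := by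
    ext ω; simp
  rw [this]
  refine Finset.measurableSet_biInter _ fun v _ => ?_
  have h1 : Measurable fun ω => psum (fun k => Y v k ω) j :=
    (measurable_psum j).comp (measurable_pi_iff.2 fun k => hY v k)
  cases hη : η v with
  | true =>
    simp only [iff_true]
    exact measurableSet_lt measurable_const h1
  | false =>
    simp only [Bool.false_eq_true, iff_false]
    exact (measurableSet_lt measurable_const h1).compl

include hY in
theorem measurableSet_recovs (η : V → Bool) :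
    MeasurableSet {ω | ∀ v ∈ D, recov (fun k => Y v k ω) = η v} := by
  have : {ω | ∀ v ∈ D, recov (fun k => Y v k ω) = η v} =
      ⋂ v ∈ D, {ω | recov (fun k => Y v k ω) = η v} := by
    ext ω; simp
  rw [this]
  refine Finset.measurableSet_biInter _ fun v _ => ?_
  have h1 : Measurable fun ω => recov (fun k => Y v k ω) :=
    measurable_recov.comp (measurable_pi_iff.2 fun k => hY v k)
  exact h1 (measurableSet_singleton _)

open scoped Classical in
include hκ hκ1 hq hq1 hlaw in
omit [IsProbabilityMeasure P] in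
/-- the probability of prescribed bits is close to the weight of the configuration -/
theorem prob_bits (η : V → Bool) (j : ℕ) (hj : 0 < j) :
    |P.real {ω | ∀ v ∈ D, ((0 < psum (fun k => Y v k ω) j) ↔ η v = true)} -
      q (D.filter fun v => η v = true)| ≤ (D.card + 1) * (9 / (κ ^ 2 * (j : ℝ) ^ 2)) := by
  have hj' : (0 : ℝ) < j := by exact_mod_cast hj
  set A : Set (D × Fin (j ^ 2) → ℝ) :=
    {y | ∀ v : D, (fbit D _ j le_rfl v y ↔ η v = true)} with hA
  have hAm : MeasurableSet A := by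
    have : A = ⋂ v : D, {y | (fbit D _ j le_rfl v y ↔ η v = true)} := by
      ext y; simp [hA]
    rw [this]
    refine MeasurableSet.iInter fun v => ?_
    have h1 := measurableSet_fbit D _ j le_rfl v
    cases hη : η v with
    | true => simpa only [iff_true] using h1
    | false =>
      simp only [Bool.false_eq_true, iff_false]
      exact h1.compl
  have h1 := hlaw _ A hAm
  have h2 : {ω | (fun e : D × Fin (j ^ 2) => Y e.1 e.2 ω) ∈ A} =
      {ω | ∀ v ∈ D, ((0 < psum (fun k => Y v k ω) j) ↔ η v = true)} := by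
    ext ω
    simp only [hA, Set.mem_ofPred_eq, fbit_eq, Subtype.forall]
  rw [← h2, h1]
  set Sη := D.filter fun v => η v = true with hSη
  have hSη' : Sη ∈ D.powerset := Finset.mem_powerset.2 (Finset.filter_subset _ _)
  have hcfg : ∀ v ∈ D, cfg Sη v = η v := by
    intro v hv
    simp only [cfg, hSη, Finset.mem_filter, hv, true_and]
    cases η v <;> simp
  have hsg' : ∀ b, |sg b| ≤ 1 := fun b => by cases b <;> simp [sg]
  set δ := 9 / (κ ^ 2 * (j : ℝ) ^ 2) with hδ
  have hδ0 : 0 ≤ δ := by positivity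
  have hcmp : ∀ S ∈ D.powerset,
      |(obs κ (fun e : D × Fin (j ^ 2) => sg (cfg S e.1))).real A - (if S = Sη then 1 else 0)| ≤
        (D.card + 1) * δ := by
    intro S hS
    have : IsProbabilityMeasure (obs κ (fun e : D × Fin (j ^ 2) => sg (cfg S e.1))) :=
      isProb_obs hκ.le hκ1 _ fun e => hsg' _
    have e1 := fun v : D => obs_wrong D hκ hκ1 S _ j hj le_rfl v
    by_cases hSS : S = Sη
    · rw [if_pos hSS]
      have h3 : Aᶜ ⊆ ⋃ v ∈ (Finset.univ : Finset D),
          {y | ¬ (fbit D _ j le_rfl v y ↔ cfg S v = true)} := by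
        intro y hy
        simp only [hA, Set.mem_compl_iff, Set.mem_ofPred_eq, not_forall] at hy
        obtain ⟨v, hv⟩ := hy
        simp only [Finset.mem_univ, Set.iUnion_true, Set.mem_iUnion, Set.mem_ofPred_eq]
        refine ⟨v, ?_⟩
        rw [hSS, hcfg v v.2]
        exact hv
      have h4 : (obs κ (fun e : D × Fin (j ^ 2) => sg (cfg S e.1))).real Aᶜ ≤ D.card * δ := by
        refine (measureReal_mono h3 (measure_ne_top _ _)).trans
          ((measureReal_biUnion_finset_le _ _).trans ?_)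
        refine (Finset.sum_le_sum fun v _ => e1 v).trans ?_
        simp [hδ]
      have h5 := probReal_compl_eq_one_sub
        (μ := obs κ (fun e : D × Fin (j ^ 2) => sg (cfg S e.1))) hAm
      have h6 : (obs κ (fun e : D × Fin (j ^ 2) => sg (cfg S e.1))).real A ≤ 1 := measureReal_le_one
      rw [abs_le]
      constructor <;> nlinarith
    · rw [if_neg hSS, sub_zero, abs_of_nonneg measureReal_nonneg]
      have hex : ∃ v ∈ D, cfg S v ≠ η v := by
        by_contra hcon
        push Not at hcon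
        apply hSS
        ext v
        constructor
        · intro hv
          have hvD := Finset.mem_powerset.1 hS hv
          have := hcon v hvD
          simp only [cfg, hv, decide_true] at this
          exact Finset.mem_filter.2 ⟨hvD, this.symm⟩
        · intro hv
          have hvD := (Finset.mem_filter.1 hv).1
          have := hcon v hvD
          rw [(Finset.mem_filter.1 hv).2] at this
          simpa [cfg] using this
      obtain ⟨v, hvD, hv⟩ := hex
      have h3 : A ⊆ {y | ¬ (fbit D _ j le_rfl ⟨v, hvD⟩ y ↔ cfg S v = true)} := by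
        intro y hy
        have := hy ⟨v, hvD⟩
        simp only [Set.mem_ofPred_eq]
        rw [this]
        intro h
        apply hv
        cases h1 : cfg S v <;> cases h2 : η v <;> simp_all
      refine (measureReal_mono h3).trans ((e1 ⟨v, hvD⟩).trans ?_)
      have : (0 : ℝ) ≤ D.card := Nat.cast_nonneg _
      nlinarith
  have hqS : q Sη = ∑ S ∈ D.powerset, q S * (if S = Sη then 1 else 0) := by
    simp only [mul_ite, mul_one, mul_zero]
    rw [Finset.sum_ite_eq' D.powerset Sη q, if_pos hSη']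
  rw [hqS, ← Finset.sum_sub_distrib]
  refine (Finset.abs_sum_le_sum_abs _ _).trans ?_
  calc ∑ S ∈ D.powerset, |q S * (obs κ (fun e : D × Fin (j ^ 2) => sg (cfg S e.1))).real A -
        q S * (if S = Sη then 1 else 0)|
      ≤ ∑ S ∈ D.powerset, q S * ((D.card + 1) * δ) := by
        refine Finset.sum_le_sum fun S hS => ?_
        rw [← mul_sub, abs_mul, abs_of_nonneg (hq S hS)]
        exact mul_le_mul_of_nonneg_left (hcmp S hS) (hq S hS)
    _ = (D.card + 1) * δ := by rw [← Finset.sum_mul, hq1, one_mul]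

open scoped Classical in
include hY hκ hκ1 hq hq1 hlaw in
/-- The law of the recovered spins. -/
theorem recov_law (η : V → Bool) :
    P.real {ω | ∀ v ∈ D, recov (fun k => Y v k ω) = η v} = q (D.filter fun v => η v = true) := by
  have h1 : Tendsto (fun j : ℕ =>
      P.real {ω | ∀ v ∈ D, ((0 < psum (fun k => Y v k ω) j) ↔ η v = true)}) atTop
      (𝓝 (P.real {ω | ∀ v ∈ D, recov (fun k => Y v k ω) = η v})) := by
    have h2 := tendsto_measure_of_ae_tendsto_indicator_of_isFiniteMeasure (μ := P) atTop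
      (measurableSet_recovs D Y hY η) (fun j => measurableSet_bits D Y hY j η) (by
        have hall : ∀ᵐ ω ∂P, ∀ v : D, ∀ᶠ j : ℕ in atTop,
            ((0 < psum (fun k => Y v k ω) j) ↔ recov (fun k => Y v k ω) = true) :=
          ae_all_iff.2 fun v => ae_bits D P Y hκ hκ1 q hq hq1 hlaw v
        filter_upwards [hall] with ω hω
        filter_upwards [eventually_all.2 hω] with j hj
        refine forall₂_congr fun v hv => ?_
        rw [hj ⟨v, hv⟩]
        cases recov (fun k => Y v k ω) <;> cases η v <;> simp)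
    exact (ENNReal.tendsto_toReal (measure_ne_top _ _)).comp h2
  have h3 : Tendsto (fun j : ℕ =>
      P.real {ω | ∀ v ∈ D, ((0 < psum (fun k => Y v k ω) j) ↔ η v = true)}) atTop
      (𝓝 (q (D.filter fun v => η v = true))) := by
    rw [tendsto_iff_norm_sub_tendsto_zero]
    have h4 : Tendsto (fun j : ℕ => ((D.card : ℝ) + 1) * (9 / (κ ^ 2 * (j : ℝ) ^ 2))) atTop
        (𝓝 0) := by
      have h5 : Tendsto (fun j : ℕ => 9 / (κ ^ 2 * (j : ℝ) ^ 2)) atTop (𝓝 0) := by
        refine Tendsto.div_atTop tendsto_const_nhds ?_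
        refine Tendsto.const_mul_atTop (by positivity) ?_
        exact (tendsto_pow_atTop (by norm_num)).comp tendsto_natCast_atTop_atTop
      simpa using h5.const_mul ((D.card : ℝ) + 1)
    refine squeeze_zero' (Eventually.of_forall fun _ => norm_nonneg _) ?_ h4
    filter_upwards [eventually_gt_atTop 0] with j hj
    exact prob_bits D P Y hκ hκ1 q hq hq1 hlaw η j hj
  exact tendsto_nhds_unique h1 h3

end law

end P161
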