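import Vale.Agent.P161.SysDefs
import Vale.Agent.P161.Sign

/-! The law of the recovered spins, from the densities of the observations. -/

open MeasureTheory ProbabilityTheory Filter Topology
open scoped ENNReal unitInterval

namespace P161

/-! ### Product of densities -/

theorem pi_withDensity' {ι : Type*} [Fintype ι] (ν : Measure ℝ) [IsProbabilityMeasure ν]
    (g : ι → ℝ → ℝ≥0∞) (hg : ∀ i, Measurable (g i))
    (hp : ∀ i, IsProbabilityMeasure (ν.withDensity (g i))) :
    Measure.pi (fun i => ν.withDensity (g i)) =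
      (Measure.pi (fun _ : ι => ν)).withDensity (fun y => ∏ i, g i (y i)) := by
  refine Measure.pi_eq fun s hs => ?_
  rw [withDensity_apply _ (MeasurableSet.univ_pi hs),
    ← lintegral_indicator (MeasurableSet.univ_pi hs)]
  have h1 : ∀ y : ι → ℝ, (Set.univ.pi s).indicator (fun y => ∏ i, g i (y i)) y =
      ∏ i, (s i).indicator (g i) (y i) := by
    intro y
    by_cases hy : y ∈ Set.univ.pi s
    · rw [Set.indicator_of_mem hy]
      refine Finset.prod_congr rfl fun i _ => ?_
      rw [Set.indicator_of_mem (hy i (Set.mem_univ i))]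
    · rw [Set.indicator_of_notMem hy]
      simp only [Set.mem_pi, Set.mem_univ, forall_const, not_forall] at hy
      obtain ⟨i, hi⟩ := hy
      exact (Finset.prod_eq_zero (Finset.mem_univ i) (Set.indicator_of_notMem hi _)).symm
  simp_rw [h1]
  have hind : iIndepFun (fun i (y : ι → ℝ) => (s i).indicator (g i) (y i))
      (Measure.pi (fun _ : ι => ν)) :=
    iIndepFun_pi (X := fun i => (s i).indicator (g i))
      (fun i => ((hg i).indicator (hs i)).aemeasurable)
  rw [lintegral_prod_eq_prod_lintegral_of_indepFun Finset.univ _ hind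
    (fun i => ((hg i).indicator (hs i)).comp (measurable_pi_apply i))]
  refine Finset.prod_congr rfl fun i _ => ?_
  rw [withDensity_apply _ (hs i), ← lintegral_indicator (hs i)]
  have hmp := measurePreserving_eval (fun _ : ι => ν) i
  rw [← hmp.lintegral_comp ((hg i).indicator (hs i))]

/-- uniform law on `[0,1]` as a measure on `ℝ` -/
noncomputable def unifR : Measure ℝ := volume.restrict (Set.Icc (0 : ℝ) 1)

instance : IsProbabilityMeasure unifR := ⟨by simp [unifR]⟩

theorem obs_eq {ι : Type*} [Fintype ι] {κ : ℝ} (hκ : 0 ≤ κ) (hκ1 : κ ≤ 1) (τ : ι → ℝ)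
    (hτ : ∀ i, |τ i| ≤ 1) :
    obs κ τ = (Measure.pi (fun _ : ι => unifR)).withDensity
      (fun y => ∏ i, ENNReal.ofReal (1 + κ * τ i * (2 * y i - 1))) := by
  unfold obs chan
  exact pi_withDensity' unifR (fun i y => ENNReal.ofReal (1 + κ * τ i * (2 * y - 1)))
    (fun i => by fun_prop) (fun i => isProb_chan hκ hκ1 (hτ i))

theorem unif_ae {ι : Type*} [Fintype ι] :
    ∀ᵐ y ∂(Measure.pi (fun _ : ι => unifR)), ∀ i, y i ∈ Set.Icc (0 : ℝ) 1 := by
  refine ae_all_iff.2 fun i => ?_
  have hmp := measurePreserving_eval (fun _ : ι => unifR) i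
  exact hmp.quasiMeasurePreserving.ae (ae_restrict_mem measurableSet_Icc)

theorem integral_obs {ι : Type*} [Fintype ι] {κ : ℝ} (hκ : 0 ≤ κ) (hκ1 : κ ≤ 1) (τ : ι → ℝ)
    (hτ : ∀ i, |τ i| ≤ 1) (f : (ι → ℝ) → ℝ) :
    ∫ y, f y ∂(obs κ τ) =
      ∫ y, f y * ∏ i, (1 + κ * τ i * (2 * y i - 1)) ∂(Measure.pi (fun _ : ι => unifR)) := by
  rw [obs_eq hκ hκ1 τ hτ, integral_withDensity_eq_integral_toReal_smul]
  · refine integral_congr_ae ?_
    filter_upwards [unif_ae] with y hy
    rw [smul_eq_mul, mul_comm, ENNReal.toReal_prod]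
    congr 1
    refine Finset.prod_congr rfl fun i _ => ?_
    rw [ENNReal.toReal_ofReal (dens_nonneg hκ hκ1 (hτ i) (hy i))]
  · exact Finset.measurable_fun_prod _ fun i _ => by fun_prop
  · refine ae_of_all _ fun y => ?_
    exact ENNReal.prod_lt_top fun i _ => ENNReal.ofReal_lt_top

section

variable {V : Type*}

/-- restriction of a field of observations to the first `N` rounds in `D` -/
def rs (D : Finset V) (N : ℕ) (z : V × ℕ → ℝ) : D × Fin N → ℝ := fun i => z (i.1, i.2)

theorem measurable_rs_cw (D : Finset V) (N : ℕ) :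
    Measurable (fun z : V × ℕ → I => rs D N (cw z)) := by
  unfold rs cw
  exact measurable_pi_iff.2 fun i => measurable_subtype_coe.comp (measurable_pi_apply _)

theorem rs_map (D : Finset V) (N : ℕ) :
    (noise (V × ℕ)).map (fun z => rs D N (cw z)) = Measure.pi (fun _ : D × Fin N => unifR) := by
  classical
  set ι := D × Fin N
  let em : ι → V × ℕ := fun i => (i.1, i.2)
  have hem : Function.Injective em := by
    rintro ⟨a, b⟩ ⟨c, d⟩ h
    have h1 := congrArg Prod.fst h
    have h2 := congrArg Prod.snd h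
    simp only [em] at h1 h2
    exact Prod.ext (Subtype.ext h1) (Fin.ext h2)
  refine (Measure.pi_eq fun s hs => ?_).symm
  rw [Measure.map_apply _ (MeasurableSet.univ_pi hs)]
  · have hset : (fun z : V × ℕ → I => rs D N (cw z)) ⁻¹' Set.univ.pi s =
        (Set.pi (Finset.univ.map ⟨em, hem⟩ : Finset (V × ℕ))
          (fun e => if h : ∃ i, em i = e then
            ((↑) : I → ℝ) ⁻¹' s h.choose else Set.univ)) := by
      ext z
      simp only [Set.mem_preimage, Set.mem_pi, Set.mem_univ, forall_const, Finset.coe_map,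
        Function.Embedding.coeFn_mk, Finset.coe_univ, Set.image_univ, Set.mem_range,
        forall_exists_index]
      constructor
      · rintro h e i rfl
        have hex : ∃ j, em j = em i := ⟨i, rfl⟩
        rw [dif_pos hex]
        have hi := hex.choose_spec
        have := h hex.choose
        simp only [Set.mem_preimage]
        have h2 : rs D N (cw z) hex.choose = z (em hex.choose) := rfl
        rw [h2, hi] at this
        exact this
      · intro h i
        have := h (em i) i rfl
        have hex : ∃ j, em j = em i := ⟨i, rfl⟩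
        rw [dif_pos hex] at this
        have hi : hex.choose = i := hem hex.choose_spec
        rw [hi] at this
        exact this
    rw [hset]
    unfold noise
    rw [Measure.infinitePi_pi]
    · rw [Finset.prod_map]
      refine Finset.prod_congr rfl fun i _ => ?_
      have hex : ∃ j, em j = em i := ⟨i, rfl⟩
      have hi : hex.choose = i := hem hex.choose_spec
      simp only [Function.Embedding.coeFn_mk]
      rw [dif_pos hex, hi]
      have hmp := unitInterval.measurePreserving_coe
      exact hmp.measure_preimage (hs i).nullMeasurableSet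
    · intro e _
      split_ifs
      · exact measurable_subtype_coe (hs _)
      · exact MeasurableSet.univ
  · exact measurable_rs_cw D N

theorem prod_evs (D : Finset V) (N : ℕ) (g : V × ℕ → ℝ) :
    ∏ e ∈ evs D N, g e = ∏ i : D × Fin N, g (i.1, i.2) := by
  unfold evs
  rw [Finset.prod_product, Fintype.prod_prod_type, ← Finset.prod_coe_sort D]
  refine Finset.prod_congr rfl fun v _ => ?_
  exact Finset.prod_range fun k => g (v, k)

theorem integral_lik {κ : ℝ} (hκ : 0 ≤ κ) (hκ1 : κ ≤ 1) (D : Finset V) (N : ℕ) (S : Finset V)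
    (f : (D × Fin N → ℝ) → ℝ) (hf : Measurable f) :
    ∫ z, f (rs D N (cw z)) * ∏ e ∈ evs D N, (1 + κ * sg (cfg S e.1) * (2 * cw z e - 1))
      ∂(noise (V × ℕ)) = ∫ y, f y ∂(obs κ (fun i : D × Fin N => sg (cfg S i.1))) := by
  have hsg' : ∀ b, |sg b| ≤ 1 := fun b => by cases b <;> simp [sg]
  rw [integral_obs hκ hκ1 _ (fun _ => hsg' _), ← rs_map D N, integral_map]
  · refine integral_congr_ae (ae_of_all _ fun z => ?_)
    simp only
    rw [prod_evs]
    rfl
  · exact (measurable_rs_cw D N).aemeasurable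
  · refine (hf.mul ?_).aestronglyMeasurable
    exact Finset.measurable_fun_prod _ fun i _ => by fun_prop

theorem integrable_lik {κ : ℝ} (hκ : 0 ≤ κ) (hκ1 : κ ≤ 1) (A : Finset (V × ℕ)) (S : Finset V)
    (g : (V × ℕ → I) → ℝ) (hg : Measurable g) (C : ℝ) (hC : ∀ z, |g z| ≤ C) :
    Integrable (fun z => g z * ∏ e ∈ A, (1 + κ * sg (cfg S e.1) * (2 * cw z e - 1)))
      (noise (V × ℕ)) := by
  have hsg' : ∀ b, |sg b| ≤ 1 := fun b => by cases b <;> simp [sg]
  have hm : ∀ e : V × ℕ, Measurable (fun z : V × ℕ → I => cw z e) := fun e =>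
    measurable_subtype_coe.comp (measurable_pi_apply e)
  refine Integrable.of_bound (C := C * 2 ^ A.card)
    ((hg.mul (Finset.measurable_fun_prod _ fun e _ => by
      have := hm e
      fun_prop)).aestronglyMeasurable) (ae_of_all _ fun z => ?_)
  rw [Real.norm_eq_abs, abs_mul, Finset.abs_prod]
  have hC0 : 0 ≤ C := (abs_nonneg _).trans (hC z)
  refine mul_le_mul (hC z) ?_ (Finset.prod_nonneg fun _ _ => abs_nonneg _) hC0
  rw [← Finset.prod_const]
  refine Finset.prod_le_prod (fun _ _ => abs_nonneg _) fun e _ => ?_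
  have h0 : (0 : ℝ) ≤ cw z e := (z e).2.1
  have h1 : cw z e ≤ 1 := (z e).2.2
  have h2 : |2 * cw z e - 1| ≤ 1 := by rw [abs_le]; constructor <;> linarith
  have h3 : |κ * sg (cfg S e.1) * (2 * cw z e - 1)| ≤ 1 := by
    rw [abs_mul, abs_mul, abs_of_nonneg hκ]
    have h4 := hsg' (cfg S e.1)
    have h5 : κ * |sg (cfg S e.1)| ≤ 1 := by nlinarith [abs_nonneg (sg (cfg S e.1))]
    have h6 : 0 ≤ κ * |sg (cfg S e.1)| := by positivity
    nlinarith [abs_nonneg (2 * cw z e - 1)]
  calc |1 + κ * sg (cfg S e.1) * (2 * cw z e - 1)|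
      ≤ |(1 : ℝ)| + |κ * sg (cfg S e.1) * (2 * cw z e - 1)| := abs_add_le _ _
    _ ≤ 2 := by rw [abs_one]; linarith

variable {Ω : Type*} [MeasurableSpace Ω] (P : Measure Ω) [IsProbabilityMeasure P]

open scoped Classical in
/-- The law of the recovered spins. -/
theorem sign_law (M : Sys (Finset V) (V × ℕ)) (D : Finset V) (hT : M.T = D.powerset)
    (hx : ∀ S e, M.x S e = sg (cfg S e.1)) (hκ : 0 < M.κ)
    (y : V × ℕ → Ω → ℝ) (hy : ∀ e, Measurable (y e))
    (hH : ∀ N, ∀ f : (D × Fin N → ℝ) → ℝ, Continuous f → (∃ C, ∀ z, |f z| ≤ C) →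
      ∫ ω, f (fun i => y (i.1, i.2) ω) ∂P =
        ∫ z, f (rs D N (cw z)) * M.den (evs D N) (cw z) ∂(noise (V × ℕ)))
    (η : V → Bool) :
    P.real {ω | ∀ v ∈ D, recov (fun k => y (v, k) ω) = η v} =
      M.μ (D.filter fun v => η v = true) := by
  have hκ1 : M.κ ≤ 1 := M.κ_lt.le
  have hsg' : ∀ b, |sg b| ≤ 1 := fun b => by cases b <;> simp [sg]
  refine recov_law D P (fun v k => y (v, k)) (fun v k => hy _) hκ hκ1 M.μ
    (fun S hS => M.μ_nonneg S (hT ▸ hS)) (hT ▸ M.μ_sum) ?_ η
  intro N A hA
  have hpr : ∀ S : Finset V,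
      IsProbabilityMeasure (obs M.κ (fun e : D × Fin N => sg (cfg S e.1))) := fun S =>
    isProb_obs hκ.le hκ1 _ fun e => hsg' _
  set Yv : Ω → D × Fin N → ℝ := fun ω i => y (i.1, i.2) ω with hYv
  have hYm : Measurable Yv := measurable_pi_iff.2 fun i => hy _
  have hmeas : P.map Yv = ∑ S ∈ D.powerset, (M.μ S).toNNReal •
      obs M.κ (fun e : D × Fin N => sg (cfg S e.1)) := by
    have : IsFiniteMeasure (P.map Yv) := by
      have := Measure.isProbabilityMeasure_map (μ := P) hYm.aemeasurable
      infer_instance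
    refine ext_of_forall_integral_eq_of_IsFiniteMeasure fun f => ?_
    rw [integral_map hYm.aemeasurable f.continuous.aestronglyMeasurable]
    have h1 := hH N f f.continuous ⟨‖f‖, fun z => f.norm_coe_le_norm z⟩
    simp only [hYv]
    rw [h1]
    have hint : ∀ S ∈ D.powerset, Integrable f
        ((M.μ S).toNNReal • obs M.κ (fun e : D × Fin N => sg (cfg S e.1))) := by
      intro S _
      exact (f.integrable _).smul_measure_nnreal
    rw [integral_finsetSum_measure hint]
    have h2 : ∀ z : V × ℕ → I, f (rs D N (cw z)) * M.den (evs D N) (cw z) =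
        ∑ S ∈ D.powerset, M.μ S * (f (rs D N (cw z)) *
          ∏ e ∈ evs D N, (1 + M.κ * sg (cfg S e.1) * (2 * cw z e - 1))) := by
      intro z
      unfold Sys.den Sys.lik
      rw [hT, Finset.mul_sum]
      refine Finset.sum_congr rfl fun S _ => ?_
      simp only [hx]
      ring
    simp_rw [h2]
    rw [integral_finsetSum]
    · refine Finset.sum_congr rfl fun S hS => ?_
      rw [integral_const_mul, integral_lik hκ.le hκ1 D N S f f.continuous.measurable,
        integral_smul_nnreal_measure]
      rw [NNReal.smul_def, Real.coe_toNNReal _ (M.μ_nonneg S (hT ▸ hS)), smul_eq_mul]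
    · intro S _
      exact (integrable_lik hκ.le hκ1 (evs D N) S (fun z => f (rs D N (cw z)))
        (f.continuous.measurable.comp (measurable_rs_cw D N)) ‖f‖
        (fun z => f.norm_coe_le_norm _)).const_mul _
  have h3 : P.real {ω | (fun e : D × Fin N => y (e.1, e.2) ω) ∈ A} = (P.map Yv).real A := by
    rw [measureReal_def, measureReal_def, Measure.map_apply hYm hA]
    rfl
  rw [h3, hmeas, measureReal_def, Measure.finsetSum_apply]
  rw [ENNReal.toReal_sum]
  · refine Finset.sum_congr rfl fun S hS => ?_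
    rw [Measure.smul_apply, ENNReal.smul_def, smul_eq_mul, ENNReal.toReal_mul,
      ENNReal.coe_toReal, Real.coe_toNNReal _ (M.μ_nonneg S (hT ▸ hS))]
    rfl
  · intro S _
    rw [Measure.smul_apply, ENNReal.smul_def, smul_eq_mul]
    exact ENNReal.mul_ne_top ENNReal.coe_ne_top (measure_ne_top _ _)

end

end P161
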