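import Vale.Agent.P161.ISys
import Vale.Agent.P161.NoiseV

/-!
# P161: equivariance of the finite volume systems
-/

open MeasureTheory

namespace P161

variable {V : Type*} {G : SimpleGraph V}

/-- the embedding given by an automorphism. -/
def gem (g : G ≃g G) : V ↪ V := g.toEquiv.toEmbedding

theorem gem_apply (g : G ≃g G) (v : V) : gem g v = g v := rfl

/-- action on events -/
def gev (g : G ≃g G) : V × ℕ ≃ V × ℕ := g.toEquiv.prodCongr (Equiv.refl ℕ)

theorem gev_fst (g : G ≃g G) (e : V × ℕ) : (gev g e).1 = g e.1 := rfl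

theorem gev_snd (g : G ≃g G) (e : V × ℕ) : (gev g e).2 = e.2 := rfl

theorem connected_gem (g : G ≃g G) {D : Finset V} (hD : (G.induce (D : Set V)).Connected) :
    (G.induce ((D.map (gem g) : Finset V) : Set V)).Connected := by
  let φ : G.induce (D : Set V) →g G.induce ((D.map (gem g) : Finset V) : Set V) :=
    { toFun := fun x => ⟨gem g x.1, Finset.mem_coe.2 (Finset.mem_map_of_mem _ x.2)⟩
      map_rel' := by
        intro a b hab
        exact g.map_rel_iff.2 (show G.Adj a.1 b.1 from hab) }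
  obtain ⟨⟨v, hv⟩⟩ := hD.nonempty
  refine (SimpleGraph.connected_iff _).2 ⟨?_, ⟨φ ⟨v, hv⟩⟩⟩
  rintro ⟨x, hx⟩ ⟨y, hy⟩
  obtain ⟨a, ha, rfl⟩ := Finset.mem_map.1 (Finset.mem_coe.1 hx)
  obtain ⟨b, hb, rfl⟩ := Finset.mem_map.1 (Finset.mem_coe.1 hy)
  exact (hD ⟨a, ha⟩ ⟨b, hb⟩).map φ

open scoped Classical in
theorem cfg_gem (g : G ≃g G) (S : Finset V) (u : V) : cfg (S.map (gem g)) (g u) = cfg S u := by
  unfold cfg
  rw [decide_eq_decide, ← gem_apply, Finset.mem_map']

theorem ew_gem (g : G ≃g G) (θ : ℝ) (S : Finset V) (e : Sym2 V) :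
    ew θ (cfg (S.map (gem g))) (Sym2.map g e) = ew θ (cfg S) e := by
  induction e with
  | _ a b =>
    rw [Sym2.map_mk, ew_mk, ew_mk, cfg_gem, cfg_gem]

open scoped Classical in
theorem prod_ew_gem (g : G ≃g G) (θ : ℝ) (D S : Finset V) :
    ∏ e ∈ edgesIn G (D.map (gem g)), ew θ (cfg (S.map (gem g))) e
      = ∏ e ∈ edgesIn G D, ew θ (cfg S) e := by
  symm
  refine Finset.prod_nbij (Sym2.map g) ?_ ?_ ?_ fun e _ => (ew_gem g θ S e).symm
  · intro e he
    unfold edgesIn at he ⊢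
    rw [Finset.mem_filter] at he ⊢
    induction e with
    | _ a b =>
      rw [Sym2.map_mk, Finset.mk_mem_sym2_iff, SimpleGraph.mem_edgeSet]
      rw [Finset.mk_mem_sym2_iff, SimpleGraph.mem_edgeSet] at he
      exact ⟨⟨Finset.mem_map_of_mem (gem g) he.1.1, Finset.mem_map_of_mem (gem g) he.1.2⟩,
        g.map_rel_iff.2 he.2⟩
  · exact (Sym2.map.injective g.injective).injOn
  · intro e he
    rw [Finset.mem_coe] at he
    unfold edgesIn at he
    rw [Finset.mem_filter] at he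
    induction e with
    | _ a b =>
      rw [Finset.mk_mem_sym2_iff, SimpleGraph.mem_edgeSet] at he
      obtain ⟨⟨ha, hb⟩, hab⟩ := he
      obtain ⟨a', ha', rfl⟩ := Finset.mem_map.1 ha
      obtain ⟨b', hb', rfl⟩ := Finset.mem_map.1 hb
      refine ⟨s(a', b'), ?_, rfl⟩
      rw [Finset.mem_coe]
      unfold edgesIn
      rw [Finset.mem_filter, Finset.mk_mem_sym2_iff, SimpleGraph.mem_edgeSet]
      exact ⟨⟨ha', hb'⟩, g.map_rel_iff.1 hab⟩

theorem isw_gem (g : G ≃g G) (θ : ℝ) (D S : Finset V) :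
    isw G θ (D.map (gem g)) (S.map (gem g)) = isw G θ D S := by
  unfold isw
  rw [prod_ew_gem]

theorem sum_powerset_gem (g : G ≃g G) (D : Finset V) (f : Finset V → ℝ) :
    ∑ S ∈ (D.map (gem g)).powerset, f S = ∑ S ∈ D.powerset, f (S.map (gem g)) := by
  symm
  refine Finset.sum_nbij (fun S => S.map (gem g)) ?_ ?_ ?_ fun S _ => rfl
  · intro S hS
    rw [Finset.mem_powerset] at hS ⊢
    exact Finset.map_subset_map.2 hS
  · exact (Finset.map_injective (gem g)).injOn
  · intro T hT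
    rw [Finset.mem_coe, Finset.mem_powerset] at hT
    obtain ⟨U, hU, hU'⟩ := Finset.subset_map_iff.1 hT
    exact ⟨U, Finset.mem_coe.2 (Finset.mem_powerset.2 hU), hU'.symm⟩

section
variable (hT : G.IsTree) {θ κ : ℝ} (h0 : 0 ≤ θ) (h1 : θ < 1)
    (hκ : 0 ≤ κ) (hκ1 : κ < 1) (D : Finset V) (hD : (G.induce (D : Set V)).Connected)

theorem isys_lik_gem (g : G ≃g G) (B : Finset (V × ℕ)) (y : V × ℕ → ℝ) (S : Finset V) :
    (isys G hT h0 h1 hκ hκ1 (D.map (gem g)) (connected_gem g hD)).lik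
        (B.map (gev g).toEmbedding) y (S.map (gem g))
      = (isys G hT h0 h1 hκ hκ1 D hD).lik B (fun f => y (gev g f)) S := by
  unfold Sys.lik
  rw [Finset.prod_map]
  refine Finset.prod_congr rfl fun f _ => ?_
  show 1 + κ * sg (cfg (S.map (gem g)) (g f.1)) * (2 * y (gev g f) - 1)
    = 1 + κ * sg (cfg S f.1) * (2 * y (gev g f) - 1)
  rw [cfg_gem]

theorem isys_post_gem (g : G ≃g G) (B : Finset (V × ℕ)) (y : V × ℕ → ℝ) (e : V × ℕ) :
    (isys G hT h0 h1 hκ hκ1 (D.map (gem g)) (connected_gem g hD)).post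
        (B.map (gev g).toEmbedding) y (gev g e)
      = (isys G hT h0 h1 hκ hκ1 D hD).post B (fun f => y (gev g f)) e := by
  unfold Sys.post Sys.den
  have e1 : ∑ S ∈ (isys G hT h0 h1 hκ hκ1 (D.map (gem g)) (connected_gem g hD)).T,
      (isys G hT h0 h1 hκ hκ1 (D.map (gem g)) (connected_gem g hD)).μ S
        * (isys G hT h0 h1 hκ hκ1 (D.map (gem g)) (connected_gem g hD)).x S (gev g e)
        * (isys G hT h0 h1 hκ hκ1 (D.map (gem g)) (connected_gem g hD)).lik
          (B.map (gev g).toEmbedding) y S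
      = ∑ S ∈ (isys G hT h0 h1 hκ hκ1 D hD).T, (isys G hT h0 h1 hκ hκ1 D hD).μ S
        * (isys G hT h0 h1 hκ hκ1 D hD).x S e
        * (isys G hT h0 h1 hκ hκ1 D hD).lik B (fun f => y (gev g f)) S := by
    refine (sum_powerset_gem g D _).trans (Finset.sum_congr rfl fun S _ => ?_)
    rw [isys_lik_gem]
    show isw G θ (D.map (gem g)) (S.map (gem g)) * sg (cfg (S.map (gem g)) (g e.1)) * _
      = isw G θ D S * sg (cfg S e.1) * _
    rw [isw_gem, cfg_gem]
  have e2 : ∑ S ∈ (isys G hT h0 h1 hκ hκ1 (D.map (gem g)) (connected_gem g hD)).T,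
      (isys G hT h0 h1 hκ hκ1 (D.map (gem g)) (connected_gem g hD)).μ S
        * (isys G hT h0 h1 hκ hκ1 (D.map (gem g)) (connected_gem g hD)).lik
          (B.map (gev g).toEmbedding) y S
      = ∑ S ∈ (isys G hT h0 h1 hκ hκ1 D hD).T, (isys G hT h0 h1 hκ hκ1 D hD).μ S
        * (isys G hT h0 h1 hκ hκ1 D hD).lik B (fun f => y (gev g f)) S := by
    refine (sum_powerset_gem g D _).trans (Finset.sum_congr rfl fun S _ => ?_)
    rw [isys_lik_gem]
    show isw G θ (D.map (gem g)) (S.map (gem g)) * _ = isw G θ D S * _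
    rw [isw_gem]
  rw [e1, e2]

end

theorem mem_evs_gem (g : G ≃g G) (D : Finset V) (N : ℕ) (e : V × ℕ) :
    gev g e ∈ evs (D.map (gem g)) N ↔ e ∈ evs D N := by
  unfold evs
  rw [Finset.mem_product, Finset.mem_product, gev_fst, gev_snd, ← gem_apply, Finset.mem_map']

theorem rk_gem (g : G ≃g G) (ω : V → ℕ → unitInterval) (e : V × ℕ) :
    rk (key (fun v => ω (g.symm v))) (gev g e) = rk (key ω) e := by
  unfold rk key
  rw [gev_fst, gev_snd]
  show toLex (e.2, ((ω (g.symm (g e.1)) 0 : unitInterval) : ℝ)) = _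
  rw [RelIso.symm_apply_apply]

theorem evn_gem (g : G ≃g G) (ω : V → ℕ → unitInterval) (e : V × ℕ) :
    evn (fun v => ω (g.symm v)) (gev g e) = evn ω e := by
  unfold evn
  rw [gev_fst, gev_snd]
  show ω (g.symm (g e.1)) (e.2 + 1) = _
  rw [RelIso.symm_apply_apply]

end P161
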