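import Vale.Agent.P161.SysDefs

/-! P161 targets: every statement is to be proved in the file named in the comment. -/

namespace P161.Targets

open MeasureTheory P161

/-! ### M1 = Tree.lean (helper3) -/
section
variable {V : Type*}

theorem kernel (G : SimpleGraph V) (hT : G.IsTree) (d : ℕ)
    (hfin : ∀ v, (G.neighborSet v).Finite) (hd : ∀ v, (G.neighborSet v).ncard ≤ d)
    {θ ρ : ℝ} (h0 : 0 ≤ θ) (h1 : θ < ρ) (h2 : ρ ^ 2 * (d - 1) < 1) :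
    ∃ C : ℝ, 0 ≤ C ∧ ∀ (v w : V) (D : Finset V),
      ∑ u ∈ D, θ ^ (G.dist v u) * ρ ^ (G.dist u w) ≤ C * ρ ^ (G.dist v w) := sorry

theorem sq_summable (G : SimpleGraph V) (hT : G.IsTree) (d : ℕ)
    (hfin : ∀ v, (G.neighborSet v).Finite) (hd : ∀ v, (G.neighborSet v).ncard ≤ d)
    {ρ : ℝ} (h0 : 0 ≤ ρ) (h2 : ρ ^ 2 * (d - 1) < 1) (v : V) :
    Summable (fun w : V => (ρ ^ 2) ^ (G.dist v w)) := sorry

theorem exists_conn (G : SimpleGraph V) (hT : G.IsTree) (S : Finset V) :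
    ∃ D : Finset V, S ⊆ D ∧ (G.induce (D : Set V)).Connected := sorry

/-! ### M2 = IsingTree.lean (helper4: isw_sum, isw_marginal, isys, post_lip; helper5 may take isw_sum, isw_marginal) -/

theorem isw_sum (G : SimpleGraph V) (hT : G.IsTree) (θ : ℝ) (D : Finset V)
    (hD : (G.induce (D : Set V)).Connected) : ∑ S ∈ D.powerset, isw G θ D S = 1 := sorry

open scoped Classical in
theorem isw_marginal (G : SimpleGraph V) (hT : G.IsTree) (θ : ℝ) (D D' : Finset V)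
    (hD : (G.induce (D : Set V)).Connected) (hD' : (G.induce (D' : Set V)).Connected)
    (h : D ⊆ D') (f : Finset V → ℝ) :
    ∑ S ∈ D'.powerset, isw G θ D' S * f (S ∩ D) = ∑ S ∈ D.powerset, isw G θ D S * f S := sorry

theorem mag_lip (G : SimpleGraph V) (hT : G.IsTree) {θ : ℝ} (h0 : 0 ≤ θ) (h1 : θ < 1)
    (D : Finset V) (hD : (G.induce (D : Set V)).Connected) (h h' : V → ℝ) (v : V) (hv : v ∈ D) :
    |mag G θ D h v - mag G θ D h' v| ≤ ∑ u ∈ D, θ ^ (G.dist v u) * |h u - h' u| := sorry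

/-- the Ising system on `D` -/
noncomputable def isys (G : SimpleGraph V) (hT : G.IsTree) {θ κ : ℝ} (h0 : 0 ≤ θ) (h1 : θ < 1)
    (hκ : 0 ≤ κ) (hκ1 : κ < 1) (D : Finset V) (hD : (G.induce (D : Set V)).Connected) :
    Sys (Finset V) (V × ℕ) where
  T := D.powerset
  μ := isw G θ D
  κ := κ
  x := fun S e => sg (cfg S e.1)
  μ_nonneg := sorry
  μ_sum := isw_sum G hT θ D hD
  κ_nonneg := hκ
  κ_lt := hκ1
  x_abs := sorry

theorem isys_post_lip (G : SimpleGraph V) (hT : G.IsTree) {θ κ : ℝ} (h0 : 0 ≤ θ) (h1 : θ < 1)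
    (hκ : 0 ≤ κ) (hκ1 : κ < 1) (D : Finset V) (hD : (G.induce (D : Set V)).Connected)
    (A : Finset (V × ℕ)) (hA : ∀ f ∈ A, f.1 ∈ D) (e : V × ℕ) (he : e.1 ∈ D)
    (y y' : V × ℕ → ℝ) (hy : ∀ f, y f ∈ Set.Icc (0 : ℝ) 1) (hy' : ∀ f, y' f ∈ Set.Icc (0 : ℝ) 1) :
    |(isys G hT h0 h1 hκ hκ1 D hD).post A y e - (isys G hT h0 h1 hκ hκ1 D hD).post A y' e|
      ≤ ∑ f ∈ A, (2 * κ / (1 - κ ^ 2)) * θ ^ (G.dist e.1 f.1) * |y f - y' f| := sorry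

theorem isys_post_eq (G : SimpleGraph V) (hT : G.IsTree) {θ κ : ℝ} (h0 : 0 ≤ θ) (h1 : θ < 1)
    (hκ : 0 ≤ κ) (hκ1 : κ < 1) (D D' : Finset V) (hD : (G.induce (D : Set V)).Connected)
    (hD' : (G.induce (D' : Set V)).Connected) (h : D ⊆ D')
    (A : Finset (V × ℕ)) (hA : ∀ f ∈ A, f.1 ∈ D) (e : V × ℕ) (he : e.1 ∈ D) (y : V × ℕ → ℝ) :
    (isys G hT h0 h1 hκ hκ1 D' hD').post A y e = (isys G hT h0 h1 hκ hκ1 D hD).post A y e := sorry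

end

/-! ### M3 = Channel.lean (helper2) -/

theorem Qf_mem {κ m w : ℝ} (hκ : 0 ≤ κ) (hκ1 : κ < 1) (hm : |m| ≤ 1)
    (hw : w ∈ Set.Icc (0 : ℝ) 1) : Qf κ m w ∈ Set.Icc (0 : ℝ) 1 := sorry
theorem cdfF_mem {κ m y : ℝ} (hκ : 0 ≤ κ) (hκ1 : κ < 1) (hm : |m| ≤ 1)
    (hy : y ∈ Set.Icc (0 : ℝ) 1) : cdfF κ m y ∈ Set.Icc (0 : ℝ) 1 := sorry
theorem cdfF_Qf {κ m w : ℝ} (hκ : 0 ≤ κ) (hκ1 : κ < 1) (hm : |m| ≤ 1)
    (hw : w ∈ Set.Icc (0 : ℝ) 1) : cdfF κ m (Qf κ m w) = w := sorry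
theorem Qf_cdfF {κ m y : ℝ} (hκ : 0 ≤ κ) (hκ1 : κ < 1) (hm : |m| ≤ 1)
    (hy : y ∈ Set.Icc (0 : ℝ) 1) : Qf κ m (cdfF κ m y) = y := sorry
theorem Qf_lip {κ m m' w w' : ℝ} (hκ : 0 ≤ κ) (hκ1 : κ < 1) (hm : |m| ≤ 1) (hm' : |m'| ≤ 1)
    (hw : w ∈ Set.Icc (0 : ℝ) 1) (hw' : w' ∈ Set.Icc (0 : ℝ) 1) :
    |Qf κ m w - Qf κ m' w'| ≤ (|w - w'| + κ / 4 * |m - m'|) / (1 - κ) := sorry
theorem measurable_Qf : Measurable (fun p : ℝ × ℝ × ℝ => Qf p.1 p.2.1 p.2.2) := sorry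
/-- one dimensional transport -/
theorem integral_Qf {κ m : ℝ} (hκ : 0 ≤ κ) (hκ1 : κ < 1) (hm : |m| ≤ 1) (g : ℝ → ℝ)
    (hg : Measurable g) (hb : ∃ C, ∀ y, |g y| ≤ C) :
    ∫ w : unitInterval, g (Qf κ m w) = ∫ y : unitInterval, g y * (1 + κ * m * (2 * y - 1)) := sorry

/-! ### M4 = Solve.lean (helper2): the recursion -/
section
variable {S E R : Type*} [LinearOrder R] (M : Sys S E)

theorem post_abs (A : Finset E) (y : E → ℝ) (hy : ∀ f, y f ∈ Set.Icc (0 : ℝ) 1) (e : E) :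
    |M.post A y e| ≤ 1 := sorry

theorem F_eq (r : E → R) (A : Finset E) (w : E → ℝ) (e : E) :
    M.F r A w e = Qf M.κ (M.post (Sys.past r A e) (M.F r A w) e) (w e) := sorry

theorem F_mem (r : E → R) (A : Finset E) (w : E → unitInterval) (e : E) :
    M.F r A (cw w) e ∈ Set.Icc (0 : ℝ) 1 := sorry

/-- uniqueness of the fixed point on `A` -/
theorem F_unique (r : E → R) (A : Finset E) (w y : E → ℝ)
    (h : ∀ e ∈ A, y e = Qf M.κ (M.post (Sys.past r A e) y e) (w e)) :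
    ∀ e ∈ A, y e = M.F r A w e := sorry

theorem F_Tr (r : E → R) (A : Finset E) (y : E → ℝ) (hy : ∀ f, y f ∈ Set.Icc (0 : ℝ) 1) :
    ∀ e ∈ A, M.F r A (M.Tr r A y) e = y e := sorry

theorem Tr_F (r : E → R) (A : Finset E) (w : E → unitInterval) (e : E) :
    M.Tr r A (M.F r A (cw w)) e = w e := sorry

/-- joint measurability in (rank, noise) -/
theorem measurable_F {Ω : Type*} [MeasurableSpace Ω] [Countable E] (r : Ω → E → R)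
    (hr : ∀ e f, MeasurableSet {ω | r ω e < r ω f}) (A : Finset E) (w : Ω → E → ℝ)
    (hw : Measurable w) : Measurable (fun ω => M.F (r ω) A (w ω)) := sorry

/-- influences -/
theorem F_lip (r : E → R) (A : Finset E) (k a : E → E → ℝ)
    (ha : ∀ e f, 0 ≤ a e f) (hk : ∀ e f, 0 ≤ k e f)
    (hpost : ∀ e ∈ A, ∀ B ⊆ A, ∀ y y' : E → ℝ, (∀ f, y f ∈ Set.Icc (0 : ℝ) 1) →
      (∀ f, y' f ∈ Set.Icc (0 : ℝ) 1) →
      |M.post B y e - M.post B y' e| ≤ ∑ f ∈ B, k e f * |y f - y' f|)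
    (hrec : ∀ e ∈ A, ∀ f ∈ A,
      M.κ / (4 * (1 - M.κ)) * ∑ g ∈ Sys.past r A e, k e g * a g f ≤ a e f / 2)
    (hdiag : ∀ e ∈ A, 1 / (1 - M.κ) ≤ a e e / 2) :
    ∀ e ∈ A, ∀ w w' : E → unitInterval,
      |M.F r A (cw w) e - M.F r A (cw w') e| ≤ ∑ f ∈ A, a e f * |(w f : ℝ) - w' f| := sorry

/-- only the past matters -/
theorem F_initial (r : E → R) (A B : Finset E) (hAB : A ⊆ B)
    (hinit : ∀ f ∈ B, ∀ e ∈ A, r f < r e → f ∈ A) (w : E → ℝ) :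
    ∀ e ∈ A, M.F r A w e = M.F r B w e := sorry

/-- locality -/
theorem F_local (r : E → R) (A : Finset E) (w w' : E → ℝ) (h : ∀ e ∈ A, w e = w' e) :
    ∀ e ∈ A, M.F r A w e = M.F r A w' e := sorry

/-- change of system and of the labels of the events -/
theorem F_congr {S' E' R' : Type*} [LinearOrder R'] (M' : Sys S' E') (hκ : M'.κ = M.κ)
    (φ : E ≃ E') (r : E → R) (r' : E' → R') (A : Finset E) (A' : Finset E')
    (hA : ∀ e, φ e ∈ A' ↔ e ∈ A) (hr : ∀ e ∈ A, ∀ f ∈ A, r' (φ e) < r' (φ f) ↔ r e < r f)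
    (hpost : ∀ e ∈ A, ∀ B ⊆ A, ∀ y : E' → ℝ,
      M'.post (B.map φ.toEmbedding) y (φ e) = M.post B (fun f => y (φ f)) e)
    (w : E' → ℝ) : ∀ e ∈ A, M'.F r' A' w (φ e) = M.F r A (fun f => w (φ f)) e := sorry

/-! ### M6 = Innov.lean (helper8): exact laws -/

theorem law_F [Countable E] (r : E → R) (A : Finset E) (hr : Set.InjOn r A) (Φ : (E → ℝ) → ℝ)
    (hΦ : Measurable Φ) (hb : ∃ C, ∀ y, |Φ y| ≤ C)
    (hloc : ∀ y y' : E → ℝ, (∀ e ∈ A, y e = y' e) → Φ y = Φ y') :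
    ∫ w, Φ (M.F r A (cw w)) ∂(noise E) = ∫ y, Φ (cw y) * M.den A (cw y) ∂(noise E) := sorry

theorem law_Tr [Countable E] (r : E → R) (A : Finset E) (hr : Set.InjOn r A) (Φ : (E → ℝ) → ℝ)
    (hΦ : Measurable Φ) (hb : ∃ C, ∀ y, |Φ y| ≤ C)
    (hloc : ∀ y y' : E → ℝ, (∀ e ∈ A, y e = y' e) → Φ y = Φ y') :
    ∫ y, Φ (M.Tr r A (cw y)) * M.den A (cw y) ∂(noise E) = ∫ w, Φ (cw w) ∂(noise E) := sorry

theorem den_marginal [Countable E] (A B : Finset E) (hAB : A ⊆ B) (Φ : (E → ℝ) → ℝ)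
    (hΦ : Measurable Φ) (hb : ∃ C, ∀ y, |Φ y| ≤ C)
    (hloc : ∀ y y' : E → ℝ, (∀ e ∈ A, y e = y' e) → Φ y = Φ y') :
    ∫ y, Φ (cw y) * M.den B (cw y) ∂(noise E) = ∫ y, Φ (cw y) * M.den A (cw y) ∂(noise E) := sorry

/-- tower property / martingale orthogonality: for `A ⊆ B ⊆ C`
`E (m_B - m_A)^2 = E m_B^2 - E m_A^2`. -/
theorem post_pyth [Countable E] (A B C : Finset E) (hAB : A ⊆ B) (hBC : B ⊆ C) (e : E) :
    ∫ y, (M.post B (cw y) e - M.post A (cw y) e) ^ 2 * M.den C (cw y) ∂(noise E)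
      = ∫ y, (M.post B (cw y) e) ^ 2 * M.den C (cw y) ∂(noise E)
        - ∫ y, (M.post A (cw y) e) ^ 2 * M.den C (cw y) ∂(noise E) := sorry

end

/-! ### M5 = EfronStein.lean (helper7) -/

theorem window {E : Type*} [Countable E] [DecidableEq E] (A W : Finset E) (hW : W ⊆ A)
    (f : (E → unitInterval) → ℝ) (hf : Measurable f) (a : E → ℝ) (ha : ∀ e, 0 ≤ a e)
    (hlip : ∀ w w' : E → unitInterval, |f w - f w'| ≤ ∑ e ∈ A, a e * |(w e : ℝ) - w' e|) :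
    ∃ g : (E → unitInterval) → ℝ, Measurable g ∧
      (∀ w w' : E → unitInterval, |g w - g w'| ≤ ∑ e ∈ W, a e * |(w e : ℝ) - w' e|) ∧
      (∀ C, (∀ w, |f w| ≤ C) → ∀ w, |g w| ≤ C) ∧
      ∫ w, (f w - g w) ^ 2 ∂(noise E) ≤ ∑ e ∈ A \ W, (a e) ^ 2 := sorry

/-! ### M7a = Cauchy.lean (helper9) -/

theorem cauchy_abs {S E R : Type*} [LinearOrder R] [Countable E] [DecidableEq E] (M : Sys S E) (r : E → R)
    (A B W : Finset E) (hAB : A ⊆ B) (hW : W ⊆ A) (hr : Set.InjOn r B) (e : E) (he : e ∈ A)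
    (a : E → ℝ) (ha : ∀ f, 0 ≤ a f)
    (hlip : ∀ w w' : E → unitInterval,
      |M.F r A (cw w) e - M.F r A (cw w') e| ≤ ∑ f ∈ A, a f * |(w f : ℝ) - w' f|) :
    ∫ w, (M.F r A (cw w) e - M.F r B (cw w) e) ^ 2 ∂(noise E)
      ≤ 6 * ∑ f ∈ A \ W, (a f) ^ 2
        + 3 * W.card * (M.κ ^ 2 / 16) * ∑ f ∈ W, (a f) ^ 2 *
          (∫ w, (M.post (Sys.past r B f) (M.F r B (cw w)) f) ^ 2 ∂(noise E)
            - ∫ w, (M.post (Sys.past r A f) (M.F r A (cw w)) f) ^ 2 ∂(noise E)) := sorry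

/-! ### M7c = Influence.lean (helper3): from F_lip, isys_post_lip, kernel -/

theorem isys_F_lip {V : Type*} (G : SimpleGraph V) (hT : G.IsTree) (d : ℕ)
    (hfin : ∀ v, (G.neighborSet v).Finite) (hd : ∀ v, (G.neighborSet v).ncard ≤ d) (hd2 : 2 ≤ d)
    {θ ρ : ℝ} (h0 : 0 ≤ θ) (h1 : θ < 1) (hθρ : θ < ρ) (hρ : ρ ^ 2 * (d - 1) < 1) :
    ∃ κ0 : ℝ, 0 < κ0 ∧ ∀ (κ : ℝ) (hκ : 0 ≤ κ) (hκ1 : κ < 1), κ ≤ κ0 →
      ∀ (D : Finset V) (hD : (G.induce (D : Set V)).Connected) (L : V → ℝ) (N : ℕ),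
      ∀ e ∈ evs D N, ∀ w w' : V × ℕ → unitInterval,
      |(isys G hT h0 h1 hκ hκ1 D hD).F (rk L) (evs D N) (cw w) e
        - (isys G hT h0 h1 hκ hκ1 D hD).F (rk L) (evs D N) (cw w') e|
      ≤ ∑ f ∈ evs D N, (2 / (1 - κ) * 2 ^ e.2 * ρ ^ (G.dist e.1 f.1)) * |(w f : ℝ) - w' f| := sorry

end P161.Targets
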