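import Vale.Agent.P161.Targets

/-! P161 targets, part 2 (limit, signs, final). -/

namespace P161.Targets

open MeasureTheory P161

variable {V : Type*}

/-- the noise space: one sequence of uniform variables per vertex. -/
noncomputable def noiseV (V : Type*) : Measure (V → ℕ → unitInterval) :=
  Measure.infinitePi (fun _ : V => noise ℕ)

/-- order keys -/
def key (ω : V → ℕ → unitInterval) : V → ℝ := fun v => (ω v 0 : ℝ)

/-- noise of the events -/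
def evn (ω : V → ℕ → unitInterval) : V × ℕ → unitInterval := fun e => ω e.1 (e.2 + 1)

/-- observations computed in the finite subtree `D` during `N` rounds -/
noncomputable def YD (G : SimpleGraph V) (hT : G.IsTree) {θ κ : ℝ} (h0 : 0 ≤ θ) (h1 : θ < 1)
    (hκ : 0 ≤ κ) (hκ1 : κ < 1) (D : Finset V) (hD : (G.induce (D : Set V)).Connected)
    (N : ℕ) (ω : V → ℕ → unitInterval) (e : V × ℕ) : ℝ :=
  (isys G hT h0 h1 hκ hκ1 D hD).F (rk (key ω)) (evs D N) (cw (evn ω)) e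

/-- M7b (helper6), Limit.lean -/
theorem exists_limit [Countable V] (G : SimpleGraph V) (hT : G.IsTree) (d : ℕ)
    (hfin : ∀ v, (G.neighborSet v).Finite) (hd : ∀ v, (G.neighborSet v).ncard ≤ d) (hd2 : 2 ≤ d)
    {θ : ℝ} (h0 : 0 ≤ θ) (h1 : θ < 1) (h2 : θ ^ 2 * (d - 1) < 1) :
    ∃ (κ : ℝ) (hκ : 0 ≤ κ) (hκ1 : κ < 1), 0 < κ ∧
    ∃ y : V × ℕ → (V → ℕ → unitInterval) → ℝ,
      (∀ e, Measurable (y e)) ∧ (∀ e ω, y e ω ∈ Set.Icc (0 : ℝ) 1) ∧
      (∀ e : V × ℕ, ∀ ε > 0, ∃ D0 : Finset V, e.1 ∈ D0 ∧ ∀ (D : Finset V)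
        (hD : (G.induce (D : Set V)).Connected), D0 ⊆ D → ∀ N, e.2 < N →
        ∫ ω, (YD G hT h0 h1 hκ hκ1 D hD N ω e - y e ω) ^ 2 ∂(noiseV V) ≤ ε) ∧
      (∀ g : G ≃g G, ∀ e : V × ℕ, ∀ᵐ ω ∂(noiseV V),
        y (g e.1, e.2) (fun v => ω (g.symm v)) = y e ω) := sorry

end P161.Targets
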